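import Vale.Agent.P101.JS.Base

/-!
# P101: matrices on a doubled index set for the explicit half flip

`e₁`, `e₂` are the two copies of `M_N` inside `M_{N × N}` (the first copy is the inner index),
`flipMat σ s` is the exponential path from `1` to the permutation matrix of an involution `σ`.
-/

namespace Vale.Agent.P101.JS.Flip

open scoped ComplexOrder CStarAlgebra Topology
open Vale.Agent.P101.JS

noncomputable section

/-- Complex matrices. -/
abbrev Mat (N : Type) [Fintype N] [DecidableEq N] : Type := CStarMatrix N N ℂ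

variable {L C D : Type} [Fintype L] [DecidableEq L] [Fintype C] [DecidableEq C] [Fintype D]
  [DecidableEq D]

/-- `M ↦ M ⊗ 1` along a splitting of the index set. -/
def amp (e : L ≃ C × D) : Mat C →⋆ₐ[ℂ] Mat L where
  toFun M := CStarMatrix.ofMatrix (Matrix.of fun a b =>
    if (e a).2 = (e b).2 then M (e a).1 (e b).1 else 0)
  map_one' := by
    refine CStarMatrix.ext fun a b => ?_
    simp only [CStarMatrix.ofMatrix_apply, Matrix.of_apply, CStarMatrix.one_apply]
    have hab : a = b ↔ (e a).1 = (e b).1 ∧ (e a).2 = (e b).2 :=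
      e.injective.eq_iff.symm.trans Prod.ext_iff
    by_cases h1 : (e a).1 = (e b).1 <;> by_cases h2 : (e a).2 = (e b).2 <;>
      simp [h1, h2, hab]
  map_mul' M M' := by
    refine CStarMatrix.ext fun a b => ?_
    simp only [CStarMatrix.ofMatrix_apply, Matrix.of_apply, CStarMatrix.mul_apply]
    refine Eq.trans ?_ ((Equiv.sum_comp e.symm _))
    simp only [Equiv.apply_symm_apply, Fintype.sum_prod_type]
    rw [Finset.sum_comm, Finset.sum_eq_single (e a).2]
    · by_cases h : (e a).2 = (e b).2 <;> simp [h]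
    · intro r _ hr
      simp [Ne.symm hr]
    · simp
  map_zero' := by refine CStarMatrix.ext fun a b => ?_; simp
  map_add' M M' := by
    refine CStarMatrix.ext fun a b => ?_
    simp only [CStarMatrix.ofMatrix_apply, Matrix.of_apply, CStarMatrix.add_apply]
    split_ifs <;> simp
  commutes' r := by
    refine CStarMatrix.ext fun a b => ?_
    simp only [CStarMatrix.ofMatrix_apply, Matrix.of_apply, CStarMatrix.algebraMap_apply]
    have hab : a = b ↔ (e a).1 = (e b).1 ∧ (e a).2 = (e b).2 :=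
      e.injective.eq_iff.symm.trans Prod.ext_iff
    by_cases h1 : (e a).1 = (e b).1 <;> by_cases h2 : (e a).2 = (e b).2 <;>
      simp [h1, h2, hab]
  map_star' M := by
    refine CStarMatrix.ext fun a b => ?_
    simp only [CStarMatrix.ofMatrix_apply, Matrix.of_apply, CStarMatrix.star_apply]
    by_cases h : (e a).2 = (e b).2 <;> simp [h, Ne.symm]

theorem amp_apply (e : L ≃ C × D) (M : Mat C) (a b : L) :
    amp e M a b = if (e a).2 = (e b).2 then M (e a).1 (e b).1 else 0 := rfl

/-- The permutation matrix. -/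
def perm (σ : Equiv.Perm L) : Mat L :=
  CStarMatrix.ofMatrix (Matrix.of fun a b => if σ a = b then 1 else 0)

theorem perm_apply (σ : Equiv.Perm L) (a b : L) : perm σ a b = if σ a = b then 1 else 0 := rfl

theorem perm_mul (σ : Equiv.Perm L) (M : Mat L) (a b : L) : (perm σ * M) a b = M (σ a) b := by
  simp [CStarMatrix.mul_apply, perm_apply]

theorem mul_perm (σ : Equiv.Perm L) (hσ : ∀ a, σ (σ a) = a) (M : Mat L) (a b : L) :
    (M * perm σ) a b = M a (σ b) := by
  simp only [CStarMatrix.mul_apply, perm_apply]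
  rw [Finset.sum_eq_single (σ b)]
  · simp [hσ]
  · intro c _ hc
    rw [if_neg, mul_zero]
    rintro rfl
    exact hc (hσ c).symm
  · simp

/-- A permutation matrix of an involution that preserves the splitting lies in the range of `amp`. -/
theorem perm_mem_amp (e : L ≃ C × D) (σ : Equiv.Perm L) (τ : Equiv.Perm C)
    (h : ∀ a, e (σ a) = (τ (e a).1, (e a).2)) : perm σ ∈ (amp e).range := by
  refine ⟨perm τ, CStarMatrix.ext fun a b => ?_⟩
  show amp e (perm τ) a b = _
  simp only [amp_apply, perm_apply]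
  by_cases h2 : (e a).2 = (e b).2 <;> by_cases h1 : τ (e a).1 = (e b).1 <;>
    simp [h1, h2, (e.injective.eq_iff (a := σ a) (b := b)).symm.trans Prod.ext_iff, h]

/-- The path from `1` to `perm σ`. -/
def flipMat (σ : Equiv.Perm L) (s : ℝ) : Mat L :=
  (1 / 2 : ℂ) • (1 + perm σ) +
    (Complex.exp (↑Real.pi * Complex.I * ↑s) / 2) • (1 - perm σ)

theorem flipMat_zero (σ : Equiv.Perm L) : flipMat σ 0 = 1 := by
  simp only [flipMat, Complex.ofReal_zero, mul_zero, Complex.exp_zero]
  module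

theorem flipMat_one (σ : Equiv.Perm L) : flipMat σ 1 = perm σ := by
  simp only [flipMat, Complex.ofReal_one, mul_one, Complex.exp_pi_mul_I]
  module

theorem perm_sq {σ : Equiv.Perm L} (hσ : ∀ a, σ (σ a) = a) : perm σ * perm σ = 1 := by
  refine CStarMatrix.ext fun a b => ?_
  rw [perm_mul, perm_apply, hσ, CStarMatrix.one_apply]

theorem perm_star {σ : Equiv.Perm L} (hσ : ∀ a, σ (σ a) = a) : star (perm σ) = perm σ := by
  refine CStarMatrix.ext fun a b => ?_
  simp only [CStarMatrix.star_apply, perm_apply]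
  by_cases h : σ a = b
  · subst h; simp [hσ]
  · have h' : σ b ≠ a := fun h' => h (by rw [← h', hσ])
    simp [h, h']

theorem flipMat_add {σ : Equiv.Perm L} (hσ : ∀ a, σ (σ a) = a) (a b : ℝ) :
    flipMat σ a * flipMat σ b = flipMat σ (a + b) := by
  simp only [flipMat, Complex.ofReal_add, mul_add, Complex.exp_add]
  simp only [add_mul, mul_add, mul_sub, sub_mul, smul_mul_assoc, mul_smul_comm,
    one_mul, mul_one, perm_sq hσ, smul_add, smul_sub, smul_smul]
  module

theorem star_flipMat {σ : Equiv.Perm L} (hσ : ∀ a, σ (σ a) = a) (s : ℝ) :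
    star (flipMat σ s) = flipMat σ (-s) := by
  simp only [flipMat, star_add, star_smul, star_sub, star_one, perm_star hσ]
  congr 2
  · norm_num
  · rw [Complex.star_def, map_div₀, ← Complex.exp_conj]
    simp only [map_mul, Complex.conj_ofReal, Complex.conj_I, map_ofNat, Complex.ofReal_neg]
    ring_nf

theorem flipMat_unitary {σ : Equiv.Perm L} (hσ : ∀ a, σ (σ a) = a) (s : ℝ) :
    flipMat σ s ∈ unitary (Mat L) :=
  Unitary.mem_iff.mpr ⟨by rw [star_flipMat hσ, flipMat_add hσ, neg_add_cancel, flipMat_zero],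
    by rw [star_flipMat hσ, flipMat_add hσ, add_neg_cancel, flipMat_zero]⟩

theorem flipMat_commute {σ : Equiv.Perm L} {M : Mat L} (h : Commute (perm σ) M) (s : ℝ) :
    Commute (flipMat σ s) M :=
  ((((Commute.one_left M).add_left h).smul_left _)).add_left
    (((Commute.one_left M).sub_left h).smul_left _)

theorem flipMat_mem {σ : Equiv.Perm L} (S : StarSubalgebra ℂ (Mat L)) (h : perm σ ∈ S) (s : ℝ) :
    flipMat σ s ∈ S :=
  add_mem (SMulMemClass.smul_mem _ (add_mem (one_mem _) h))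
    (SMulMemClass.smul_mem _ (sub_mem (one_mem _) h))

theorem continuous_flipMat (σ : Equiv.Perm L) : Continuous (flipMat σ) := by
  unfold flipMat
  fun_prop

variable (p q : ℕ)

/-- Pairs (outer, inner) of indices. -/
abbrev I2 : Type := Ix p q × Ix p q

/-- The first (inner) copy. -/
def e₁ : Mat (Ix p q) →⋆ₐ[ℂ] Mat (I2 p q) := amp (Equiv.prodComm _ _)

/-- The second (outer) copy. -/
def e₂ : Mat (Ix p q) →⋆ₐ[ℂ] Mat (I2 p q) := amp (Equiv.refl _)

/-- Exchange the `p`-parts. -/
def swP : Equiv.Perm (I2 p q) where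
  toFun a := ((a.2.1, a.1.2), (a.1.1, a.2.2))
  invFun a := ((a.2.1, a.1.2), (a.1.1, a.2.2))
  left_inv _ := rfl
  right_inv _ := rfl

/-- Exchange the `q`-parts. -/
def swQ : Equiv.Perm (I2 p q) where
  toFun a := ((a.1.1, a.2.2), (a.2.1, a.1.2))
  invFun a := ((a.1.1, a.2.2), (a.2.1, a.1.2))
  left_inv _ := rfl
  right_inv _ := rfl

variable {p q}

theorem swP_invol (a : I2 p q) : swP p q (swP p q a) = a := rfl

theorem swQ_invol (a : I2 p q) : swQ p q (swQ p q a) = a := rfl

/-- The full flip. -/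
def full : Mat (I2 p q) := perm (swP p q) * perm (swQ p q)

theorem full_apply (M : Mat (I2 p q)) (a b : I2 p q) :
    ((full : Mat (I2 p q)) * M) a b = M (a.2, a.1) b := by
  rw [full, mul_assoc, perm_mul, perm_mul]
  rfl

theorem mul_full (M : Mat (I2 p q)) (a b : I2 p q) :
    (M * (full : Mat (I2 p q))) a b = M a (b.2, b.1) := by
  rw [full, ← mul_assoc, mul_perm _ swQ_invol, mul_perm _ swP_invol]
  rfl

theorem e₂_full (M : Mat (Ix p q)) : e₂ p q M * full = full * e₁ p q M := by
  refine CStarMatrix.ext fun a b => ?_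
  rw [full_apply, mul_full]
  rfl

theorem full_comm : perm (swQ p q) * perm (swP p q) = full := by
  refine CStarMatrix.ext fun a b => ?_
  rw [← mul_one full, full_apply, perm_mul, perm_apply, CStarMatrix.one_apply]
  rfl

theorem full_sq : full * full = (1 : Mat (I2 p q)) := by
  refine CStarMatrix.ext fun a b => ?_
  rw [full_apply, ← mul_one full, full_apply]

theorem full_unitary : full ∈ unitary (Mat (I2 p q)) :=
  mul_mem (flipMat_one (swP p q) ▸ flipMat_unitary swP_invol 1)
    (flipMat_one (swQ p q) ▸ flipMat_unitary swQ_invol 1)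

variable (p q)

/-- The splittings that forget one of the four factors. -/
def outQ : I2 p q ≃ (Fin p × Ix p q) × Fin q where
  toFun a := ((a.1.1, a.2), a.1.2)
  invFun c := ((c.1.1, c.2), c.1.2)
  left_inv _ := rfl
  right_inv _ := rfl

/-- See `outQ`. -/
def outP : I2 p q ≃ (Fin q × Ix p q) × Fin p where
  toFun a := ((a.1.2, a.2), a.1.1)
  invFun c := ((c.2, c.1.1), c.1.2)
  left_inv _ := rfl
  right_inv _ := rfl

/-- See `outQ`. -/
def inQ : I2 p q ≃ (Fin p × Ix p q) × Fin q where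
  toFun a := ((a.2.1, a.1), a.2.2)
  invFun c := (c.1.2, (c.1.1, c.2))
  left_inv _ := rfl
  right_inv _ := rfl

/-- See `outQ`. -/
def inP : I2 p q ≃ (Fin q × Ix p q) × Fin p where
  toFun a := ((a.2.2, a.1), a.2.1)
  invFun c := (c.1.2, (c.2, c.1.1))
  left_inv _ := rfl
  right_inv _ := rfl

variable {p q}

theorem e₁_mem_outQ (X : Mat (Ix p q)) : e₁ p q X ∈ (amp (outQ p q)).range := by
  refine ⟨CStarMatrix.ofMatrix (Matrix.of fun c c' => if c.1 = c'.1 then X c.2 c'.2 else 0),
    CStarMatrix.ext fun a b => ?_⟩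
  show amp (outQ p q) _ a b = amp (Equiv.prodComm _ _) X a b
  simp only [amp_apply, outQ, Equiv.coe_fn_mk, Equiv.prodComm_apply, Prod.swap,
    CStarMatrix.ofMatrix_apply, Matrix.of_apply]
  by_cases h1 : a.1.1 = b.1.1 <;> by_cases h2 : a.1.2 = b.1.2 <;> simp [h1, h2, Prod.ext_iff]

theorem e₁_mem_outP (X : Mat (Ix p q)) : e₁ p q X ∈ (amp (outP p q)).range := by
  refine ⟨CStarMatrix.ofMatrix (Matrix.of fun c c' => if c.1 = c'.1 then X c.2 c'.2 else 0),
    CStarMatrix.ext fun a b => ?_⟩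
  show amp (outP p q) _ a b = amp (Equiv.prodComm _ _) X a b
  simp only [amp_apply, outP, Equiv.coe_fn_mk, Equiv.prodComm_apply, Prod.swap,
    CStarMatrix.ofMatrix_apply, Matrix.of_apply]
  by_cases h1 : a.1.1 = b.1.1 <;> by_cases h2 : a.1.2 = b.1.2 <;> simp [h1, h2, Prod.ext_iff]

theorem e₂_mem_inQ (X : Mat (Ix p q)) : e₂ p q X ∈ (amp (inQ p q)).range := by
  refine ⟨CStarMatrix.ofMatrix (Matrix.of fun c c' => if c.1 = c'.1 then X c.2 c'.2 else 0),
    CStarMatrix.ext fun a b => ?_⟩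
  show amp (inQ p q) _ a b = amp (Equiv.refl _) X a b
  simp only [amp_apply, inQ, Equiv.coe_fn_mk, Equiv.refl_apply,
    CStarMatrix.ofMatrix_apply, Matrix.of_apply]
  by_cases h1 : a.2.1 = b.2.1 <;> by_cases h2 : a.2.2 = b.2.2 <;> simp [h1, h2, Prod.ext_iff]

theorem e₂_mem_inP (X : Mat (Ix p q)) : e₂ p q X ∈ (amp (inP p q)).range := by
  refine ⟨CStarMatrix.ofMatrix (Matrix.of fun c c' => if c.1 = c'.1 then X c.2 c'.2 else 0),
    CStarMatrix.ext fun a b => ?_⟩
  show amp (inP p q) _ a b = amp (Equiv.refl _) X a b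
  simp only [amp_apply, inP, Equiv.coe_fn_mk, Equiv.refl_apply,
    CStarMatrix.ofMatrix_apply, Matrix.of_apply]
  by_cases h1 : a.2.1 = b.2.1 <;> by_cases h2 : a.2.2 = b.2.2 <;> simp [h1, h2, Prod.ext_iff]

theorem swP_mem_outQ : perm (swP p q) ∈ (amp (outQ p q)).range :=
  perm_mem_amp _ _ ⟨fun c => (c.2.1, (c.1, c.2.2)), fun c => (c.2.1, (c.1, c.2.2)),
    fun _ => rfl, fun _ => rfl⟩ fun _ => rfl

theorem swP_mem_inQ : perm (swP p q) ∈ (amp (inQ p q)).range :=
  perm_mem_amp _ _ ⟨fun c => (c.2.1, (c.1, c.2.2)), fun c => (c.2.1, (c.1, c.2.2)),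
    fun _ => rfl, fun _ => rfl⟩ fun _ => rfl

theorem swQ_mem_outP : perm (swQ p q) ∈ (amp (outP p q)).range :=
  perm_mem_amp _ _ ⟨fun c => (c.2.2, (c.2.1, c.1)), fun c => (c.2.2, (c.2.1, c.1)),
    fun _ => rfl, fun _ => rfl⟩ fun _ => rfl

theorem swQ_mem_inP : perm (swQ p q) ∈ (amp (inP p q)).range :=
  perm_mem_amp _ _ ⟨fun c => (c.2.2, (c.2.1, c.1)), fun c => (c.2.2, (c.2.1, c.1)),
    fun _ => rfl, fun _ => rfl⟩ fun _ => rfl

/-- Conjugating by `swQ` moves the inner `q`-factor outside. -/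
theorem swQ_conj_e₁_mem (X : Mat (Ix p q)) :
    perm (swQ p q) * e₁ p q X * perm (swQ p q) ∈ (amp (inQ p q)).range := by
  refine ⟨CStarMatrix.ofMatrix (Matrix.of fun c c' =>
    if c.2.1 = c'.2.1 then X (c.1, c.2.2) (c'.1, c'.2.2) else 0), CStarMatrix.ext fun a b => ?_⟩
  rw [mul_perm _ swQ_invol, perm_mul]
  show amp (inQ p q) _ a b = amp (Equiv.prodComm _ _) X (swQ p q a) (swQ p q b)
  simp only [amp_apply, inQ, swQ, Equiv.coe_fn_mk, Equiv.prodComm_apply, Prod.swap,
    CStarMatrix.ofMatrix_apply, Matrix.of_apply]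
  by_cases h1 : a.1.1 = b.1.1 <;> by_cases h2 : a.2.2 = b.2.2 <;> simp [h1, h2, Prod.ext_iff]

/-- Conjugating by `swP` moves the inner `p`-factor outside. -/
theorem swP_conj_e₁_mem (X : Mat (Ix p q)) :
    perm (swP p q) * e₁ p q X * perm (swP p q) ∈ (amp (inP p q)).range := by
  refine ⟨CStarMatrix.ofMatrix (Matrix.of fun c c' =>
    if c.2.2 = c'.2.2 then X (c.2.1, c.1) (c'.2.1, c'.1) else 0), CStarMatrix.ext fun a b => ?_⟩
  rw [mul_perm _ swP_invol, perm_mul]
  show amp (inP p q) _ a b = amp (Equiv.prodComm _ _) X (swP p q a) (swP p q b)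
  simp only [amp_apply, inP, swP, Equiv.coe_fn_mk, Equiv.prodComm_apply, Prod.swap,
    CStarMatrix.ofMatrix_apply, Matrix.of_apply]
  by_cases h1 : a.2.1 = b.2.1 <;> by_cases h2 : a.1.2 = b.1.2 <;> simp [h1, h2, Prod.ext_iff]

/-- Left-block matrices commute with `swQ` in the first copy. -/
theorem swQ_commute {M : Mat (Ix p q)} (h : IsLeft M) :
    Commute (perm (swQ p q)) (e₁ p q M) := by
  obtain ⟨a, ha⟩ := h
  refine CStarMatrix.ext fun x y => ?_
  rw [perm_mul, mul_perm _ swQ_invol]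
  show amp (Equiv.prodComm _ _) M (swQ p q x) y = amp (Equiv.prodComm _ _) M x (swQ p q y)
  simp only [amp_apply, swQ, Equiv.coe_fn_mk, Equiv.prodComm_apply, Prod.swap, ha, Prod.ext_iff]
  by_cases h1 : x.1.1 = y.1.1 <;> by_cases h2 : x.2.2 = y.1.2 <;>
    by_cases h3 : x.1.2 = y.2.2 <;> simp [h1, h2, h3]

/-- Right-block matrices commute with `swP` in the first copy. -/
theorem swP_commute {M : Mat (Ix p q)} (h : IsRight M) :
    Commute (perm (swP p q)) (e₁ p q M) := by
  obtain ⟨a, ha⟩ := h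
  refine CStarMatrix.ext fun x y => ?_
  rw [perm_mul, mul_perm _ swP_invol]
  show amp (Equiv.prodComm _ _) M (swP p q x) y = amp (Equiv.prodComm _ _) M x (swP p q y)
  simp only [amp_apply, swP, Equiv.coe_fn_mk, Equiv.prodComm_apply, Prod.swap, ha, Prod.ext_iff]
  by_cases h1 : x.1.2 = y.1.2 <;> by_cases h2 : x.2.1 = y.1.1 <;>
    by_cases h3 : x.1.1 = y.2.1 <;> simp [h1, h2, h3]

theorem swPQ_commute : Commute (perm (swP p q)) (perm (swQ p q)) := full_comm.symm

end

end Vale.Agent.P101.JS.Flip
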