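import Vale.Agent.P101.JS.Base

/-!
# P101: hat functions, piecewise linear paths
-/

namespace Vale.Agent.P101.JS

open scoped CStarAlgebra Topology

noncomputable section

/-- The `k`-th of `m + 1` equally spaced nodes. -/
def node (m : ℕ) (k : Fin (m + 1)) : unitInterval :=
  ⟨(k : ℝ) / m, by
    refine ⟨by positivity, ?_⟩
    rcases Nat.eq_zero_or_pos m with h | h
    · simp [h]
    · rw [div_le_one (by exact_mod_cast h)]
      exact_mod_cast Nat.lt_succ_iff.mp k.2⟩

/-- The hat function at the `k`-th node. -/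
def hat (m : ℕ) (k : Fin (m + 1)) (t : unitInterval) : ℝ :=
  max 0 (1 - |(m : ℝ) * t - k|)

theorem continuous_hat (m : ℕ) (k : Fin (m + 1)) : Continuous (hat m k) := by
  unfold hat; fun_prop

theorem hat_nonneg (m : ℕ) (k : Fin (m + 1)) (t : unitInterval) : 0 ≤ hat m k t := le_max_left _ _

theorem hat_ne_zero {m : ℕ} {k : Fin (m + 1)} {t : unitInterval} (h : hat m k t ≠ 0) :
    |(m : ℝ) * t - k| < 1 := by
  by_contra hc
  push Not at hc
  exact h (max_eq_left (by linarith))

theorem sum_hat (m : ℕ) (t : unitInterval) : ∑ k, hat m k t = 1 := by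
  have ht0 : (0 : ℝ) ≤ t := t.2.1
  have ht1 : (t : ℝ) ≤ 1 := t.2.2
  set s : ℝ := (m : ℝ) * t with hs
  have hs0 : 0 ≤ s := by positivity
  have hsm : s ≤ m := mul_le_of_le_one_right (Nat.cast_nonneg _) ht1
  set j := ⌊s⌋₊ with hj
  have hj1 : (j : ℝ) ≤ s := Nat.floor_le hs0
  have hj2 : s < j + 1 := Nat.lt_floor_add_one s
  have hjm : j ≤ m := by exact_mod_cast (hj1.trans hsm)
  rcases eq_or_lt_of_le hjm with hjm | hjm
  · have hsj : s = m := le_antisymm hsm (by rw [← hjm]; exact hj1)
    rw [Finset.sum_eq_single (Fin.last m)]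
    · simp only [hat, ← hs, hsj, Fin.val_last]; simp
    · intro k _ hk
      have hlt : (k : ℕ) + 1 ≤ m := by
        have := Fin.val_lt_last hk; omega
      have hlt' : (k : ℝ) + 1 ≤ m := by exact_mod_cast hlt
      simp only [hat, ← hs, hsj]
      rw [abs_of_nonneg (by linarith), max_eq_left (by linarith)]
    · simp
  · rw [Finset.sum_eq_add (⟨j, by omega⟩ : Fin (m + 1)) ⟨j + 1, by omega⟩]
    · simp only [hat, ← hs]
      push_cast
      rw [abs_of_nonneg (by linarith), abs_of_nonpos (by linarith), max_eq_right (by linarith),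
        max_eq_right (by linarith)]
      ring
    · simp [Fin.ext_iff]
    · intro k _ hk
      simp only [hat, ← hs]
      refine max_eq_left ?_
      rcases lt_trichotomy (k : ℕ) j with h | h | h
      · have : (k : ℝ) + 1 ≤ j := by exact_mod_cast h
        rw [abs_of_nonneg (by linarith)]; linarith
      · exact absurd (Fin.ext h) hk.1
      · have h' : j + 1 < (k : ℕ) := by
          rcases Nat.lt_or_ge (j + 1) (k : ℕ) with h'' | h''
          · exact h''
          · exact absurd (Fin.ext (show (k : ℕ) = j + 1 by omega)) hk.2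
        have : (j : ℝ) + 2 ≤ (k : ℕ) := by exact_mod_cast h'
        rw [abs_of_nonpos (by linarith)]; linarith
    · simp
    · simp

theorem hat_zero {m : ℕ} (k : Fin (m + 1)) :
    hat m k 0 = if k = 0 then 1 else 0 := by
  rcases eq_or_ne k 0 with rfl | hk
  · simp [hat]
  · rw [if_neg hk]
    have : (1 : ℝ) ≤ (k : ℕ) := by
      exact_mod_cast Nat.one_le_iff_ne_zero.mpr (fun h => hk (Fin.ext h))
    simp only [hat]
    refine max_eq_left ?_
    rw [show ((0 : unitInterval) : ℝ) = 0 from rfl, abs_of_nonpos (by linarith)]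
    linarith

theorem hat_one {m : ℕ} (k : Fin (m + 1)) :
    hat m k 1 = if k = Fin.last m then 1 else 0 := by
  rcases eq_or_ne k (Fin.last m) with rfl | hk
  · simp [hat]
  · rw [if_neg hk]
    have : ((k : ℕ) : ℝ) + 1 ≤ m := by exact_mod_cast Fin.val_lt_last hk
    simp only [hat]
    refine max_eq_left ?_
    rw [show ((1 : unitInterval) : ℝ) = 1 from rfl, abs_of_nonneg (by linarith)]
    linarith

theorem node_zero (m : ℕ) : node m 0 = 0 := by ext; simp [node]

theorem node_last {m : ℕ} (hm : 0 < m) : node m (Fin.last m) = 1 := by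
  ext; simp [node, Nat.pos_iff_ne_zero.mp hm]

theorem dist_node {m : ℕ} (hm : 0 < m) {k : Fin (m + 1)} {t : unitInterval}
    (h : hat m k t ≠ 0) : dist t (node m k) < 1 / m := by
  have hm' : (0 : ℝ) < m := by exact_mod_cast hm
  have h1 := hat_ne_zero h
  rw [Subtype.dist_eq, Real.dist_eq]
  change |(t : ℝ) - (k : ℝ) / m| < 1 / m
  rw [show (t : ℝ) - (k : ℝ) / m = ((m : ℝ) * t - k) / m by field_simp, abs_div,
    abs_of_pos hm']
  exact div_lt_div_of_pos_right h1 hm'

/-- A convex combination given by hats stays near anything near all its active nodes. -/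
theorem norm_hat_sum_sub_le {E : Type*} [NormedAddCommGroup E] [NormedSpace ℂ E] (m : ℕ)
    (t : unitInterval) (v : Fin (m + 1) → E) (w : E) {δ : ℝ}
    (h : ∀ k, hat m k t ≠ 0 → ‖v k - w‖ ≤ δ) :
    ‖(∑ k, (hat m k t : ℂ) • v k) - w‖ ≤ δ := by
  have hw : w = ∑ k, (hat m k t : ℂ) • w := by
    rw [← Finset.sum_smul, ← Complex.ofReal_sum, sum_hat]; simp
  conv_lhs => rw [hw, ← Finset.sum_sub_distrib]
  refine (norm_sum_le _ _).trans ?_
  calc ∑ k, ‖(hat m k t : ℂ) • v k - (hat m k t : ℂ) • w‖
      ≤ ∑ k, hat m k t * δ := by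
        refine Finset.sum_le_sum fun k _ => ?_
        rw [← smul_sub, norm_smul, Complex.norm_real, Real.norm_eq_abs,
          abs_of_nonneg (hat_nonneg _ _ _)]
        rcases eq_or_ne (hat m k t) 0 with hk | hk
        · simp [hk]
        · exact mul_le_mul_of_nonneg_left (h k hk) (hat_nonneg _ _ _)
    _ = δ := by rw [← Finset.sum_mul, sum_hat, one_mul]

/-- An active node. -/
theorem exists_active (m : ℕ) (t : unitInterval) : ∃ k, hat m k t ≠ 0 := by
  by_contra h
  push Not at h
  simpa [h] using sum_hat m t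

section paths

variable {A : Type*} [CStarAlgebra A] [PartialOrder A] [StarOrderedRing A]

/-- Piecewise linear interpolation of given matrices. -/
def interp {N : Type} [Fintype N] [DecidableEq N] (m : ℕ)
    (v : Fin (m + 1) → CStarMatrix N N A) : MPath A N :=
  ⟨fun t => ∑ k, (hat m k t : ℂ) • v k,
    continuous_finsetSum _ fun k _ =>
      (Complex.continuous_ofReal.comp (continuous_hat m k)).smul continuous_const⟩

theorem interp_zero {N : Type} [Fintype N] [DecidableEq N] {m : ℕ}
    (v : Fin (m + 1) → CStarMatrix N N A) : interp m v 0 = v 0 := by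
  simp only [interp, ContinuousMap.coe_mk]
  rw [Finset.sum_eq_single 0]
  · rw [hat_zero, if_pos rfl, Complex.ofReal_one]
    exact one_smul ℂ _
  · intro k _ hk
    rw [hat_zero, if_neg hk, Complex.ofReal_zero]
    exact zero_smul ℂ _
  · simp

theorem interp_one {N : Type} [Fintype N] [DecidableEq N] {m : ℕ}
    (v : Fin (m + 1) → CStarMatrix N N A) : interp m v 1 = v (Fin.last m) := by
  simp only [interp, ContinuousMap.coe_mk]
  rw [Finset.sum_eq_single (Fin.last m)]
  · rw [hat_one, if_pos rfl, Complex.ofReal_one]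
    exact one_smul ℂ _
  · intro k _ hk
    rw [hat_one, if_neg hk, Complex.ofReal_zero]
    exact zero_smul ℂ _
  · simp

end paths

end

end Vale.Agent.P101.JS
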