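import Vale.Agent.P101.JS.Interfaces
import Vale.Agent.P101.JS.Hat

/-!
# P101: `Z_{p,q} ⊗ A` is spanned by the products `z ⊗ a`
-/

namespace Vale.Agent.P101.JS

open scoped ComplexOrder CStarAlgebra Topology

noncomputable section

set_option linter.unusedSectionVars false

universe u

section pieces

variable {p q m : ℕ}

/-- The scalar matrix carried by the node `k` and the entry `(x, y)`. -/
def coefMat (k : Fin (m + 1)) (x y : Ix p q) : CStarMatrix (Ix p q) (Ix p q) ℂ :=
  CStarMatrix.ofMatrix (Matrix.of fun z w =>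
    if k = 0 then
      (if x.2 = y.2 ∧ (x.2 : ℕ) = 0 ∧ z.1 = x.1 ∧ w.1 = y.1 ∧ z.2 = w.2 then 1 else 0)
    else if k = Fin.last m then
      (if x.1 = y.1 ∧ (x.1 : ℕ) = 0 ∧ z.2 = x.2 ∧ w.2 = y.2 ∧ z.1 = w.1 then 1 else 0)
    else (if z = x ∧ w = y then 1 else 0))

/-- The same, times the hat function, as an element of `Z_{p,q}`. -/
def coefBlk (hm : 0 < m) (k : Fin (m + 1)) (x y : Ix p q) : Blk ℂ p q :=
  ⟨interp m (fun l => if l = k then coefMat k x y else 0), by
    constructor
    · rw [interp_zero]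
      by_cases h : (0 : Fin (m + 1)) = k
      · rw [if_pos h]
        refine ⟨fun i i' => if x.2 = y.2 ∧ (x.2 : ℕ) = 0 ∧ i = x.1 ∧ i' = y.1 then 1 else 0,
          fun z w => ?_⟩
        simp only [coefMat, CStarMatrix.ofMatrix_apply, Matrix.of_apply, if_pos h.symm]
        by_cases h2 : z.2 = w.2 <;> simp [h2]
      · rw [if_neg h]
        exact ⟨0, fun z w => by simp [CStarMatrix.zero_apply]⟩
    · rw [interp_one]
      by_cases h : Fin.last m = k
      · rw [if_pos h]
        refine ⟨fun i i' => if x.1 = y.1 ∧ (x.1 : ℕ) = 0 ∧ i = x.2 ∧ i' = y.2 then 1 else 0,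
          fun z w => ?_⟩
        have h0 : ¬ k = 0 := by
          rintro rfl
          exact hm.ne' (by simpa using congrArg Fin.val h)
        simp only [coefMat, CStarMatrix.ofMatrix_apply, Matrix.of_apply, if_neg h0, if_pos h.symm]
        by_cases h2 : z.1 = w.1 <;> simp [h2]
      · rw [if_neg h]
        exact ⟨0, fun z w => by simp [CStarMatrix.zero_apply]⟩⟩

theorem coefBlk_apply (hm : 0 < m) (k : Fin (m + 1)) (x y : Ix p q) (t : unitInterval) :
    (coefBlk hm k x y : MPath ℂ (Ix p q)) t = (hat m k t : ℂ) • coefMat k x y := by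
  show ∑ l, (hat m l t : ℂ) • (if l = k then coefMat k x y else 0) = _
  rw [Finset.sum_eq_single k]
  · rw [if_pos rfl]
  · intro l _ hl
    rw [if_neg hl, smul_zero]
  · simp

end pieces

theorem matSum_apply {A : Type*} [AddCommMonoid A] {N ι : Type*} (s : Finset ι)
    (f : ι → CStarMatrix N N A) (i j : N) : (∑ k ∈ s, f k) i j = ∑ k ∈ s, f k i j := by
  classical
  induction s using Finset.induction_on with
  | empty => simp [CStarMatrix.zero_apply]
  | insert k s hk ih => rw [Finset.sum_insert hk, Finset.sum_insert hk, CStarMatrix.add_apply, ih]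

/-- The value at a node is recovered from its entries and the coefficient matrices. -/
theorem sum_coef {A : Type*} [CStarAlgebra A] [PartialOrder A] [StarOrderedRing A] {p q m : ℕ}
    (k : Fin (m + 1)) (M : CStarMatrix (Ix p q) (Ix p q) A) (h0 : k = 0 → IsLeft M)
    (h1 : k ≠ 0 → k = Fin.last m → IsRight M) :
    ∑ x, ∑ y, dg A (Ix p q) (M x y) * sc A (Ix p q) (coefMat k x y) = M := by
  refine CStarMatrix.ext fun z w => ?_
  have hterm : ∀ x y, (dg A (Ix p q) (M x y) * sc A (Ix p q) (coefMat k x y)) z w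
      = M x y * algebraMap ℂ A (coefMat k x y z w) := by
    intro x y
    rw [CStarMatrix.mul_apply, Finset.sum_eq_single z]
    · rw [dg_apply, if_pos rfl, sc_apply]
    · intro v _ hv
      rw [dg_apply, if_neg (Ne.symm hv), zero_mul]
    · simp
  simp only [matSum_apply, hterm]
  by_cases hk : k = 0
  · obtain ⟨a, ha⟩ := h0 hk
    let o : Fin q := ⟨0, lt_of_le_of_lt (Nat.zero_le _) z.2.2⟩
    rw [Finset.sum_eq_single (z.1, o), Finset.sum_eq_single (w.1, o)]
    · simp only [coefMat, CStarMatrix.ofMatrix_apply, Matrix.of_apply, if_pos hk]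
      by_cases h2 : z.2 = w.2 <;> simp [ha, h2, o]
    · intro y _ hy
      have : coefMat k (z.1, o) y z w = 0 := by
        simp only [coefMat, CStarMatrix.ofMatrix_apply, Matrix.of_apply, if_pos hk]
        rw [if_neg]
        rintro ⟨e1, -, -, e3, -⟩
        exact hy (Prod.ext e3.symm e1.symm)
      simp [this]
    · simp
    · intro x _ hx
      refine Finset.sum_eq_zero fun y _ => ?_
      have : coefMat k x y z w = 0 := by
        simp only [coefMat, CStarMatrix.ofMatrix_apply, Matrix.of_apply, if_pos hk]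
        rw [if_neg]
        rintro ⟨-, e2, e3, -, -⟩
        exact hx (Prod.ext e3.symm (Fin.ext e2))
      simp [this]
    · simp
  · by_cases hl : k = Fin.last m
    · obtain ⟨b, hb⟩ := h1 hk hl
      let o : Fin p := ⟨0, lt_of_le_of_lt (Nat.zero_le _) z.1.2⟩
      rw [Finset.sum_eq_single (o, z.2), Finset.sum_eq_single (o, w.2)]
      · simp only [coefMat, CStarMatrix.ofMatrix_apply, Matrix.of_apply, if_neg hk, if_pos hl]
        by_cases h2 : z.1 = w.1 <;> simp [hb, h2, o]
      · intro y _ hy
        have : coefMat k (o, z.2) y z w = 0 := by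
          simp only [coefMat, CStarMatrix.ofMatrix_apply, Matrix.of_apply, if_neg hk, if_pos hl]
          rw [if_neg]
          rintro ⟨e1, -, -, e3, -⟩
          exact hy (Prod.ext e1.symm e3.symm)
        simp [this]
      · simp
      · intro x _ hx
        refine Finset.sum_eq_zero fun y _ => ?_
        have : coefMat k x y z w = 0 := by
          simp only [coefMat, CStarMatrix.ofMatrix_apply, Matrix.of_apply, if_neg hk, if_pos hl]
          rw [if_neg]
          rintro ⟨-, e2, e3, -, -⟩
          exact hx (Prod.ext (Fin.ext e2) e3.symm)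
        simp [this]
      · simp
    · rw [Finset.sum_eq_single z, Finset.sum_eq_single w]
      · simp [coefMat, hk, hl]
      · intro y _ hy
        simp [coefMat, hk, hl, Ne.symm hy]
      · simp
      · intro x _ hx
        exact Finset.sum_eq_zero fun y _ => by simp [coefMat, hk, hl, Ne.symm hx]
      · simp

theorem density : DensityStatement.{u} := by
  intro A _ _ _ p q f ε hε
  classical
  let fp : MPath A (Ix p q) := (f : MPath A (Ix p q))
  obtain ⟨m, hm, hc⟩ : ∃ m : ℕ, 0 < m ∧
      ∀ s t : unitInterval, dist s t < 1 / m → ‖fp s - fp t‖ ≤ ε := by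
    obtain ⟨d, hd, h⟩ := Metric.uniformContinuous_iff.mp
      (CompactSpace.uniformContinuous_of_continuous fp.continuous) ε hε
    obtain ⟨m, hm⟩ := exists_nat_one_div_lt hd
    refine ⟨m + 1, m.succ_pos, fun s t hst => ?_⟩
    rw [← dist_eq_norm]
    exact le_of_lt (h (hst.trans (by push_cast; exact hm)))
  let e : Fin (m + 1) × Ix p q × Ix p q ≃ Fin (Fintype.card (Fin (m + 1) × Ix p q × Ix p q)) :=
    Fintype.equivFin _
  refine ⟨_, fun i => fp (node m (e.symm i).1) (e.symm i).2.1 (e.symm i).2.2,
    fun i => coefBlk hm (e.symm i).1 (e.symm i).2.1 (e.symm i).2.2, ?_⟩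
  rw [Equiv.sum_comp e.symm (fun z : Fin (m + 1) × Ix p q × Ix p q =>
    const A p q (fp (node m z.1) z.2.1 z.2.2) * scBlk A p q (coefBlk hm z.1 z.2.1 z.2.2)),
    Fintype.sum_prod_type]
  refine (ContinuousMap.norm_le _ hε.le).2 fun t => ?_
  have hsum : ((∑ k : Fin (m + 1), ∑ xy : Ix p q × Ix p q,
      const A p q (fp (node m k) xy.1 xy.2) * scBlk A p q (coefBlk hm k xy.1 xy.2) : Blk A p q) :
        MPath A (Ix p q)) t = ∑ k, (hat m k t : ℂ) • fp (node m k) := by
    simp only [AddSubmonoidClass.coe_finsetSum, ContinuousMap.coe_sum, Finset.sum_apply]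
    refine Finset.sum_congr rfl fun k _ => ?_
    have hrec := sum_coef k (fp (node m k)) (fun h => by rw [h, node_zero]; exact f.2.1)
      (fun _ h => by rw [h, node_last hm]; exact f.2.2)
    conv_rhs => rw [← hrec]
    rw [Fintype.sum_prod_type, Finset.smul_sum]
    refine Finset.sum_congr rfl fun x _ => ?_
    rw [Finset.smul_sum]
    refine Finset.sum_congr rfl fun y _ => ?_
    show dg A (Ix p q) _ * mapM (Ix p q) (StarAlgHom.ofId ℂ A)
      ((coefBlk hm k x y : MPath ℂ (Ix p q)) t) = _
    rw [coefBlk_apply, map_smul, mul_smul_comm]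
    rfl
  show ‖fp t - _‖ ≤ ε
  rw [hsum, norm_sub_rev]
  exact norm_hat_sum_sub_le m t _ _ fun k hk => by
    rw [norm_sub_rev]
    exact hc _ _ (dist_node hm hk)

end

end Vale.Agent.P101.JS
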