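import Vale.Agent.P101.JS.Interfaces
import Vale.Agent.P101.JS.FlipMat

/-!
# P101: the explicit half flip of `Z_{p,q} ⊗ Z_{p,q}`

With `A(s)`, `B(s)` the exponential paths to the two partial flips, conjugated by the ends of the
unitary path `U`, the function
`u(x,y) = e₂(U y) F A(α) B(max x y) A(β) e₁(U x)⋆`, `α = x(1-y)/(x+y)`, `β = y(1-x)/(x+y)`,
is continuous, has the four boundary properties and almost exchanges the two copies of `g`.
-/

namespace Vale.Agent.P101.JS

open scoped ComplexOrder CStarAlgebra Topology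
open Flip Filter

noncomputable section

set_option linter.unusedSectionVars false

variable {p q : ℕ}

/-- `A(s)`. -/
def pathA (U₀ : Mat (Ix p q)) (s : ℝ) : Mat (I2 p q) :=
  star (e₁ p q U₀) * flipMat (swQ p q) s * e₁ p q U₀

/-- `B(s)`. -/
def pathB (U₁ : Mat (Ix p q)) (s : ℝ) : Mat (I2 p q) :=
  star (e₁ p q U₁) * flipMat (swP p q) s * e₁ p q U₁

/-- `α`, with the value `1` at the corner. -/
def al (x y : ℝ) : ℝ := if x + y = 0 then 1 else x * (1 - y) / (x + y)

/-- `β`. -/
def be (x y : ℝ) : ℝ := y * (1 - x) / (x + y)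

/-- The middle part `ρ`. -/
def mid (U₀ U₁ : Mat (Ix p q)) (z : ℝ × ℝ) : Mat (I2 p q) :=
  pathA U₀ (al z.1 z.2) * pathB U₁ (max z.1 z.2) * pathA U₀ (be z.1 z.2)

section paths

variable {U₀ U₁ : Mat (Ix p q)}

theorem continuous_pathA (U₀ : Mat (Ix p q)) : Continuous (pathA U₀) :=
  (continuous_const.mul (continuous_flipMat _)).mul continuous_const

theorem continuous_pathB (U₁ : Mat (Ix p q)) : Continuous (pathB U₁) :=
  (continuous_const.mul (continuous_flipMat _)).mul continuous_const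

theorem pathA_unitary (h₀ : U₀ ∈ unitary (Mat (Ix p q))) (s : ℝ) :
    pathA U₀ s ∈ unitary (Mat (I2 p q)) :=
  mul_mem (mul_mem (Unitary.star_mem (Unitary.map_mem (e₁ p q) h₀))
    (flipMat_unitary swQ_invol s)) (Unitary.map_mem (e₁ p q) h₀)

theorem pathB_unitary (h₁ : U₁ ∈ unitary (Mat (Ix p q))) (s : ℝ) :
    pathB U₁ s ∈ unitary (Mat (I2 p q)) :=
  mul_mem (mul_mem (Unitary.star_mem (Unitary.map_mem (e₁ p q) h₁))
    (flipMat_unitary swP_invol s)) (Unitary.map_mem (e₁ p q) h₁)

theorem e₁_star_mul (h₀ : U₀ ∈ unitary (Mat (Ix p q))) :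
    star (e₁ p q U₀) * e₁ p q U₀ = 1 :=
  (Unitary.mem_iff.mp (Unitary.map_mem (e₁ p q) h₀)).1

theorem e₁_mul_star (h₀ : U₀ ∈ unitary (Mat (Ix p q))) :
    e₁ p q U₀ * star (e₁ p q U₀) = 1 :=
  (Unitary.mem_iff.mp (Unitary.map_mem (e₁ p q) h₀)).2

theorem pathA_zero (h₀ : U₀ ∈ unitary (Mat (Ix p q))) : pathA U₀ 0 = 1 := by
  rw [pathA, flipMat_zero, mul_one, e₁_star_mul h₀]

theorem pathB_zero (h₁ : U₁ ∈ unitary (Mat (Ix p q))) : pathB U₁ 0 = 1 := by
  rw [pathB, flipMat_zero, mul_one, e₁_star_mul h₁]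

theorem pathA_add (h₀ : U₀ ∈ unitary (Mat (Ix p q))) (a b : ℝ) :
    pathA U₀ a * pathA U₀ b = pathA U₀ (a + b) := by
  simp only [pathA, mul_assoc]
  rw [← mul_assoc (e₁ p q U₀) (star _), e₁_mul_star h₀, one_mul, ← mul_assoc (flipMat _ a),
    flipMat_add swQ_invol]

theorem pathA_commute (h₀ : U₀ ∈ unitary (Mat (Ix p q))) {g : Mat (Ix p q)} (hg : IsLeft g)
    (s : ℝ) : Commute (pathA U₀ s) (e₁ p q (star U₀ * g * U₀)) := by
  have hc := (flipMat_commute (swQ_commute hg) s).eq
  simp only [pathA, map_mul, map_star, Commute, SemiconjBy, mul_assoc]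
  rw [← mul_assoc (e₁ p q U₀) (star _), e₁_mul_star h₀, one_mul,
    ← mul_assoc (e₁ p q U₀) (star _), e₁_mul_star h₀, one_mul,
    ← mul_assoc (flipMat _ s), hc, mul_assoc]

theorem pathB_commute (h₁ : U₁ ∈ unitary (Mat (Ix p q))) {g : Mat (Ix p q)} (hg : IsRight g)
    (s : ℝ) : Commute (pathB U₁ s) (e₁ p q (star U₁ * g * U₁)) := by
  have hc := (flipMat_commute (swP_commute hg) s).eq
  simp only [pathB, map_mul, map_star, Commute, SemiconjBy, mul_assoc]
  rw [← mul_assoc (e₁ p q U₁) (star _), e₁_mul_star h₁, one_mul,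
    ← mul_assoc (e₁ p q U₁) (star _), e₁_mul_star h₁, one_mul,
    ← mul_assoc (flipMat _ s), hc, mul_assoc]

theorem mid_unitary (h₀ : U₀ ∈ unitary (Mat (Ix p q))) (h₁ : U₁ ∈ unitary (Mat (Ix p q)))
    (z : ℝ × ℝ) : mid U₀ U₁ z ∈ unitary (Mat (I2 p q)) :=
  mul_mem (mul_mem (pathA_unitary h₀ _) (pathB_unitary h₁ _)) (pathA_unitary h₀ _)

theorem continuous_mid (h₀ : U₀ ∈ unitary (Mat (Ix p q))) (h₁ : U₁ ∈ unitary (Mat (Ix p q))) :
    Continuous fun z : unitInterval × unitInterval => mid U₀ U₁ ((z.1 : ℝ), (z.2 : ℝ)) := by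
  rw [continuous_iff_continuousAt]
  rintro ⟨x₀, y₀⟩
  by_cases hne : (x₀ : ℝ) + y₀ = 0
  swap
  · have hev : ∀ᶠ z : unitInterval × unitInterval in 𝓝 (x₀, y₀), (z.1 : ℝ) + z.2 ≠ 0 :=
      (((continuous_subtype_val.comp continuous_fst).add
        (continuous_subtype_val.comp continuous_snd)).continuousAt).eventually_ne hne
    have hd : ContinuousAt (fun z : unitInterval × unitInterval => (z.1 : ℝ) + z.2) (x₀, y₀) := by
      fun_prop
    have ha : ContinuousAt (fun z : unitInterval × unitInterval => al z.1 z.2) (x₀, y₀) := by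
      refine ContinuousAt.congr ?_ (hev.mono fun z hz => (if_neg hz).symm)
      exact ContinuousAt.div (by fun_prop) hd hne
    have hb : ContinuousAt (fun z : unitInterval × unitInterval => be z.1 z.2) (x₀, y₀) :=
      ContinuousAt.div (by fun_prop) hd hne
    exact (((continuous_pathA U₀).continuousAt.comp ha).mul
      ((continuous_pathB U₁).continuousAt.comp (by fun_prop))).mul
      ((continuous_pathA U₀).continuousAt.comp hb)
  · have hx : (x₀ : ℝ) = 0 := by linarith [x₀.2.1, y₀.2.1]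
    have hy : (y₀ : ℝ) = 0 := by linarith [x₀.2.1, y₀.2.1]
    let l : Filter (unitInterval × unitInterval) := 𝓝 (x₀, y₀)
    have hm : Tendsto (fun z : unitInterval × unitInterval => max (z.1 : ℝ) z.2) l (𝓝 0) :=
      (((continuous_subtype_val.comp continuous_fst).max
        (continuous_subtype_val.comp continuous_snd)).tendsto' _ _ (by simp [hx, hy]))
    have hs : Tendsto (fun z : unitInterval × unitInterval => al z.1 z.2 + be z.1 z.2) l (𝓝 1) := by
      have h1 : Tendsto (fun z : unitInterval × unitInterval =>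
          al z.1 z.2 + be z.1 z.2 - 1) l (𝓝 0) := by
        refine squeeze_zero_norm (fun z => ?_) (by simpa using hm.const_mul 2)
        rw [Real.norm_eq_abs, abs_le]
        have := z.1.2.1
        have := z.1.2.2
        have := z.2.2.1
        have := z.2.2.2
        have hle₁ := le_max_left (z.1 : ℝ) z.2
        have hle₂ := le_max_right (z.1 : ℝ) z.2
        by_cases h : (z.1 : ℝ) + z.2 = 0
        · have h2z : (z.2 : ℝ) = 0 := by linarith
          have h1z : (z.1 : ℝ) = 0 := by linarith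
          simp [al, be, h2z, h1z]
        · have hpos : 0 < (z.1 : ℝ) + z.2 := lt_of_le_of_ne (by positivity) (Ne.symm h)
          have heq : al z.1 z.2 + be z.1 z.2 - 1
              = -(2 * (z.1 * z.2)) / ((z.1 : ℝ) + z.2) := by
            rw [al, if_neg h, be]
            field_simp
            ring
          rw [heq, le_div_iff₀ hpos, div_le_iff₀ hpos]
          constructor <;> nlinarith
      simpa using h1.add_const 1
    have hB : Tendsto (fun z : unitInterval × unitInterval =>
        pathB U₁ (max (z.1 : ℝ) z.2) - 1) l (𝓝 0) := by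
      have := ((continuous_pathB U₁).tendsto 0).comp hm
      rw [pathB_zero h₁] at this
      simpa using this.sub_const 1
    have h2 : Tendsto (fun z : unitInterval × unitInterval => pathA U₀ (al z.1 z.2) *
        (pathB U₁ (max (z.1 : ℝ) z.2) - 1) * pathA U₀ (be z.1 z.2)) l (𝓝 0) := by
      refine squeeze_zero_norm (fun z => ?_) (tendsto_zero_iff_norm_tendsto_zero.mp hB)
      rw [CStarRing.norm_mul_mem_unitary _ (pathA_unitary h₀ _),
        CStarRing.norm_mem_unitary_mul _ (pathA_unitary h₀ _)]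
    have h3 := h2.add (((continuous_pathA U₀).tendsto 1).comp hs)
    have hval : mid U₀ U₁ ((x₀ : ℝ), (y₀ : ℝ)) = pathA U₀ 1 := by
      simp [mid, al, be, hx, hy, pathA_zero h₀, pathB_zero h₁]
    show Tendsto _ l _
    beta_reduce
    rw [hval]
    rw [zero_add] at h3
    refine h3.congr fun z => ?_
    simp only [Function.comp_apply, mid, mul_sub, sub_mul, mul_one, pathA_add h₀]
    abel

theorem al_zero_right {x : ℝ} : al x 0 = 1 := by
  by_cases h : x = 0 <;> simp [al, h]

theorem be_zero_right {x : ℝ} : be x 0 = 0 := by simp [be]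

theorem al_zero_left {y : ℝ} (h : y ≠ 0) : al 0 y = 0 := by simp [al, h]

theorem be_zero_left {y : ℝ} (h : y ≠ 0) : be 0 y = 1 := by simp [be, h]

theorem al_one_right {x : ℝ} (h : 0 ≤ x) : al x 1 = 0 := by
  simp [al, (by linarith : x + 1 ≠ 0)]

theorem be_one_left {y : ℝ} : be 1 y = 0 := by simp [be]

end paths

/-- The half flip `u(x,y)`. -/
def flipFun (U : MPath ℂ (Ix p q)) (z : unitInterval × unitInterval) : Mat (I2 p q) :=
  e₂ p q (U z.2) * full * mid (U 0) (U 1) ((z.1 : ℝ), (z.2 : ℝ)) * star (e₁ p q (U z.1))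

section flip

variable {U : MPath ℂ (Ix p q)} (hU : ∀ t, U t ∈ unitary (Mat (Ix p q)))
include hU

theorem flipFun_unitary (z : unitInterval × unitInterval) :
    flipFun U z ∈ unitary (Mat (I2 p q)) :=
  mul_mem (mul_mem (mul_mem (Unitary.map_mem (e₂ p q) (hU _)) full_unitary)
    (mid_unitary (hU 0) (hU 1) _)) (Unitary.star_mem (Unitary.map_mem (e₁ p q) (hU _)))

theorem continuous_flipFun : Continuous (flipFun U) :=
  ((((map_continuous (e₂ p q)).comp (U.continuous.comp continuous_snd)).mul continuous_const).mul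
    (continuous_mid (hU 0) (hU 1))).mul
    (((map_continuous (e₁ p q)).comp (U.continuous.comp continuous_fst)).star)

/-- At `y = 0` the flip does not touch the outer `q`-factor. -/
theorem flipFun_y0 (x : unitInterval) : flipFun U (x, 0) ∈ (amp (outQ p q)).range := by
  have h : flipFun U (x, 0) =
      perm (swP p q) * e₁ p q (U 0) * pathB (U 1) (x : ℝ) * star (e₁ p q (U x)) := by
    simp only [flipFun, mid, Set.Icc.coe_zero, al_zero_right, be_zero_right, pathA_zero (hU 0),
      max_eq_left x.2.1, mul_one]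
    rw [e₂_full, pathA, flipMat_one, full]
    simp only [mul_assoc]
    rw [← mul_assoc (e₁ p q (U 0)) (star _), e₁_mul_star (hU 0), one_mul,
      ← mul_assoc (perm (swQ p q)) (perm (swQ p q)), perm_sq swQ_invol, one_mul]
  rw [h]
  exact mul_mem (mul_mem (mul_mem swP_mem_outQ (e₁_mem_outQ _))
    (mul_mem (mul_mem (star_mem (e₁_mem_outQ _)) (flipMat_mem _ swP_mem_outQ _)) (e₁_mem_outQ _)))
    (star_mem (e₁_mem_outQ _))

/-- At `y = 1` the flip does not touch the outer `p`-factor. -/
theorem flipFun_y1 (x : unitInterval) : flipFun U (x, 1) ∈ (amp (outP p q)).range := by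
  have h : flipFun U (x, 1) = perm (swQ p q) * e₁ p q (U 1) *
      pathA (U 0) (be (x : ℝ) 1) * star (e₁ p q (U x)) := by
    simp only [flipFun, mid, Set.Icc.coe_one, al_one_right x.2.1, pathA_zero (hU 0),
      max_eq_right x.2.2, one_mul]
    rw [e₂_full, pathB, flipMat_one, ← full_comm]
    simp only [mul_assoc]
    rw [← mul_assoc (e₁ p q (U 1)) (star _), e₁_mul_star (hU 1), one_mul,
      ← mul_assoc (perm (swP p q)) (perm (swP p q)), perm_sq swP_invol, one_mul]
  rw [h]
  exact mul_mem (mul_mem (mul_mem swQ_mem_outP (e₁_mem_outP _))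
    (mul_mem (mul_mem (star_mem (e₁_mem_outP _)) (flipMat_mem _ swQ_mem_outP _)) (e₁_mem_outP _)))
    (star_mem (e₁_mem_outP _))

/-- At `x = 0` the flip does not touch the inner `q`-factor. -/
theorem flipFun_x0 (y : unitInterval) : flipFun U (0, y) ∈ (amp (inQ p q)).range := by
  have hrho : mid (U 0) (U 1) (0, (y : ℝ)) = pathB (U 1) (y : ℝ) * pathA (U 0) 1 := by
    by_cases hy : (y : ℝ) = 0
    · simp [mid, hy, al_zero_right, be_zero_right, pathA_zero (hU 0), pathB_zero (hU 1)]
    · simp [mid, al_zero_left hy, be_zero_left hy, pathA_zero (hU 0), max_eq_right y.2.1]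
  have hSQ := perm_sq (σ := swQ p q) swQ_invol
  have h : flipFun U (0, y) = e₂ p q (U y) * perm (swP p q) *
      (perm (swQ p q) * e₁ p q (star (U 1)) * perm (swQ p q)) * flipMat (swP p q) y *
      (perm (swQ p q) * e₁ p q (U 1 * star (U 0)) * perm (swQ p q)) := by
    have hcom : perm (swQ p q) * flipMat (swP p q) (y : ℝ) * perm (swQ p q)
        = flipMat (swP p q) y := by
      rw [← (flipMat_commute swPQ_commute (y : ℝ)).eq, mul_assoc, hSQ, mul_one]
    simp only [flipFun, Set.Icc.coe_zero, hrho, pathA, pathB, flipMat_one, full, map_mul,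
      map_star, mul_assoc, e₁_mul_star (hU 0), mul_one]
    conv_rhs => rw [← hcom]
    simp only [mul_assoc]
    rw [← mul_assoc (perm (swQ p q)) (perm (swQ p q)), hSQ, one_mul,
      ← mul_assoc (perm (swQ p q)) (perm (swQ p q)), hSQ, one_mul]
  rw [h]
  exact mul_mem (mul_mem (mul_mem (mul_mem (e₂_mem_inQ _) swP_mem_inQ) (swQ_conj_e₁_mem _))
    (flipMat_mem _ swP_mem_inQ _)) (swQ_conj_e₁_mem _)

/-- At `x = 1` the flip does not touch the inner `p`-factor. -/
theorem flipFun_x1 (y : unitInterval) : flipFun U (1, y) ∈ (amp (inP p q)).range := by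
  have hrho : mid (U 0) (U 1) (1, (y : ℝ)) = pathA (U 0) (al 1 y) * pathB (U 1) 1 := by
    simp [mid, be_one_left, pathA_zero (hU 0), max_eq_left y.2.2]
  have hSP := perm_sq (σ := swP p q) swP_invol
  have h : flipFun U (1, y) = e₂ p q (U y) * perm (swQ p q) *
      (perm (swP p q) * e₁ p q (star (U 0)) * perm (swP p q)) * flipMat (swQ p q) (al 1 y) *
      (perm (swP p q) * e₁ p q (U 0 * star (U 1)) * perm (swP p q)) := by
    have hcom : perm (swP p q) * flipMat (swQ p q) (al 1 y) * perm (swP p q)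
        = flipMat (swQ p q) (al 1 y) := by
      rw [← (flipMat_commute swPQ_commute.symm (al 1 y)).eq, mul_assoc, hSP, mul_one]
    simp only [flipFun, Set.Icc.coe_one, hrho, pathA, pathB, flipMat_one, ← full_comm, map_mul,
      map_star, mul_assoc, e₁_mul_star (hU 1), mul_one]
    conv_rhs => rw [← hcom]
    simp only [mul_assoc]
    rw [← mul_assoc (perm (swP p q)) (perm (swP p q)), hSP, one_mul,
      ← mul_assoc (perm (swP p q)) (perm (swP p q)), hSP, one_mul]
  rw [h]
  exact mul_mem (mul_mem (mul_mem (mul_mem (e₂_mem_inP _) swQ_mem_inP) (swP_conj_e₁_mem _))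
    (flipMat_mem _ swQ_mem_inP _)) (swP_conj_e₁_mem _)

theorem flipFun_move {g : MPath ℂ (Ix p q)} (h0 : IsLeft (g 0)) (h1 : IsRight (g 1)) {η : ℝ}
    (hg : ∀ t s, ‖star (U t) * g t * U t - star (U s) * g s * U s‖ ≤ η)
    (z : unitInterval × unitInterval) :
    ‖star (flipFun U z) * e₂ p q (g z.2) * flipFun U z - e₁ p q (g z.1)‖ ≤ 10 * η := by
  have hη : 0 ≤ η := (norm_nonneg _).trans (hg 0 0)
  let D : unitInterval → Mat (Ix p q) := fun t => star (U t) * g t * U t
  have hD : ∀ t s, ‖e₁ p q (D t) - e₁ p q (D s)‖ ≤ η := fun t s => by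
    rw [← map_sub]
    exact (NonUnitalStarAlgHom.norm_apply_le (e₁ p q) _).trans (hg t s)
  have hstep : ∀ {v X E : Mat (I2 p q)} {c : ℝ}, v ∈ unitary (Mat (I2 p q)) → Commute v E →
      ‖X - E‖ ≤ c → ‖star v * X * v - E‖ ≤ c := by
    intro v X E c hv hc hX
    have he : star v * X * v - E = star v * (X - E) * v := by
      rw [mul_sub, sub_mul, mul_assoc (star v) E, ← hc.eq, ← mul_assoc (star v) v,
        (Unitary.mem_iff.mp hv).1, one_mul]
    rwa [he, CStarRing.norm_mul_mem_unitary _ hv,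
      CStarRing.norm_mem_unitary_mul _ (Unitary.star_mem hv)]
  have hmove : ∀ t s (X : Mat (I2 p q)) (c : ℝ), ‖X - e₁ p q (D t)‖ ≤ c →
      ‖X - e₁ p q (D s)‖ ≤ c + η := fun t s X c h =>
    (norm_sub_le_norm_sub_add_norm_sub _ (e₁ p q (D t)) _).trans (add_le_add h (hD t s))
  let α := pathA (U 0) (al z.1 z.2)
  let β := pathB (U 1) (max (z.1 : ℝ) z.2)
  let γ := pathA (U 0) (be z.1 z.2)
  have k1 := hstep (pathA_unitary (hU 0) (al z.1 z.2)) (pathA_commute (hU 0) h0 _) (hD z.2 0)
  have k2 := hstep (pathB_unitary (hU 1) (max (z.1 : ℝ) z.2)) (pathB_commute (hU 1) h1 _)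
    (hmove 0 1 _ _ k1)
  have k3 := hstep (pathA_unitary (hU 0) (be z.1 z.2)) (pathA_commute (hU 0) h0 _)
    (hmove 1 0 _ _ k2)
  have k4 := hmove 0 z.1 _ _ k3
  have hUx := hU z.1
  have hgx : e₁ p q (g z.1) = e₁ p q (U z.1) * e₁ p q (D z.1) * star (e₁ p q (U z.1)) := by
    rw [← map_star, ← map_mul, ← map_mul]
    refine congrArg _ ?_
    simp only [D, mul_assoc, (Unitary.mem_iff.mp hUx).2, mul_one]
    rw [← mul_assoc, (Unitary.mem_iff.mp hUx).2, one_mul]
  have hfull : star (full : Mat (I2 p q)) = full := by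
    rw [full, star_mul, perm_star swP_invol, perm_star swQ_invol]
    exact full_comm
  have hmain : star (flipFun U z) * e₂ p q (g z.2) * flipFun U z =
      e₁ p q (U z.1) * (star γ * (star β * (star α * e₁ p q (D z.2) * α) * β) * γ) *
        star (e₁ p q (U z.1)) := by
    have hF : full * (e₂ p q (D z.2) * full) = e₁ p q (D z.2) := by
      rw [e₂_full, ← mul_assoc, full_sq, one_mul]
    rw [← hF]
    simp only [flipFun, mid, D, α, β, γ, map_mul, map_star, star_mul, star_star, hfull, mul_assoc]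
  rw [hmain, hgx, ← sub_mul, ← mul_sub,
    CStarRing.norm_mul_mem_unitary _ (Unitary.star_mem (Unitary.map_mem (e₁ p q) hUx)),
    CStarRing.norm_mem_unitary_mul _ (Unitary.map_mem (e₁ p q) hUx)]
  exact k4.trans (by linarith)

end flip

/-- Properties of an element read through an injective homomorphism into functions. -/
theorem conj_of_flat {B : Type*} [Ring B] [StarRing B] [Algebra ℂ B] [Norm B] {L : Type}
    [Fintype L] [DecidableEq L] (Φ : B →⋆ₐ[ℂ] C(unitInterval × unitInterval, Mat L))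
    (hΦ : Function.Injective Φ) (hn : ∀ b, ‖Φ b‖ = ‖b‖)
    {u : unitInterval × unitInterval → Mat L} (hu : ∀ z, u z ∈ unitary (Mat L)) (H : B)
    (hH : ∀ z, Φ H z = u z) :
    star H * H = 1 ∧ H * star H = 1 ∧
      ∀ (b c : B) (b' c' : unitInterval × unitInterval → Mat L) (r : ℝ),
      (∀ z, Φ b z = b' z) → (∀ z, Φ c z = c' z) →
      (∀ z, ‖star (u z) * b' z * u z - c' z‖ ≤ r) → ‖star H * b * H - c‖ ≤ r := by
  refine ⟨hΦ ?_, hΦ ?_, fun b c b' c' r hb hc hr => ?_⟩
  · refine ContinuousMap.ext fun z => ?_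
    rw [map_mul, map_star, ← map_one (algebraMap ℂ B), AlgHomClass.commutes,
      ContinuousMap.mul_apply, ContinuousMap.star_apply, hH, algebraMap_apply, one_smul]
    exact (Unitary.mem_iff.mp (hu z)).1
  · refine ContinuousMap.ext fun z => ?_
    rw [map_mul, map_star, ← map_one (algebraMap ℂ B), AlgHomClass.commutes,
      ContinuousMap.mul_apply, ContinuousMap.star_apply, hH, algebraMap_apply, one_smul]
    exact (Unitary.mem_iff.mp (hu z)).2
  · rw [← hn,
      ContinuousMap.norm_le _ ((norm_nonneg _).trans (hr (0, 0)))]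
    intro z
    rw [map_sub, map_mul, map_mul, map_star, ContinuousMap.sub_apply, ContinuousMap.mul_apply,
      ContinuousMap.mul_apply, ContinuousMap.star_apply, hH, hb, hc]
    exact hr z

section lift

variable [PartialOrder (Blk ℂ p q)] [StarOrderedRing (Blk ℂ p q)]

/-- An entry at a point, as an additive map. -/
def entryAt (x : unitInterval) (i j : Ix p q) : Blk ℂ p q →+ ℂ where
  toFun e := (e : MPath ℂ (Ix p q)) x i j
  map_zero' := rfl
  map_add' _ _ := rfl

theorem entryAt_mul (x : unitInterval) (i j : Ix p q) (e f : Blk ℂ p q) :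
    entryAt x i j (e * f) = ∑ k, entryAt x i k e * entryAt x k j f := by
  show ((e : MPath ℂ (Ix p q)) x * (f : MPath ℂ (Ix p q)) x) i j = _
  rw [CStarMatrix.mul_apply]
  rfl

theorem entryAt_mul_matrix (x : unitInterval) (i j r s : Ix p q)
    (M M' : CStarMatrix (Ix p q) (Ix p q) (Blk ℂ p q)) :
    entryAt x i j ((M * M') r s) =
      ∑ c : I2 p q, entryAt x i c.2 (M r c.1) * entryAt x c.2 j (M' c.1 s) := by
  rw [CStarMatrix.mul_apply, map_sum]
  simp only [entryAt_mul]
  exact (Fintype.sum_prod_type (f := fun c : I2 p q =>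
    entryAt x i c.2 (M r c.1) * entryAt x c.2 j (M' c.1 s))).symm

/-- A double path read as a function of two variables. -/
def flatFun (X : Blk (Blk ℂ p q) p q) : C(unitInterval × unitInterval, Mat (I2 p q)) :=
  ⟨fun z => CStarMatrix.ofMatrix (Matrix.of fun a b =>
      entryAt z.1 a.2 b.2 (((X : MPath (Blk ℂ p q) (Ix p q)) z.2) a.1 b.1)),
    continuous_of_entries fun a b => (continuous_entry a.2 b.2).comp
      ((continuous_subtype_val.comp ((continuous_entry a.1 b.1).comp
        ((X : MPath (Blk ℂ p q) (Ix p q)).continuous.comp continuous_snd))).eval continuous_fst)⟩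

theorem flatFun_apply (X : Blk (Blk ℂ p q) p q) (z : unitInterval × unitInterval) (a b : I2 p q) :
    flatFun X z a b = entryAt z.1 a.2 b.2 (((X : MPath (Blk ℂ p q) (Ix p q)) z.2) a.1 b.1) := rfl

/-- `flatFun` as a star algebra homomorphism. -/
def flat : Blk (Blk ℂ p q) p q →⋆ₐ[ℂ] C(unitInterval × unitInterval, Mat (I2 p q)) where
  toFun := flatFun
  map_one' := by
    refine ContinuousMap.ext fun z => CStarMatrix.ext fun a b => ?_
    show (((1 : CStarMatrix (Ix p q) (Ix p q) (Blk ℂ p q)) a.1 b.1 : Blk ℂ p q) :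
      MPath ℂ (Ix p q)) z.1 a.2 b.2 = (1 : Mat (I2 p q)) a b
    rw [CStarMatrix.one_apply, CStarMatrix.one_apply]
    by_cases h1 : a.1 = b.1
    · rw [if_pos h1]
      show (1 : Mat (Ix p q)) a.2 b.2 = _
      rw [CStarMatrix.one_apply]
      simp [Prod.ext_iff, h1]
    · rw [if_neg h1, if_neg (fun h => h1 (congrArg Prod.fst h))]
      rfl
  map_mul' X Y := by
    refine ContinuousMap.ext fun z => CStarMatrix.ext fun a b => ?_
    rw [ContinuousMap.mul_apply, CStarMatrix.mul_apply, flatFun_apply, MulMemClass.coe_mul,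
      ContinuousMap.mul_apply, entryAt_mul_matrix]
    simp only [flatFun_apply]
  map_zero' := by
    refine ContinuousMap.ext fun z => CStarMatrix.ext fun a b => ?_
    rfl
  map_add' X Y := by
    refine ContinuousMap.ext fun z => CStarMatrix.ext fun a b => ?_
    rfl
  commutes' r := by
    refine ContinuousMap.ext fun z => CStarMatrix.ext fun a b => ?_
    show (((algebraMap ℂ (CStarMatrix (Ix p q) (Ix p q) (Blk ℂ p q)) r) a.1 b.1 : Blk ℂ p q) :
      MPath ℂ (Ix p q)) z.1 a.2 b.2 = algebraMap ℂ (Mat (I2 p q)) r a b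
    rw [CStarMatrix.algebraMap_apply, CStarMatrix.algebraMap_apply]
    by_cases h1 : a.1 = b.1
    · rw [if_pos h1]
      show algebraMap ℂ (Mat (Ix p q)) r a.2 b.2 = _
      rw [CStarMatrix.algebraMap_apply]
      simp [Prod.ext_iff, h1]
    · rw [if_neg h1, if_neg (fun h => h1 (congrArg Prod.fst h))]
      rfl
  map_star' X := by
    refine ContinuousMap.ext fun z => CStarMatrix.ext fun a b => ?_
    rfl

theorem flat_apply (X : Blk (Blk ℂ p q) p q) (z : unitInterval × unitInterval) (a b : I2 p q) :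
    flat X z a b = ((((X : MPath (Blk ℂ p q) (Ix p q)) z.2) a.1 b.1 : Blk ℂ p q) :
      MPath ℂ (Ix p q)) z.1 a.2 b.2 := rfl

theorem flat_injective : Function.Injective (flat (p := p) (q := q)) := by
  intro X Y h
  refine Subtype.ext (ContinuousMap.ext fun t => CStarMatrix.ext fun r s =>
    Subtype.ext (ContinuousMap.ext fun x => CStarMatrix.ext fun i j => ?_))
  have := congrArg (fun F => F (x, t) (r, i) (s, j)) h
  simpa [flat_apply] using this

theorem flat_scBlk (g : Blk ℂ p q) (z : unitInterval × unitInterval) :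
    flat (scBlk (Blk ℂ p q) p q g) z = e₂ p q ((g : MPath ℂ (Ix p q)) z.2) := by
  refine CStarMatrix.ext fun a b => ?_
  show algebraMap ℂ (Mat (Ix p q)) ((g : MPath ℂ (Ix p q)) z.2 a.1 b.1) a.2 b.2 = _
  rw [CStarMatrix.algebraMap_apply]
  simp [e₂, amp_apply]
  rfl

theorem flat_const (g : Blk ℂ p q) (z : unitInterval × unitInterval) :
    flat (const (Blk ℂ p q) p q g) z = e₁ p q ((g : MPath ℂ (Ix p q)) z.1) := by
  refine CStarMatrix.ext fun a b => ?_
  rw [flat_apply, const_apply, dg_apply]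
  by_cases h : a.1 = b.1 <;> simp [e₁, amp_apply, h]

variable {u : unitInterval × unitInterval → Mat (I2 p q)} (hc : Continuous u)
  (hx0 : ∀ y, u (0, y) ∈ (amp (inQ p q)).range) (hx1 : ∀ y, u (1, y) ∈ (amp (inP p q)).range)

/-- An entry of the outer matrix, as an element of `Z_{p,q}`. -/
def entryBlk (y : unitInterval) (r s : Ix p q) : Blk ℂ p q :=
  ⟨⟨fun x => CStarMatrix.ofMatrix (Matrix.of fun i j => u (x, y) (r, i) (s, j)),
    continuous_of_entries fun i j => (continuous_entry (r, i) (s, j)).comp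
      (hc.comp (continuous_id.prodMk continuous_const))⟩, by
    constructor
    · obtain ⟨M, hM⟩ := hx0 y
      refine ⟨fun i j => M (i, r) (j, s), fun i j => ?_⟩
      show u (0, y) (r, i) (s, j) = _
      rw [← hM]
      rfl
    · obtain ⟨M, hM⟩ := hx1 y
      refine ⟨fun i j => M (i, r) (j, s), fun i j => ?_⟩
      show u (1, y) (r, i) (s, j) = _
      rw [← hM]
      rfl⟩

theorem continuous_entryBlk (r s : Ix p q) :
    Continuous fun y => entryBlk hc hx0 hx1 y r s := by
  refine Continuous.subtype_mk (ContinuousMap.continuous_of_continuous_uncurry _ ?_) _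
  exact continuous_of_entries fun i j => (continuous_entry (r, i) (s, j)).comp
    (hc.comp (continuous_snd.prodMk continuous_fst))

variable (hy0 : ∀ x, u (x, 0) ∈ (amp (outQ p q)).range)
  (hy1 : ∀ x, u (x, 1) ∈ (amp (outP p q)).range)

include hc hx0 hx1 hy0 hy1 in
theorem exists_flat_eq : ∃ H : Blk (Blk ℂ p q) p q, ∀ z, flat H z = u z := by
  let f : MPath (Blk ℂ p q) (Ix p q) :=
    ⟨fun y => CStarMatrix.ofMatrix (Matrix.of fun r s => entryBlk hc hx0 hx1 y r s),
      continuous_of_entries fun r s => continuous_entryBlk hc hx0 hx1 r s⟩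
  refine ⟨⟨f, ?_, ?_⟩, fun z => CStarMatrix.ext fun a b => rfl⟩
  · rcases isEmpty_or_nonempty (Fin q) with hq | ⟨⟨k⟩⟩
    · exact ⟨0, fun x => hq.elim x.2⟩
    refine ⟨fun i j => entryBlk hc hx0 hx1 0 (i, k) (j, k), fun r s => ?_⟩
    refine Subtype.ext (ContinuousMap.ext fun x => CStarMatrix.ext fun i j => ?_)
    obtain ⟨M, hM⟩ := hy0 x
    by_cases h : r.2 = s.2
    · rw [if_pos h]
      show u (x, 0) (r, i) (s, j) = u (x, 0) ((r.1, k), i) ((s.1, k), j)
      rw [← hM]
      show amp (outQ p q) M (r, i) (s, j) = amp (outQ p q) M ((r.1, k), i) ((s.1, k), j)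
      simp [amp_apply, outQ, h]
    · rw [if_neg h]
      show u (x, 0) (r, i) (s, j) = 0
      rw [← hM]
      show amp (outQ p q) M (r, i) (s, j) = 0
      simp [amp_apply, outQ, h]
  · rcases isEmpty_or_nonempty (Fin p) with hp | ⟨⟨k⟩⟩
    · exact ⟨0, fun x => hp.elim x.1⟩
    refine ⟨fun i j => entryBlk hc hx0 hx1 1 (k, i) (k, j), fun r s => ?_⟩
    refine Subtype.ext (ContinuousMap.ext fun x => CStarMatrix.ext fun i j => ?_)
    obtain ⟨M, hM⟩ := hy1 x
    by_cases h : r.1 = s.1
    · rw [if_pos h]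
      show u (x, 1) (r, i) (s, j) = u (x, 1) ((k, r.2), i) ((k, s.2), j)
      rw [← hM]
      show amp (outP p q) M (r, i) (s, j) = amp (outP p q) M ((k, r.2), i) ((k, s.2), j)
      simp [amp_apply, outP, h]
    · rw [if_neg h]
      show u (x, 1) (r, i) (s, j) = 0
      rw [← hM]
      show amp (outP p q) M (r, i) (s, j) = 0
      simp [amp_apply, outP, h]

attribute [irreducible] flat flipFun

theorem norm_flat (X : Blk (Blk ℂ p q) p q) : ‖flat X‖ = ‖X‖ :=
  NonUnitalStarAlgHom.norm_map flat flat_injective X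

theorem exists_flip_elt {U : MPath ℂ (Ix p q)} (hU : ∀ t, U t ∈ unitary (Mat (Ix p q))) :
    ∃ H : Blk (Blk ℂ p q) p q, ∀ z, flat H z = flipFun U z :=
  exists_flat_eq (u := flipFun U) (continuous_flipFun hU) (flipFun_x0 hU) (flipFun_x1 hU)
    (flipFun_y0 hU) (flipFun_y1 hU)

theorem exists_halfFlip {U : MPath ℂ (Ix p q)} (hU : ∀ t, U t ∈ unitary (Mat (Ix p q)))
    (G : Set (Blk ℂ p q)) (η : ℝ)
    (hG : ∀ g ∈ G, ∀ t s : unitInterval,
      ‖star (U t) * (g : MPath ℂ (Ix p q)) t * U t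
        - star (U s) * (g : MPath ℂ (Ix p q)) s * U s‖ ≤ η) :
    ∃ H : Blk (Blk ℂ p q) p q, star H * H = 1 ∧ H * star H = 1 ∧
      ∀ g ∈ G, ‖star H * scBlk (Blk ℂ p q) p q g * H - const (Blk ℂ p q) p q g‖ ≤ 10 * η := by
  refine Exists.elim (exists_flip_elt hU) fun H hH => ?_
  have h := conj_of_flat (flat (p := p) (q := q)) flat_injective norm_flat (flipFun_unitary hU) H hH
  exact ⟨H, h.1, h.2.1, fun g hg => h.2.2 _ _ _ _ _ (flat_scBlk g) (flat_const g)
    (flipFun_move hU g.2.1 g.2.2 (hG g hg))⟩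

end lift

theorem halfFlip : HalfFlipStatement := by
  intro p q _ _ G η U hU1 hU2 hG
  exact @exists_halfFlip p q (CStarAlgebra.spectralOrder (Blk ℂ p q))
    (CStarAlgebra.spectralOrderedRing (Blk ℂ p q)) U
    (fun t => Unitary.mem_iff.mpr ⟨DFunLike.congr_fun hU1 t, DFunLike.congr_fun hU2 t⟩) G η hG

end

end Vale.Agent.P101.JS
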