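import Vale.Agent.P101.JS.Main
import Vale.Agent.P101.JS.HalfFlip

/-!
# P101: from the bundled limit to the elementary description of `A ⊗ Z`
-/

namespace Vale.Agent.P101.JS

open VAgent.P101 Filter TopologicalSpace
open scoped Matrix CStarAlgebra Topology ComplexOrder

set_option linter.unusedSectionVars false

noncomputable section

universe u

/-- `σ x = ((e0 x).2, (e0 x).1)`. -/
def frameEquiv (m : ℕ) : (Fin (P (m + 1)) × Fin (Q (m + 1))) ≃
    (Fin (P m) × Fin (Q m)) × Fin (steps m) :=
  (stepData m).e0.trans (Equiv.prodComm _ _)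

/-- The frames of the Jiang–Su maps of `Conn.lean`. -/
def frame (m : ℕ) : Frame m := fun t =>
  (CStarMatrix.ofMatrix.symm ((stepData m).V t)).submatrix id (frameEquiv m).symm

theorem eigen_eq (m : ℕ) (j : Fin (steps m)) (t : unitInterval) :
    eigen m j t = (stepData m).lam j t :=
  Set.projIcc_of_mem _ ((stepData m).lamR_mem j t.2)

theorem steps_first (m : ℕ) : 0 < (stepData m).r0 := by
  rw [Data.r0_eq]
  obtain ⟨hp, hq, -⟩ := size_spec m
  refine Nat.mul_pos (Nat.pos_of_ne_zero fun h => ?_) (nextPrime_prime _).pos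
  have h1 := lt_nextPrime (2 * (P m * Q m))
  have h2 := Nat.le_mul_of_pos_left (Q m) (n := P m) (by omega)
  have h3 := (Nat.dvd_prime (nextPrime_prime (2 * (P m * Q m)))).1 (Nat.dvd_of_mod_eq_zero h)
  rcases h3 with h3 | h3 <;> simp only [stepData] at h3 <;> omega

theorem steps_last (m : ℕ) : 0 < (stepData m).r1 := by
  rw [Data.r1_eq]
  obtain ⟨hp, hq, -⟩ := size_spec m
  refine Nat.mul_pos (Nat.pos_of_ne_zero fun h => ?_) (nextPrime_prime _).pos
  have h1 := lt_nextPrime (2 * (P m * Q m))
  have h1' := lt_nextPrime (nextPrime (2 * (P m * Q m)))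
  have h2 := Nat.le_mul_of_pos_right (P m) (m := Q m) (by omega)
  have h3 := (Nat.dvd_prime (nextPrime_prime (nextPrime (2 * (P m * Q m))))).1
    (Nat.dvd_of_mod_eq_zero h)
  rcases h3 with h3 | h3 <;> simp only [stepData] at h3 <;> omega

theorem lam_surj (D : Data) (h0 : 0 < D.r0) (h1 : 0 < D.r1) (s : unitInterval) :
    ∃ j t, D.lam j t = s := by
  have hle := D.r_add_le
  rcases le_or_gt (s : ℝ) (1 / 2) with h | h
  · refine ⟨⟨0, by omega⟩, ⟨2 * (s : ℝ), by linarith [s.2.1], by linarith⟩, Subtype.ext ?_⟩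
    simp only [Data.lam, ContinuousMap.coe_mk, Data.lamR, if_pos h0]
    ring
  · refine ⟨⟨D.k - 1, by omega⟩, ⟨2 * (s : ℝ) - 1, by linarith, by linarith [s.2.2]⟩,
      Subtype.ext ?_⟩
    simp only [Data.lam, ContinuousMap.coe_mk, Data.lamR]
    rw [if_neg (by omega), if_pos (by omega)]
    ring

theorem unitary_submatrix {N N' : Type} [Fintype N] [DecidableEq N] [Fintype N'] [DecidableEq N']
    (σ : N ≃ N') (M : Matrix N N ℂ) (h1 : Mᴴ * M = 1) (h2 : M * Mᴴ = 1) :
    (M.submatrix id σ.symm)ᴴ * M.submatrix id σ.symm = 1 ∧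
      M.submatrix id σ.symm * (M.submatrix id σ.symm)ᴴ = 1 := by
  have e : (M.submatrix id σ.symm)ᴴ = Mᴴ.submatrix σ.symm id := rfl
  rw [e]
  constructor
  · rw [show (id : N → N) = Equiv.refl N from rfl, Matrix.submatrix_mul_equiv, h1,
      Matrix.submatrix_one_equiv]
  · rw [Matrix.submatrix_mul_equiv, Matrix.submatrix_id_id, h2]

theorem conj_submatrix {R : Type*} [Ring R] [StarRing R] {N N' : Type} [Fintype N] [Fintype N']
    (σ : N ≃ N') (V : Matrix N N R) (B : Matrix N' N' R) :
    V.submatrix id σ.symm * B * (V.submatrix id σ.symm)ᴴ = V * B.submatrix σ σ * Vᴴ := by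
  have e : (V.submatrix id σ.symm)ᴴ = Vᴴ.submatrix σ.symm id := rfl
  have hB : B = (B.submatrix σ σ).submatrix σ.symm σ.symm := by ext; simp
  rw [e]
  conv_lhs => rw [hB]
  rw [Matrix.submatrix_mul_equiv, Matrix.submatrix_mul_equiv, Matrix.submatrix_id_id]

namespace Data

variable {A : Type u} [CStarAlgebra A] [PartialOrder A] [StarOrderedRing A] (D : Data)

theorem conn_inj (h0 : 0 < D.r0) (h1 : 0 < D.r1) : Function.Injective (D.conn A) := by
  refine (injective_iff_map_eq_zero _).2 fun f hf => ?_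
  refine Subtype.ext (ContinuousMap.ext fun s => CStarMatrix.ext fun u v => ?_)
  obtain ⟨j, t, rfl⟩ := lam_surj D h0 h1 s
  have h : (D.conn A f : MPath A (Ix D.p' D.q')) t = 0 := by rw [hf]; rfl
  rw [conn_apply] at h
  have hv : star (sc A _ (D.V t)) * sc A _ (D.V t) = 1 := by
    rw [← map_star (sc A _), ← map_mul (sc A _), (D.V_unit t).1, map_one]
  have h' := congrArg (fun x => star (sc A _ (D.V t)) * x * sc A _ (D.V t)) h
  simp only [← mul_assoc, hv, one_mul, mul_zero, zero_mul] at h'
  rw [mul_assoc, hv, mul_one] at h'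
  have h'' := congrArg (fun x : CStarMatrix (Ix D.p' D.q') (Ix D.p' D.q') A =>
    x (D.e0.symm (j, u)) (D.e0.symm (j, v))) h'
  simpa [bd_apply, CStarMatrix.zero_apply] using h''

theorem conn_matrix (F : Blk A D.p D.q) (t : unitInterval) (x y : Ix D.p' D.q') :
    (D.conn A F : MPath A (Ix D.p' D.q')) t x y =
      (((Matrix.of fun a b => D.V t a b).submatrix id (D.e0.trans (Equiv.prodComm _ _)).symm).map
          (algebraMap ℂ A) *
        Matrix.blockDiagonal (fun j : Fin D.k => Matrix.of fun u v =>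
          (F : MPath A (Ix D.p D.q)) (D.lam j t) u v) *
        (((Matrix.of fun a b => D.V t a b).submatrix id (D.e0.trans (Equiv.prodComm _ _)).symm).map
          (algebraMap ℂ A))ᴴ) x y := by
  rw [show ((Matrix.of fun a b => D.V t a b).submatrix id
      (D.e0.trans (Equiv.prodComm _ _)).symm).map (algebraMap ℂ A) =
      ((Matrix.of fun a b => D.V t a b).map (algebraMap ℂ A)).submatrix id
        (D.e0.trans (Equiv.prodComm _ _)).symm from rfl, conj_submatrix]
  rw [conn_apply, CStarMatrix.mul_apply, Matrix.mul_apply]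
  refine Finset.sum_congr rfl fun c _ => ?_
  rw [CStarMatrix.mul_apply, Matrix.mul_apply]
  refine congrArg₂ (· * ·) (Finset.sum_congr rfl fun a _ => congrArg₂ (· * ·) rfl ?_) rfl
  rw [bd_apply, Matrix.submatrix_apply, Matrix.blockDiagonal_apply]
  rfl

end Data

section bridge

variable {A : Type u} [CStarAlgebra A] [PartialOrder A] [StarOrderedRing A]

theorem conn_injective (m : ℕ) : Function.Injective (conn A m) :=
  (stepData m).conn_inj (steps_first m) (steps_last m)

/-- An element of a stage as a bundled one. -/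
def toBlk {m : ℕ} (f : Stage A m) (h : InStage m f) : Blk A (P m) (Q m) :=
  ⟨⟨fun t => CStarMatrix.ofMatrix (f t),
    continuous_of_entries fun i j => h.1.matrix_elem i j⟩, h.2.1, h.2.2⟩

theorem toBlk_apply {m : ℕ} (f : Stage A m) (h : InStage m f) (t : unitInterval)
    (x y : Fin (P m) × Fin (Q m)) :
    (toBlk f h : MPath A (Ix (P m) (Q m))) t x y = f t x y := rfl

theorem blk_ext {m : ℕ} {F G : Blk A (P m) (Q m)}
    (h : ∀ t x y, (F : MPath A (Ix (P m) (Q m))) t x y = (G : MPath A (Ix (P m) (Q m))) t x y) :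
    F = G :=
  Subtype.ext (ContinuousMap.ext fun t => CStarMatrix.ext fun x y => h t x y)

/-- The underlying path of an element. -/
def ofBlk {m : ℕ} (F : Blk A (P m) (Q m)) : Stage A m :=
  fun t => CStarMatrix.ofMatrix.symm ((F : MPath A (Ix (P m) (Q m))) t)

theorem inStage_ofBlk {m : ℕ} (F : Blk A (P m) (Q m)) : InStage m (ofBlk F) :=
  ⟨continuous_matrix fun i j =>
    (continuous_entry i j).comp (F : MPath A (Ix (P m) (Q m))).continuous, F.2.1, F.2.2⟩

theorem toBlk_ofBlk {m : ℕ} (F : Blk A (P m) (Q m)) : toBlk (ofBlk F) (inStage_ofBlk F) = F :=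
  blk_ext fun _ _ _ => rfl

theorem stepMap_eq {m : ℕ} (f : Stage A m) (h : InStage m f) :
    stepMap m (frame m) f = ofBlk (conn A m (toBlk f h)) := by
  funext t
  refine Matrix.ext fun x y => ?_
  refine Eq.trans ?_ ((stepData m).conn_matrix (toBlk f h) t x y).symm
  unfold stepMap
  simp only [eigen_eq]
  rfl

theorem toBlk_add {m : ℕ} {f g : Stage A m} (hf : InStage m f) (hg : InStage m g)
    (h : InStage m (f + g)) : toBlk (f + g) h = toBlk f hf + toBlk g hg :=
  blk_ext fun _ _ _ => rfl

theorem toBlk_mul {m : ℕ} {f g : Stage A m} (hf : InStage m f) (hg : InStage m g)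
    (h : InStage m (f * g)) : toBlk (f * g) h = toBlk f hf * toBlk g hg :=
  blk_ext fun t x y => by
    rw [MulMemClass.coe_mul, ContinuousMap.mul_apply, CStarMatrix.mul_apply]
    simp only [toBlk_apply]
    rfl

theorem toBlk_smul {m : ℕ} {f : Stage A m} (c : ℂ) (hf : InStage m f)
    (h : InStage m (c • f)) : toBlk (c • f) h = c • toBlk f hf :=
  blk_ext fun _ _ _ => rfl

theorem toBlk_star {m : ℕ} {f : Stage A m} (hf : InStage m f)
    (h : InStage m (star f)) : toBlk (star f) h = star (toBlk f hf) :=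
  blk_ext fun t x y => by
    rw [StarMemClass.coe_star, ContinuousMap.star_apply, CStarMatrix.star_apply]
    simp only [toBlk_apply]
    rfl

theorem inStage_step {m : ℕ} (f : Stage A m) (h : InStage m f) :
    InStage (m + 1) (stepMap m (frame m) f) := by
  rw [stepMap_eq f h]
  exact inStage_ofBlk _

theorem inStage_one (m : ℕ) : InStage m (1 : Stage A m) := inStage_ofBlk (1 : Blk A (P m) (Q m))

theorem inStage_ops {m : ℕ} {f g : Stage A m} (hf : InStage m f) (hg : InStage m g) (c : ℂ) :
    InStage m (f + g) ∧ InStage m (f * g) ∧ InStage m (c • f) ∧ InStage m (star f) := by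
  refine ⟨?_, ?_, ?_, ?_⟩
  · convert inStage_ofBlk (toBlk f hf + toBlk g hg) using 1
    funext t; ext x y; rfl
  · convert inStage_ofBlk (toBlk f hf * toBlk g hg) using 1
    funext t; ext x y
    simp only [ofBlk, MulMemClass.coe_mul, ContinuousMap.mul_apply]
    rfl
  · convert inStage_ofBlk (c • toBlk f hf) using 1
    funext t; ext x y; rfl
  · convert inStage_ofBlk (star (toBlk f hf)) using 1
    funext t; ext x y
    simp only [ofBlk, StarMemClass.coe_star, ContinuousMap.star_apply]
    rfl

open Classical in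
/-- The maps of the stages into an algebra isomorphic to the limit. -/
def stageMap [Nontrivial A] (e : A ≃⋆ₐ[ℂ] ZLim A) (m : ℕ) (f : Stage A m) : A :=
  if h : InStage m f then e.symm (incl (fun m => conn A m) m (toBlk f h)) else 0

theorem stageMap_of [Nontrivial A] (e : A ≃⋆ₐ[ℂ] ZLim A) {m : ℕ} {f : Stage A m}
    (h : InStage m f) :
    stageMap e m f = e.symm (incl (fun m => conn A m) m (toBlk f h)) := dif_pos h

theorem stageMap_one [Nontrivial A] (e : A ≃⋆ₐ[ℂ] ZLim A) (m : ℕ) : stageMap e m 1 = 1 := by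
  rw [stageMap_of e (inStage_one m), show toBlk (1 : Stage A m) (inStage_one m) = 1 from
    toBlk_ofBlk (1 : Blk A (P m) (Q m)), map_one (incl (fun m => conn A m) m)]
  exact map_one e.symm

theorem stageMap_add [Nontrivial A] (e : A ≃⋆ₐ[ℂ] ZLim A) {m : ℕ} {f g : Stage A m}
    (hf : InStage m f) (hg : InStage m g) (h : InStage m (f + g)) :
    stageMap e m (f + g) = stageMap e m f + stageMap e m g := by
  rw [stageMap_of e h, stageMap_of e hf, stageMap_of e hg, toBlk_add hf hg h,
    map_add (incl (fun m => conn A m) m)]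
  exact map_add e.symm _ _

theorem stageMap_mul [Nontrivial A] (e : A ≃⋆ₐ[ℂ] ZLim A) {m : ℕ} {f g : Stage A m}
    (hf : InStage m f) (hg : InStage m g) (h : InStage m (f * g)) :
    stageMap e m (f * g) = stageMap e m f * stageMap e m g := by
  rw [stageMap_of e h, stageMap_of e hf, stageMap_of e hg, toBlk_mul hf hg h,
    map_mul (incl (fun m => conn A m) m)]
  exact map_mul e.symm _ _

theorem stageMap_smul [Nontrivial A] (e : A ≃⋆ₐ[ℂ] ZLim A) {m : ℕ} {f : Stage A m} (c : ℂ)
    (hf : InStage m f) (h : InStage m (c • f)) :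
    stageMap e m (c • f) = c • stageMap e m f := by
  rw [stageMap_of e h, stageMap_of e hf, toBlk_smul c hf h,
    map_smul (incl (fun m => conn A m) m)]
  exact map_smul e.symm _ _

theorem stageMap_star [Nontrivial A] (e : A ≃⋆ₐ[ℂ] ZLim A) {m : ℕ} {f : Stage A m}
    (hf : InStage m f) (h : InStage m (star f)) :
    stageMap e m (star f) = star (stageMap e m f) := by
  rw [stageMap_of e h, stageMap_of e hf, toBlk_star hf h,
    map_star (incl (fun m => conn A m) m)]
  exact map_star e.symm _

theorem stageMap_inj [Nontrivial A] (e : A ≃⋆ₐ[ℂ] ZLim A) {m : ℕ} {f g : Stage A m}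
    (hf : InStage m f) (hg : InStage m g) (hfg : stageMap e m f = stageMap e m g) : f = g := by
  rw [stageMap_of e hf, stageMap_of e hg] at hfg
  have h1 := incl_injective (fun m => conn A m) (fun n => conn_injective n) m
    (e.symm.injective hfg)
  funext t
  ext x y
  rw [← toBlk_apply f hf t x y, h1, toBlk_apply g hg t x y]

theorem stageMap_step [Nontrivial A] (e : A ≃⋆ₐ[ℂ] ZLim A) {m : ℕ} (f : Stage A m)
    (h : InStage m f) : stageMap e (m + 1) (stepMap m (frame m) f) = stageMap e m f := by
  have h1 : toBlk (stepMap m (frame m) f) (inStage_step f h) = conn A m (toBlk f h) :=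
    blk_ext fun t x y => by rw [toBlk_apply, stepMap_eq f h]; rfl
  rw [stageMap_of e h, stageMap_of e (inStage_step f h), h1,
    incl_succ (fun m => conn A m) m (toBlk f h)]

theorem stageMap_dense [Nontrivial A] (e : A ≃⋆ₐ[ℂ] ZLim A) (x : A) {ε : ℝ} (hε : 0 < ε) :
    ∃ m f, InStage m f ∧ ‖x - stageMap e m f‖ < ε := by
  obtain ⟨m, X, hX⟩ := exists_incl_near (fun m => conn A m) (e x) hε
  refine ⟨m, ofBlk X, inStage_ofBlk X, ?_⟩
  rw [stageMap_of e (inStage_ofBlk X), toBlk_ofBlk]
  refine lt_of_le_of_lt ?_ hX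
  have h1 : x - e.symm (incl (fun m => conn A m) m X) =
      e.symm (e x - incl (fun m => conn A m) m X) := by
    rw [map_sub, e.symm_apply_apply]
  rw [h1]
  exact NonUnitalStarAlgHom.norm_apply_le e.symm _

theorem isTensorLimit_of_iso [Nontrivial A] (e : A ≃⋆ₐ[ℂ] ZLim A) :
    IsTensorLimit A frame :=
  ⟨fun _ f h => inStage_step f h, stageMap e, stageMap_one e,
    fun m f g c hf hg =>
      have h := inStage_ops hf hg c
      ⟨stageMap_add e hf hg h.1, stageMap_mul e hf hg h.2.1, stageMap_smul e c hf h.2.2.1,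
        stageMap_star e hf h.2.2.2, stageMap_inj e hf hg⟩,
    fun _ f h => stageMap_step e f h, fun x _ hε => stageMap_dense e x hε⟩

end bridge

theorem isJSFrame : IsJSFrame frame := by
  intro m
  refine ⟨?_, fun t => ?_, fun f h => inStage_step f h⟩
  · exact Continuous.matrix_submatrix
      (continuous_matrix fun i j => (continuous_entry i j).comp (stepData m).V.continuous) _ _
  · obtain ⟨h1, h2⟩ := (stepData m).V_unit t
    exact unitary_submatrix (frameEquiv m) _
      (congrArg CStarMatrix.ofMatrix.symm h1) (congrArg CStarMatrix.ofMatrix.symm h2)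

/-- No characters on the central sequence algebra gives `A ≅ A ⊗ Z`. -/
theorem tensorLimit_of_noCharacters (A : Type u) [CStarAlgebra A] [Nontrivial A]
    [SeparableSpace A] (ω : Ultrafilter ℕ)
    (hω : (ω : Filter ℕ) ≤ cofinite) (hchar : NoCharacters (CentralSeq A ω)) :
    IsTensorLimit A frame := by
  let : PartialOrder A := CStarAlgebra.spectralOrder A
  have : StarOrderedRing A := CStarAlgebra.spectralOrderedRing A
  obtain ⟨e⟩ := intertwine A (ZLim A) (toZLim A) toZLim_injective
    (exists_unitary hω hchar halfFlip)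
  exact isTensorLimit_of_iso e

end

end Vale.Agent.P101.JS
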