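import Mathlib

/-!
# P101: the Jiang–Su system, and what it means that `A` is the limit of `A ⊗ Z_{p_m,q_m}`

`Z_{p,q} ⊗ A` is modelled by the continuous paths in `M_p ⊗ M_q ⊗ A` whose ends lie in
`M_p ⊗ 1 ⊗ A` and `1 ⊗ M_q ⊗ A`.
-/

namespace Vale.Agent.P101.JS

open scoped Matrix

noncomputable section

/-- The least prime above `n`. -/
def nextPrime (n : ℕ) : ℕ := Nat.find (Nat.exists_infinite_primes (n + 1))

/-- Next pair of sizes: `k0` is the least prime above `2pq`, `k1` the next one. -/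
def nextSize (x : ℕ × ℕ) : ℕ × ℕ :=
  (nextPrime (2 * (x.1 * x.2)) * x.1, nextPrime (nextPrime (2 * (x.1 * x.2))) * x.2)

/-- The sizes. -/
def size : ℕ → ℕ × ℕ
  | 0 => (2, 3)
  | m + 1 => nextSize (size m)

/-- `p_m`. -/
abbrev P (m : ℕ) : ℕ := (size m).1

/-- `q_m`. -/
abbrev Q (m : ℕ) : ℕ := (size m).2

/-- `k = k0 k1`, the number of eigenvalue maps of step `m`. -/
abbrev steps (m : ℕ) : ℕ :=
  nextPrime (2 * (P m * Q m)) * nextPrime (nextPrime (2 * (P m * Q m)))

/-- Eigenvalue map `j` of step `m`: `t/2` for the first `k mod q_(m+1)` indices, `(t+1)/2` for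
the last `k mod p_(m+1)` ones and `1/2` otherwise. -/
def eigen (m : ℕ) (j : Fin (steps m)) (t : unitInterval) : unitInterval :=
  Set.projIcc 0 1 zero_le_one
    (if (j : ℕ) < steps m % Q (m + 1) then (t : ℝ) / 2
      else if steps m - steps m % P (m + 1) ≤ (j : ℕ) then ((t : ℝ) + 1) / 2 else 1 / 2)

/-- Paths in `M_{p_m} ⊗ M_{q_m} ⊗ A`. -/
abbrev Stage (A : Type*) (m : ℕ) : Type _ :=
  unitInterval → Matrix (Fin (P m) × Fin (Q m)) (Fin (P m) × Fin (Q m)) A

/-- The scalar unitary of step `m` at each point. -/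
abbrev Frame (m : ℕ) : Type :=
  unitInterval → Matrix (Fin (P (m + 1)) × Fin (Q (m + 1)))
    ((Fin (P m) × Fin (Q m)) × Fin (steps m)) ℂ

/-- `f` belongs to `Z_{p_m,q_m} ⊗ A`. -/
def InStage {A : Type*} [Zero A] [TopologicalSpace A] (m : ℕ) (f : Stage A m) : Prop :=
  Continuous f ∧ (∃ a : Fin (P m) → Fin (P m) → A, ∀ x y, f 0 x y = if x.2 = y.2 then a x.1 y.1 else 0) ∧
    ∃ b : Fin (Q m) → Fin (Q m) → A, ∀ x y, f 1 x y = if x.1 = y.1 then b x.2 y.2 else 0

/-- The connecting map `f ↦ W_t diag(f (eigen j t)) W_t^*`. -/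
def stepMap {A : Type*} [Ring A] [StarRing A] [Algebra ℂ A] (m : ℕ) (W : Frame m)
    (f : Stage A m) : Stage A (m + 1) := fun t =>
  (W t).map (algebraMap ℂ A) * Matrix.blockDiagonal (fun j => f (eigen m j t)) *
    ((W t).map (algebraMap ℂ A))ᴴ

/-- `W` is a Jiang–Su system: continuous unitary paths carrying `Z_{p_m,q_m}` into
`Z_{p_(m+1),q_(m+1)}`. Its limit is the Jiang–Su algebra. -/
def IsJSFrame (W : ∀ m, Frame m) : Prop :=
  ∀ m, Continuous (W m) ∧ (∀ t, (W m t)ᴴ * W m t = 1 ∧ W m t * (W m t)ᴴ = 1) ∧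
    ∀ f : Stage ℂ m, InStage m f → InStage (m + 1) (stepMap m (W m) f)

/-- `A` is the C⋆-inductive limit of the `Z_{p_m,q_m} ⊗ A` along the system `W`: there are
injective unital *-homomorphisms of the stages into `A`, compatible with the connecting maps,
whose images have dense union. So `A` is isomorphic to `A ⊗ Z`. -/
def IsTensorLimit (A : Type*) [CStarAlgebra A] (W : ∀ m, Frame m) : Prop :=
  (∀ m (f : Stage A m), InStage m f → InStage (m + 1) (stepMap m (W m) f)) ∧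
  ∃ ι : ∀ m, Stage A m → A,
    (∀ m, ι m 1 = 1) ∧
    (∀ m (f g : Stage A m) (c : ℂ), InStage m f → InStage m g →
      ι m (f + g) = ι m f + ι m g ∧ ι m (f * g) = ι m f * ι m g ∧
      ι m (c • f) = c • ι m f ∧ ι m (star f) = star (ι m f) ∧ (ι m f = ι m g → f = g)) ∧
    (∀ m (f : Stage A m), InStage m f → ι (m + 1) (stepMap m (W m) f) = ι m f) ∧
    ∀ (x : A) (ε : ℝ), 0 < ε → ∃ m f, InStage m f ∧ ‖x - ι m f‖ < ε

end

end Vale.Agent.P101.JS
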