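import Vale.Agent.P101.JS.ConnBase
import Vale.Agent.P101.JS.Spec

/-!
# P101: the connecting maps of the Jiang–Su system

One step sends `f ∈ Blk A p q` to `V_t · diag(f(λ_j t)) · V_t*` in `Blk A (k0·p) (k1·q)`, where
`j` runs below `k = k0·k1`, `λ_j t = t/2` for the first `k mod (k1·q)` indices, `(t+1)/2` for the
last `k mod (k0·p)` ones and `1/2` in between, and `V` is a path of unitary scalar matrices
between the two permutations putting the ends in standard form.
-/

namespace Vale.Agent.P101.JS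

set_option linter.unusedSectionVars false

open scoped ComplexOrder CStarAlgebra Topology

noncomputable section

/-- The data of one step. -/
structure Data where
  /-- first size -/
  p : ℕ
  /-- second size -/
  q : ℕ
  /-- first multiplier -/
  k0 : ℕ
  /-- second multiplier -/
  k1 : ℕ
  hp : 0 < p
  hq : 0 < q
  hk0 : 2 * q < k0
  hk1 : 2 * p < k1

/-! ### Indices at one end: `r = c·k'` small blocks, `q1·d` large ones -/

section split

variable {p0 q0 k' c d p1 q1 k : ℕ}

/-- The index bijection at one end. -/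
def splitEquiv (hq : q1 = k' * q0) (hp : p1 = c * p0 + d * (p0 * q0))
    (hk : k = c * k' + d * q1) : Fin p1 × Fin q1 ≃ Fin k × (Fin p0 × Fin q0) :=
  let L : Fin p1 ≃ (Fin c × Fin p0) ⊕ (Fin d × (Fin p0 × Fin q0)) :=
    Fintype.equivOfCardEq (by simp [hp])
  let eq : Fin q1 ≃ Fin k' × Fin q0 := (finCongr hq).trans finProdFinEquiv.symm
  let K : (Fin c × Fin k') ⊕ (Fin d × Fin q1) ≃ Fin k :=
    ((Equiv.sumCongr finProdFinEquiv finProdFinEquiv).trans finSumFinEquiv).trans
      (finCongr hk.symm)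
  { toFun := fun x => match L x.1 with
      | Sum.inl (i, a) => (K (Sum.inl (i, (eq x.2).1)), (a, (eq x.2).2))
      | Sum.inr (i, ab) => (K (Sum.inr (i, x.2)), ab)
    invFun := fun y => match K.symm y.1 with
      | Sum.inl (i, l) => (L.symm (Sum.inl (i, y.2.1)), eq.symm (l, y.2.2))
      | Sum.inr (i, z) => (L.symm (Sum.inr (i, y.2)), z)
    left_inv := by
      rintro ⟨u, z⟩
      rcases hL : L u with ⟨i, a⟩ | ⟨i, ab⟩ <;>
        simp [hL, (L.symm_apply_eq).mpr hL.symm]
    right_inv := by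
      rintro ⟨j, a, b⟩
      rcases hK : K.symm j with ⟨i, l⟩ | ⟨i, z⟩ <;>
        simp [hK, ((K.symm_apply_eq).mp hK).symm] }

variable {hq : q1 = k' * q0} {hp : p1 = c * p0 + d * (p0 * q0)} {hk : k = c * k' + d * q1}

/-- The entries at one end. -/
theorem split_entry {A : Type*} [Zero A] {F : Fin k → (Fin p0 × Fin q0) → (Fin p0 × Fin q0) → A}
    {a : Fin p0 → Fin p0 → A} {h : (Fin p0 × Fin q0) → (Fin p0 × Fin q0) → A}
    (h1 : ∀ j : Fin k, (j : ℕ) < c * k' → ∀ u v, F j u v = if u.2 = v.2 then a u.1 v.1 else 0)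
    (h2 : ∀ j : Fin k, c * k' ≤ (j : ℕ) → F j = h) :
    ∃ a' : Fin p1 → Fin p1 → A, ∀ x y : Fin p1 × Fin q1,
      (if (splitEquiv hq hp hk x).1 = (splitEquiv hq hp hk y).1 then
        F (splitEquiv hq hp hk x).1 (splitEquiv hq hp hk x).2 (splitEquiv hq hp hk y).2 else 0)
      = if x.2 = y.2 then a' x.1 y.1 else 0 := by
  let L : Fin p1 ≃ (Fin c × Fin p0) ⊕ (Fin d × (Fin p0 × Fin q0)) :=
    Fintype.equivOfCardEq (by simp [hp])
  let eq : Fin q1 ≃ Fin k' × Fin q0 := (finCongr hq).trans finProdFinEquiv.symm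
  let K : (Fin c × Fin k') ⊕ (Fin d × Fin q1) ≃ Fin k :=
    ((Equiv.sumCongr finProdFinEquiv finProdFinEquiv).trans finSumFinEquiv).trans
      (finCongr hk.symm)
  have hKl : ∀ w, (K (Sum.inl w) : ℕ) < c * k' := fun w => by
    simpa [K] using (finProdFinEquiv w).isLt
  have hKr : ∀ w, c * k' ≤ (K (Sum.inr w) : ℕ) := fun w => by simp [K]
  let a' : Fin p1 → Fin p1 → A := fun i i' => match L i, L i' with
    | Sum.inl (m, u), Sum.inl (m', u') => if m = m' then a u u' else 0
    | Sum.inr (m, u), Sum.inr (m', u') => if m = m' then h u u' else 0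
    | _, _ => 0
  refine ⟨a', fun x y => ?_⟩
  obtain ⟨u, z⟩ := x
  obtain ⟨v, w⟩ := y
  have hspl : ∀ u z, splitEquiv hq hp hk (u, z) = (match L u with
      | Sum.inl (i, a) => (K (Sum.inl (i, (eq z).1)), (a, (eq z).2))
      | Sum.inr (i, ab) => (K (Sum.inr (i, z)), ab)) := fun _ _ => rfl
  rw [hspl, hspl]
  have hz : z = w ↔ (eq z).1 = (eq w).1 ∧ (eq z).2 = (eq w).2 := by
    rw [← Prod.ext_iff]; exact eq.injective.eq_iff.symm
  rcases hu : L u with ⟨m, a0⟩ | ⟨m, ab⟩ <;> rcases hv : L v with ⟨m', a0'⟩ | ⟨m', ab'⟩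
  · simp only [a', hu, hv, hz, K.injective.eq_iff, Sum.inl.injEq, Prod.mk.injEq,
      h1 _ (hKl _)]
    by_cases e1 : m = m' <;> by_cases e2 : (eq z).1 = (eq w).1 <;>
      by_cases e3 : (eq z).2 = (eq w).2 <;> simp [e1, e2, e3]
  · simp [a', hu, hv, K.injective.eq_iff]
  · simp [a', hu, hv, K.injective.eq_iff]
  · simp only [a', hu, hv, K.injective.eq_iff, Sum.inr.injEq, Prod.mk.injEq,
      h2 _ (hKr _)]
    by_cases e1 : m = m' <;> by_cases e2 : z = w <;> simp [e1, e2]

end split

namespace Data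

variable (D : Data)

/-- Number of blocks. -/
abbrev k : ℕ := D.k0 * D.k1

/-- Blocks moving towards the left end. -/
abbrev r0 : ℕ := D.k % (D.k1 * D.q)

/-- Blocks moving towards the right end. -/
abbrev r1 : ℕ := D.k % (D.k0 * D.p)

/-- The new first size. -/
abbrev p' : ℕ := D.k0 * D.p

/-- The new second size. -/
abbrev q' : ℕ := D.k1 * D.q

theorem r0_eq : D.r0 = D.k0 % D.q * D.k1 := by
  rw [r0, k, mul_comm D.k0, Nat.mul_mod_mul_left, mul_comm]

theorem r1_eq : D.r1 = D.k1 % D.p * D.k0 := by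
  rw [r1, k, Nat.mul_mod_mul_left, mul_comm]

theorem r_add_le : D.r0 + D.r1 ≤ D.k := by
  have h0 : D.r0 < D.k1 * D.q := Nat.mod_lt _ (Nat.mul_pos (by have := D.hk1; omega) D.hq)
  have h1 : D.r1 < D.k0 * D.p := Nat.mod_lt _ (Nat.mul_pos (by have := D.hk0; omega) D.hp)
  have a0 : D.k1 * (2 * D.q) ≤ D.k1 * D.k0 := Nat.mul_le_mul_left _ D.hk0.le
  have a1 : D.k0 * (2 * D.p) ≤ D.k0 * D.k1 := Nat.mul_le_mul_left _ D.hk1.le
  rw [k]
  nlinarith

/-- The eigenvalue maps. -/
def lamR (j : ℕ) (x : ℝ) : ℝ :=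
  if j < D.r0 then x / 2 else if D.k - D.r1 ≤ j then (x + 1) / 2 else 1 / 2

theorem lamR_mem (j : ℕ) {x : ℝ} (hx : x ∈ unitInterval) : D.lamR j x ∈ unitInterval := by
  obtain ⟨h0, h1⟩ := hx
  simp only [lamR]
  split_ifs <;> constructor <;> linarith

/-- The eigenvalue maps on the interval. -/
def lam (j : Fin D.k) : C(unitInterval, unitInterval) :=
  ⟨fun t => ⟨D.lamR j t, D.lamR_mem j t.2⟩, by
    refine Continuous.subtype_mk ?_ _
    unfold lamR
    split_ifs <;> fun_prop⟩

theorem lam_contract (j : Fin D.k) (t s : unitInterval) :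
    |((D.lam j t : unitInterval) : ℝ) - D.lam j s| ≤ |(t : ℝ) - s| / 2 := by
  simp only [lam, ContinuousMap.coe_mk, lamR]
  split_ifs
  · rw [← sub_div, abs_div, abs_two]
  · rw [← sub_div, abs_div, abs_two, add_sub_add_right_eq_sub]
  · simp only [sub_self, abs_zero]; positivity

/-- Indices at the left end. -/
def e0 : Ix D.p' D.q' ≃ Fin D.k × Ix D.p D.q :=
  splitEquiv (k' := D.k1) (c := D.k0 % D.q) (d := D.k0 / D.q) rfl
    (by
      have := Nat.mod_add_div D.k0 D.q
      calc D.k0 * D.p = (D.k0 % D.q + D.q * (D.k0 / D.q)) * D.p := by rw [this]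
        _ = _ := by ring)
    (by
      have := Nat.mod_add_div D.k0 D.q
      calc D.k0 * D.k1 = (D.k0 % D.q + D.q * (D.k0 / D.q)) * D.k1 := by rw [this]
        _ = _ := by ring)

/-- Indices at the right end. -/
def e1 : Ix D.p' D.q' ≃ Fin D.k × Ix D.p D.q :=
  (Equiv.prodComm _ _).trans <|
    (splitEquiv (k' := D.k0) (c := D.k1 % D.p) (d := D.k1 / D.p) (p0 := D.q) (q0 := D.p)
      (p1 := D.q') (q1 := D.p') (k := D.k) rfl
      (by
        have := Nat.mod_add_div D.k1 D.p
        calc D.k1 * D.q = (D.k1 % D.p + D.p * (D.k1 / D.p)) * D.q := by rw [this]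
          _ = _ := by ring)
      (by
        have := Nat.mod_add_div D.k1 D.p
        calc D.k0 * D.k1 = D.k0 * (D.k1 % D.p + D.p * (D.k1 / D.p)) := by rw [this]
          _ = _ := by ring)).trans
    (Equiv.prodCongr Fin.revPerm (Equiv.prodComm _ _))

/-- The unitary path between the two ends. -/
def V : MPath ℂ (Ix D.p' D.q') :=
  (exists_path_perm (D.e1.trans D.e0.symm)).choose

theorem V_spec : star D.V * D.V = 1 ∧ D.V * star D.V = 1 ∧ D.V 0 = 1 ∧
    D.V 1 = permC (D.e1.trans D.e0.symm) :=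
  (exists_path_perm (D.e1.trans D.e0.symm)).choose_spec

theorem V_unit (t : unitInterval) : star (D.V t) * D.V t = 1 ∧ D.V t * star (D.V t) = 1 :=
  ⟨DFunLike.congr_fun D.V_spec.1 t, DFunLike.congr_fun D.V_spec.2.1 t⟩

variable (A : Type*) [CStarAlgebra A] [PartialOrder A] [StarOrderedRing A]

/-- `diag(f ∘ λ_j)` as a path. -/
def diagFun (f : MPath A (Ix D.p D.q)) : MPath A (Ix D.p' D.q') :=
  ⟨fun t => bd A D.e0 (fun j => f (D.lam j t)),
    (map_continuous (bd A D.e0)).comp
      (continuous_pi fun j => f.continuous.comp (D.lam j).continuous)⟩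

theorem diagFun_apply (f : MPath A (Ix D.p D.q)) (t : unitInterval) :
    D.diagFun A f t = bd A D.e0 (fun j => f (D.lam j t)) := rfl

/-- `diag(f ∘ λ_j)` on paths. -/
def diagPath : MPath A (Ix D.p D.q) →⋆ₐ[ℂ] MPath A (Ix D.p' D.q') where
  toFun := D.diagFun A
  map_one' := by
    ext1 t
    rw [diagFun_apply, ContinuousMap.one_apply, ← map_one (bd A D.e0)]
    congr 1
  map_mul' f g := by
    ext1 t
    rw [ContinuousMap.mul_apply, diagFun_apply, diagFun_apply, diagFun_apply, ← map_mul]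
    congr 1
  map_zero' := by
    ext1 t
    rw [diagFun_apply, ContinuousMap.zero_apply, ← map_zero (bd A D.e0)]
    congr 1
  map_add' f g := by
    ext1 t
    rw [ContinuousMap.add_apply, diagFun_apply, diagFun_apply, diagFun_apply, ← map_add]
    congr 1
  commutes' r := by
    ext1 t
    rw [diagFun_apply, algebraMap_apply, ← Algebra.algebraMap_eq_smul_one,
      ← AlgHomClass.commutes (bd A D.e0) r]
    congr 1
  map_star' f := by
    ext1 t
    rw [ContinuousMap.star_apply, diagFun_apply, diagFun_apply, ← map_star]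
    congr 1

theorem diagPath_apply (f : MPath A (Ix D.p D.q)) (t : unitInterval) :
    D.diagPath A f t = bd A D.e0 (fun j => f (D.lam j t)) := rfl

/-- `V` over `A`. -/
def VA : MPath A (Ix D.p' D.q') :=
  ⟨fun t => sc A _ (D.V t), (map_continuous (sc A _)).comp D.V.continuous⟩

theorem VA_apply (t : unitInterval) : D.VA A t = sc A _ (D.V t) := rfl

theorem VA_unit : star (D.VA A) * D.VA A = 1 ∧ D.VA A * star (D.VA A) = 1 := by
  constructor <;> ext1 t <;>
    simp only [ContinuousMap.mul_apply, ContinuousMap.star_apply, ContinuousMap.one_apply,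
      VA_apply, ← map_star, ← map_mul, (D.V_unit t).1, (D.V_unit t).2, map_one]

/-- One step on paths. -/
def stepPath (f : MPath A (Ix D.p D.q)) : MPath A (Ix D.p' D.q') :=
  D.VA A * D.diagPath A f * star (D.VA A)

theorem stepPath_apply (f : MPath A (Ix D.p D.q)) (t : unitInterval) :
    D.stepPath A f t =
      sc A _ (D.V t) * bd A D.e0 (fun j => f (D.lam j t)) * star (sc A _ (D.V t)) := rfl

variable {A}

theorem step_mem {f : MPath A (Ix D.p D.q)} (hf : IsBlk f) : IsBlk (D.stepPath A f) := by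
  obtain ⟨⟨a, ha⟩, ⟨b, hb⟩⟩ := hf
  have hle := D.r_add_le
  set mid : unitInterval := ⟨1 / 2, by norm_num, by norm_num⟩
  constructor
  · have hj : ∀ j : Fin D.k, D.lam j 0 = if (j : ℕ) < D.r0 then 0 else mid := by
      intro j
      apply Subtype.ext
      simp only [lam, ContinuousMap.coe_mk, lamR]
      split_ifs <;> simp [mid]
    obtain ⟨a', ha'⟩ := split_entry (A := A) (c := D.k0 % D.q) (d := D.k0 / D.q) (hq := (rfl : D.q' = D.k1 * D.q))
      (hp := by
        have := Nat.mod_add_div D.k0 D.q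
        calc D.k0 * D.p = (D.k0 % D.q + D.q * (D.k0 / D.q)) * D.p := by rw [this]
          _ = _ := by ring)
      (hk := by
        have := Nat.mod_add_div D.k0 D.q
        calc D.k0 * D.k1 = (D.k0 % D.q + D.q * (D.k0 / D.q)) * D.k1 := by rw [this]
          _ = _ := by ring)
      (F := fun j u v => f (D.lam j 0) u v) (a := a) (h := fun u v => f mid u v)
      (fun j hlt u v => by
        rw [← D.r0_eq] at hlt
        rw [hj j, if_pos hlt]; exact ha u v)
      (fun j hge => by
        rw [← D.r0_eq] at hge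
        rw [hj j, if_neg (not_lt.mpr hge)])
    refine ⟨a', fun x y => ?_⟩
    rw [stepPath_apply, D.V_spec.2.2.1, map_one, star_one, one_mul, mul_one, bd_apply]
    exact ha' x y
  · have hj : ∀ j : Fin D.k, D.lam j 1 = if D.k - D.r1 ≤ (j : ℕ) then 1 else mid := by
      intro j
      apply Subtype.ext
      simp only [lam, ContinuousMap.coe_mk, lamR, Set.Icc.coe_one]
      split_ifs with h1 h2 <;> first | omega | norm_num [mid]
    obtain ⟨b', hb'⟩ := split_entry (A := A) (p0 := D.q) (q0 := D.p) (c := D.k1 % D.p)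
      (d := D.k1 / D.p)
      (hq := (rfl : D.p' = D.k0 * D.p))
      (hp := by
        have := Nat.mod_add_div D.k1 D.p
        calc D.k1 * D.q = (D.k1 % D.p + D.p * (D.k1 / D.p)) * D.q := by rw [this]
          _ = _ := by ring)
      (hk := by
        have := Nat.mod_add_div D.k1 D.p
        calc D.k0 * D.k1 = D.k0 * (D.k1 % D.p + D.p * (D.k1 / D.p)) := by rw [this]
          _ = _ := by ring)
      (F := fun j u v => f (D.lam (Fin.rev j) 1) u.swap v.swap) (a := b)
      (h := fun u v => f mid u.swap v.swap)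
      (fun j hlt u v => by
        rw [← D.r1_eq] at hlt
        rw [hj _, if_pos (by rw [Fin.val_rev]; omega)]
        exact hb u.swap v.swap)
      (fun j hge => by
        rw [← D.r1_eq] at hge
        rw [hj _, if_neg (by rw [Fin.val_rev]; omega)])
    refine ⟨b', fun x y => ?_⟩
    rw [stepPath_apply, D.V_spec.2.2.2, sc_conj_perm, bd_apply]
    simp only [Equiv.trans_apply, Equiv.apply_symm_apply]
    have hswap := hb' x.swap y.swap
    simp only [Prod.fst_swap, Prod.snd_swap] at hswap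
    refine Eq.trans ?_ hswap
    simp [e1, Fin.revPerm]

variable (A)

/-- One step. -/
def conn : Blk A D.p D.q →⋆ₐ[ℂ] Blk A D.p' D.q' where
  toFun f := ⟨D.stepPath A f, D.step_mem f.2⟩
  map_one' := Subtype.ext (by
    simp only [stepPath, OneMemClass.coe_one, map_one, mul_one, (D.VA_unit A).2])
  map_mul' f g := Subtype.ext (by
    simp only [stepPath, MulMemClass.coe_mul, map_mul, mul_assoc]
    rw [← mul_assoc (star (D.VA A)) (D.VA A), (D.VA_unit A).1, one_mul])
  map_zero' := Subtype.ext (by simp [stepPath])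
  map_add' f g := Subtype.ext (by
    simp only [stepPath, AddMemClass.coe_add, map_add, mul_add, add_mul])
  commutes' r := Subtype.ext (by
    show D.VA A * D.diagPath A (algebraMap ℂ _ r) * star (D.VA A) = _
    rw [AlgHomClass.commutes, ← Algebra.commutes, mul_assoc, (D.VA_unit A).2, mul_one]
    rfl)
  map_star' f := Subtype.ext (by
    show D.VA A * D.diagPath A (star (f : MPath A (Ix D.p D.q))) * star (D.VA A) =
      star (D.VA A * D.diagPath A f * star (D.VA A))
    rw [map_star]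
    ext1 t
    simp only [ContinuousMap.mul_apply, ContinuousMap.star_apply, star_mul, star_star, mul_assoc])

theorem conn_apply (f : Blk A D.p D.q) (t : unitInterval) :
    (D.conn A f : MPath A (Ix D.p' D.q')) t = sc A _ (D.V t) *
      bd A D.e0 (fun j => (f : MPath A (Ix D.p D.q)) (D.lam j t)) * star (sc A _ (D.V t)) := rfl

theorem conn_const (a : A) : D.conn A (const A D.p D.q a) = const A D.p' D.q' a := by
  refine Subtype.ext (ContinuousMap.ext fun t => ?_)
  rw [conn_apply]
  simp only [const_apply, bd_dg]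
  rw [(commute_sc_dg _ a).eq, mul_assoc, ← map_star, ← map_mul, (D.V_unit t).2, map_one, mul_one]

variable {A} {B : Type*} [CStarAlgebra B] [PartialOrder B] [StarOrderedRing B]

theorem conn_natural (ψ : A →⋆ₐ[ℂ] B) (f : Blk A D.p D.q) :
    D.conn B (mapBlk D.p D.q ψ f) = mapBlk D.p' D.q' ψ (D.conn A f) := by
  refine Subtype.ext (ContinuousMap.ext fun t => ?_)
  rw [conn_apply, mapBlk_apply, conn_apply, map_mul, map_mul, map_star, mapM_sc, mapM_bd]
  simp only [mapBlk_apply]

theorem conn_scBlk (g : Blk ℂ D.p D.q) :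
    D.conn A (scBlk A D.p D.q g) = scBlk A D.p' D.q' (D.conn ℂ g) :=
  D.conn_natural (StarAlgHom.ofId ℂ A) g

end Data

/-- Conjugated by a unitary path, the oscillation at scale `δ` is at most `η`. -/
def Flat {p q : ℕ} (G : Set (Blk ℂ p q)) (δ η : ℝ) : Prop :=
  ∃ U : MPath ℂ (Ix p q), star U * U = 1 ∧ U * star U = 1 ∧
    ∀ g ∈ G, ∀ t s : unitInterval, |(t : ℝ) - s| ≤ δ →
      ‖star (U t) * (g : MPath ℂ (Ix p q)) t * U t
        - star (U s) * (g : MPath ℂ (Ix p q)) s * U s‖ ≤ η

theorem flat_start {p q : ℕ} (G : Finset (Blk ℂ p q)) {η : ℝ} (hη : 0 < η) :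
    ∃ δ > 0, Flat (G : Set (Blk ℂ p q)) δ η := by
  classical
  induction G using Finset.induction_on with
  | empty => exact ⟨1, one_pos, 1, by ext1 t; simp, by ext1 t; simp, by simp⟩
  | insert g G hg ih =>
    obtain ⟨δ, hδ, -⟩ := ih
    have key : ∀ g : Blk ℂ p q, ∃ δ > 0, ∀ t s : unitInterval, |(t : ℝ) - s| ≤ δ →
        ‖(g : MPath ℂ (Ix p q)) t - (g : MPath ℂ (Ix p q)) s‖ ≤ η := fun g => by
      obtain ⟨δ, hδ, h⟩ := Metric.uniformContinuous_iff.mp
        (CompactSpace.uniformContinuous_of_continuous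
          (g : MPath ℂ (Ix p q)).continuous) η hη
      refine ⟨δ / 2, half_pos hδ, fun t s hts => ?_⟩
      rw [← dist_eq_norm]
      exact (h (by rw [Subtype.dist_eq, Real.dist_eq]; linarith)).le
    choose d hd hosc using key
    refine ⟨(insert g G).inf' (Finset.insert_nonempty g G) d,
      (Finset.lt_inf'_iff _).mpr fun x _ => hd x, 1, by ext1 t; simp, by ext1 t; simp, ?_⟩
    intro x hx t s hts
    simpa using hosc x t s (hts.trans (Finset.inf'_le _ hx))

theorem Data.flat_step (D : Data) {G : Set (Blk ℂ D.p D.q)} {δ η : ℝ} (hη : 0 ≤ η)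
    (h : Flat G δ η) : Flat (D.conn ℂ '' G) (2 * δ) η := by
  obtain ⟨U, h1, h2, h3⟩ := h
  have u1 := DFunLike.congr_fun (show star (D.diagPath ℂ U) * D.diagPath ℂ U = 1 by
    rw [← map_star (D.diagPath ℂ), ← map_mul (D.diagPath ℂ), h1]; exact (D.diagPath ℂ).map_one')
  have u2 := DFunLike.congr_fun (show D.diagPath ℂ U * star (D.diagPath ℂ U) = 1 by
    rw [← map_star (D.diagPath ℂ), ← map_mul (D.diagPath ℂ), h2]; exact (D.diagPath ℂ).map_one')
  refine ⟨D.VA ℂ * D.diagPath ℂ U, ?_, ?_, ?_⟩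
  · ext1 t
    have e1 := u1 t
    simp only [ContinuousMap.mul_apply, ContinuousMap.star_apply, ContinuousMap.one_apply] at e1 ⊢
    rw [star_mul, mul_assoc, ← mul_assoc (star (D.VA ℂ t)), VA_apply, ← map_star (sc ℂ _),
      ← map_mul (sc ℂ _),
      (D.V_unit t).1, map_one, one_mul, e1]
  · ext1 t
    have e2 := u2 t
    simp only [ContinuousMap.mul_apply, ContinuousMap.star_apply, ContinuousMap.one_apply] at e2 ⊢
    rw [star_mul, mul_assoc, ← mul_assoc (D.diagPath ℂ U t), e2, one_mul, VA_apply, ← map_star (sc ℂ _),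
      ← map_mul (sc ℂ _), (D.V_unit t).2, map_one]
  · rintro _ ⟨g, hg, rfl⟩ t s hts
    have key : ∀ r : unitInterval,
        star ((D.VA ℂ * D.diagPath ℂ U) r) * (D.conn ℂ g : MPath ℂ (Ix D.p' D.q')) r *
          (D.VA ℂ * D.diagPath ℂ U) r
        = bd ℂ D.e0 (fun j => star (U (D.lam j r)) *
            (g : MPath ℂ (Ix D.p D.q)) (D.lam j r) * U (D.lam j r)) := by
      intro r
      rw [conn_apply, ContinuousMap.mul_apply, VA_apply, diagPath_apply, star_mul]
      have hv : star (sc ℂ _ (D.V r)) * sc ℂ _ (D.V r) = 1 := by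
        rw [← map_star (sc ℂ _), ← map_mul (sc ℂ _), (D.V_unit r).1, map_one]
      simp only [mul_assoc]
      rw [← mul_assoc (star (sc ℂ _ (D.V r))) (sc ℂ _ (D.V r)), hv, one_mul,
        ← mul_assoc (star (sc ℂ _ (D.V r))) (sc ℂ _ (D.V r)), hv, one_mul, ← map_star (bd ℂ D.e0),
        ← map_mul (bd ℂ D.e0), ← map_mul (bd ℂ D.e0)]
      rfl
    rw [key t, key s, ← map_sub]
    refine norm_bd_le _ hη fun j => h3 g hg _ _ ?_
    linarith [D.lam_contract j t s]

/-! ### The system -/

theorem lt_nextPrime (n : ℕ) : n < nextPrime n :=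
  (Nat.find_spec (Nat.exists_infinite_primes (n + 1))).1

theorem nextPrime_prime (n : ℕ) : (nextPrime n).Prime :=
  (Nat.find_spec (Nat.exists_infinite_primes (n + 1))).2

theorem size_spec : ∀ m, 2 ≤ P m ∧ 2 ≤ Q m ∧ Nat.Coprime (P m) (Q m)
  | 0 => by decide
  | m + 1 => by
    obtain ⟨hp, hq, hpq⟩ := size_spec m
    set n := 2 * (P m * Q m) with hn
    have a1 : P m ≤ P m * Q m := Nat.le_mul_of_pos_right _ (by omega)
    have a2 : Q m ≤ P m * Q m := Nat.le_mul_of_pos_left _ (by omega)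
    have b0 := lt_nextPrime n
    have b1 := lt_nextPrime (nextPrime n)
    show 2 ≤ nextPrime n * P m ∧ 2 ≤ nextPrime (nextPrime n) * Q m ∧
      Nat.Coprime (nextPrime n * P m) (nextPrime (nextPrime n) * Q m)
    refine ⟨le_trans hp (Nat.le_mul_of_pos_left _ (by omega)),
      le_trans hq (Nat.le_mul_of_pos_left _ (by omega)), ?_⟩
    have c0 := nextPrime_prime n
    have c1 := nextPrime_prime (nextPrime n)
    refine Nat.Coprime.mul_left (Nat.Coprime.mul_right ?_ ?_) (Nat.Coprime.mul_right ?_ hpq)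
    · exact (Nat.coprime_primes c0 c1).mpr b1.ne
    · exact c0.coprime_iff_not_dvd.mpr fun h => by
        have := Nat.le_of_dvd (by omega) h; omega
    · exact (c1.coprime_iff_not_dvd.mpr fun h => by
        have := Nat.le_of_dvd (by omega) h; omega).symm

/-- The data of step `m`. -/
def stepData (m : ℕ) : Data where
  p := P m
  q := Q m
  k0 := nextPrime (2 * (P m * Q m))
  k1 := nextPrime (nextPrime (2 * (P m * Q m)))
  hp := by have := (size_spec m).1; omega
  hq := by have := (size_spec m).2.1; omega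
  hk0 := by
    have := lt_nextPrime (2 * (P m * Q m))
    have := Nat.le_mul_of_pos_left (Q m) (n := P m) (by have := (size_spec m).1; omega)
    omega
  hk1 := by
    have := lt_nextPrime (2 * (P m * Q m))
    have := lt_nextPrime (nextPrime (2 * (P m * Q m)))
    have := Nat.le_mul_of_pos_right (P m) (m := Q m) (by have := (size_spec m).2.1; omega)
    omega

variable (A : Type*) [CStarAlgebra A] [PartialOrder A] [StarOrderedRing A]

/-- The `m`-th connecting map. -/
def conn (m : ℕ) : Blk A (P m) (Q m) →⋆ₐ[ℂ] Blk A (P (m + 1)) (Q (m + 1)) :=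
  (stepData m).conn A

/-- The composite of `d` connecting maps. -/
def connTo (m : ℕ) : (d : ℕ) → Blk A (P m) (Q m) →⋆ₐ[ℂ] Blk A (P (m + d)) (Q (m + d))
  | 0 => StarAlgHom.id ℂ _
  | d + 1 => (conn A (m + d)).comp (connTo m d)

theorem connTo_zero (m : ℕ) (f : Blk A (P m) (Q m)) : connTo A m 0 f = f := rfl

theorem connTo_succ (m d : ℕ) (f : Blk A (P m) (Q m)) :
    connTo A m (d + 1) f = conn A (m + d) (connTo A m d f) := rfl

theorem conn_const (m : ℕ) (a : A) :
    conn A m (const A (P m) (Q m) a) = const A (P (m + 1)) (Q (m + 1)) a :=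
  (stepData m).conn_const A a

theorem connTo_const (m : ℕ) (a : A) : ∀ d : ℕ,
    connTo A m d (const A (P m) (Q m) a) = const A (P (m + d)) (Q (m + d)) a
  | 0 => rfl
  | d + 1 => by rw [connTo_succ, connTo_const m a d, conn_const]; rfl

variable {A}

theorem conn_natural {B : Type*} [CStarAlgebra B] [PartialOrder B] [StarOrderedRing B]
    (m : ℕ) (ψ : A →⋆ₐ[ℂ] B) (f : Blk A (P m) (Q m)) :
    conn B m (mapBlk _ _ ψ f) = mapBlk _ _ ψ (conn A m f) :=
  (stepData m).conn_natural ψ f

theorem connTo_scBlk (m : ℕ) (g : Blk ℂ (P m) (Q m)) : ∀ d : ℕ,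
    connTo A m d (scBlk A (P m) (Q m) g) = scBlk A (P (m + d)) (Q (m + d)) (connTo ℂ m d g)
  | 0 => rfl
  | d + 1 => by
    rw [connTo_succ, connTo_scBlk m g d, connTo_succ]
    exact (stepData (m + d)).conn_scBlk _

/-- Collapse: far out, finitely many elements are, up to a unitary path, almost constant. -/
theorem collapse (m : ℕ) (G : Finset (Blk ℂ (P m) (Q m))) {η : ℝ} (hη : 0 < η) :
    ∃ (d : ℕ) (U : MPath ℂ (Ix (P (m + d)) (Q (m + d)))), star U * U = 1 ∧ U * star U = 1 ∧
      ∀ g ∈ G, ∀ t s : unitInterval,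
        ‖star (U t) * (connTo ℂ m d g : MPath ℂ (Ix (P (m + d)) (Q (m + d)))) t * U t
          - star (U s) * (connTo ℂ m d g : MPath ℂ (Ix (P (m + d)) (Q (m + d)))) s * U s‖ ≤ η := by
  obtain ⟨δ, hδ, hG⟩ := flat_start G hη
  have hall : ∀ d : ℕ, Flat (connTo ℂ m d '' (G : Set _)) (2 ^ d * δ) η := by
    intro d
    induction d with
    | zero =>
      simp only [pow_zero, one_mul]
      rw [show (connTo ℂ m 0 '' (G : Set _)) = (G : Set _) from Set.image_id _]
      exact hG
    | succ d ih =>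
      rw [pow_succ', mul_assoc, show (connTo ℂ m (d + 1) '' (G : Set _)) =
        conn ℂ (m + d) '' (connTo ℂ m d '' (G : Set _)) by rw [← Set.image_comp]; rfl]
      exact (stepData (m + d)).flat_step hη.le ih
  obtain ⟨d, hd⟩ := pow_unbounded_of_one_lt (1 / δ) (one_lt_two (α := ℝ))
  obtain ⟨U, h1, h2, h3⟩ := hall d
  refine ⟨d, U, h1, h2, fun g hg t s => h3 _ ⟨g, hg, rfl⟩ t s ?_⟩
  rw [div_lt_iff₀ hδ] at hd
  have h4 : |(t : ℝ) - s| ≤ 1 := abs_sub_le_iff.mpr
    ⟨by linarith [t.2.2, s.2.1], by linarith [s.2.2, t.2.1]⟩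
  linarith

end

end Vale.Agent.P101.JS
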