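import Vale.Agent.P101.JS.Interfaces

/-!
# P101: every prime dimension drop algebra maps unitally into some `Z_{n,n+1}`

With `n = pq` and `n + 1 = ap + bq`, the map is `a n` constant left ends plus `bq` evaluations at
`t`, conjugated by a path from the identity to a permutation.
-/

namespace Vale.Agent.P101.JS

open scoped ComplexOrder CStarAlgebra Topology Kronecker
open Matrix

noncomputable section

namespace DimDropHom

variable {N : Type} [Fintype N] [DecidableEq N]

/-- A path of unitaries from the identity that ends at conjugation by the permutation. -/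
def Reach (σ : Equiv.Perm N) : Prop :=
  ∃ V : unitInterval → Matrix N N ℂ, Continuous V ∧
    (∀ t, star (V t) * V t = 1 ∧ V t * star (V t) = 1) ∧ V 0 = 1 ∧
    ∀ M, V 1 * M * star (V 1) = M.submatrix σ.symm σ.symm

lemma reach_one : Reach (1 : Equiv.Perm N) := by
  refine ⟨fun _ => 1, continuous_const, fun _ => by simp, rfl, fun M => ?_⟩
  ext i j
  simp [Equiv.Perm.one_def]

lemma reach_mul {σ τ : Equiv.Perm N} (hσ : Reach σ) (hτ : Reach τ) : Reach (σ * τ) := by
  obtain ⟨V, hVc, hVu, hV0, hV1⟩ := hσ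
  obtain ⟨W, hWc, hWu, hW0, hW1⟩ := hτ
  refine ⟨fun t => V t * W t, hVc.matrix_mul hWc, fun t => ⟨?_, ?_⟩, by simp [hV0, hW0],
    fun M => ?_⟩
  · rw [star_mul, mul_assoc, ← mul_assoc (star (V t)), (hVu t).1, one_mul, (hWu t).1]
  · rw [star_mul, mul_assoc, ← mul_assoc (W t), (hWu t).2, one_mul, (hVu t).2]
  · have h : V 1 * W 1 * M * star (V 1 * W 1) = V 1 * (W 1 * M * star (W 1)) * star (V 1) := by
      rw [star_mul]; simp only [mul_assoc]
    rw [h, hW1, hV1, Matrix.submatrix_submatrix]
    rfl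

lemma reach_swap (x y : N) : Reach (Equiv.swap x y) := by
  set τ := Equiv.swap x y with hτ
  set S : Matrix N N ℂ := (1 : Matrix N N ℂ).submatrix τ id with hS
  have hl : ∀ M : Matrix N N ℂ, S * M = M.submatrix τ id := fun M => by
    ext i j; simp [hS, Matrix.mul_apply, Matrix.one_apply]
  have hτsymm : τ.symm = τ := Equiv.symm_swap x y
  have hinv : ∀ i, τ (τ i) = i := Equiv.swap_apply_self x y
  have hstar : star S = S := by
    ext i j
    simp only [hS, Matrix.star_apply, Matrix.submatrix_apply, id, Matrix.one_apply]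
    by_cases h : τ j = i
    · subst h; simp [hinv]
    · have h' : ¬ τ i = j := fun e => h (by rw [← e, hinv])
      simp [h, h']
  have hSS : S * S = 1 := by
    rw [hl]; ext i j
    simp only [hS, Matrix.submatrix_apply]
    rw [hinv]
    rfl
  let z : unitInterval → ℂ := fun t => Complex.exp (((Real.pi * (t : ℝ)) : ℝ) * Complex.I)
  have hzn : ∀ t, starRingEnd ℂ (z t) * z t = 1 := fun t => by
    rw [mul_comm, Complex.mul_conj, Complex.normSq_eq_norm_sq]
    simp only [z, Complex.norm_exp_ofReal_mul_I, one_pow, Complex.ofReal_one]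
  have hzc : Continuous z := by fun_prop
  let V : unitInterval → Matrix N N ℂ := fun t => ((1 + z t) / 2) • 1 + ((1 - z t) / 2) • S
  have hu : ∀ t, star (V t) * V t = 1 ∧ V t * star (V t) = 1 := by
    intro t
    have h2 : starRingEnd ℂ (2 : ℂ) = 2 := map_ofNat _ 2
    have e1 : starRingEnd ℂ ((1 + z t) / 2) * ((1 + z t) / 2) +
        starRingEnd ℂ ((1 - z t) / 2) * ((1 - z t) / 2) = 1 := by
      simp only [map_div₀, map_add, map_sub, map_one, h2]
      linear_combination (1 / 2 : ℂ) * hzn t
    have e2 : starRingEnd ℂ ((1 + z t) / 2) * ((1 - z t) / 2) +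
        starRingEnd ℂ ((1 - z t) / 2) * ((1 + z t) / 2) = 0 := by
      simp only [map_div₀, map_add, map_sub, map_one, h2]
      linear_combination (-1 / 2 : ℂ) * hzn t
    refine ⟨?_, ?_⟩
    · simp only [V, star_add, star_smul, star_one, hstar, Complex.star_def, add_mul, mul_add,
        Matrix.smul_mul, Matrix.mul_smul, smul_smul, one_mul, mul_one, hSS]
      rw [← Matrix.ext_iff]
      intro i j
      simp only [Matrix.add_apply, Matrix.smul_apply, smul_eq_mul]
      linear_combination ((1 : Matrix N N ℂ) i j) * e1 + (S i j) * e2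
    · simp only [V, star_add, star_smul, star_one, hstar, Complex.star_def, add_mul, mul_add,
        Matrix.smul_mul, Matrix.mul_smul, smul_smul, one_mul, mul_one, hSS]
      rw [← Matrix.ext_iff]
      intro i j
      simp only [Matrix.add_apply, Matrix.smul_apply, smul_eq_mul]
      linear_combination ((1 : Matrix N N ℂ) i j) * e1 + (S i j) * e2
  refine ⟨V, by fun_prop, hu, ?_, fun M => ?_⟩
  · have : z 0 = 1 := by simp [z]
    simp [V, this]
  · have hz1 : z 1 = -1 := by simp [z]
    have hV1 : V 1 = S := by simp [V, hz1]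
    rw [hV1, hstar, hl, hτsymm]
    ext i j
    rw [Matrix.mul_apply, Finset.sum_eq_single (τ j)]
    · simp only [hS, Matrix.submatrix_apply, id]
      rw [hinv]
      exact (congrArg (_ * ·) (Matrix.one_apply_eq j)).trans (mul_one _)
    · intro k _ hk
      have : ¬ τ k = j := fun e => hk (by rw [← e, hinv])
      simp [hS, this]
    · simp

lemma reach (σ : Equiv.Perm N) : Reach σ := by
  induction σ using Equiv.Perm.swap_induction_on with
  | one => exact reach_one
  | swap_mul f x y _ hf => exact reach_mul (reach_swap x y) hf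

variable {p q : ℕ}

/-- The matrix of a point of the path. -/
def at' (g : Blk ℂ p q) (t : unitInterval) : Matrix (Ix p q) (Ix p q) ℂ :=
  (toC (Ix p q)).symm ((g : MPath ℂ (Ix p q)) t)

lemma at'_apply (g : Blk ℂ p q) (t : unitInterval) (x y : Ix p q) :
    at' g t x y = (g : MPath ℂ (Ix p q)) t x y := rfl

lemma at'_mul (g h : Blk ℂ p q) (t : unitInterval) : at' (g * h) t = at' g t * at' h t :=
  map_mul (toC (Ix p q)).symm ((g : MPath ℂ (Ix p q)) t) ((h : MPath ℂ (Ix p q)) t)

lemma at'_star (g : Blk ℂ p q) (t : unitInterval) : at' (star g) t = (at' g t).conjTranspose :=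
  map_star (toC (Ix p q)).symm ((g : MPath ℂ (Ix p q)) t)

lemma at'_add (g h : Blk ℂ p q) (t : unitInterval) : at' (g + h) t = at' g t + at' h t :=
  map_add (toC (Ix p q)).symm ((g : MPath ℂ (Ix p q)) t) ((h : MPath ℂ (Ix p q)) t)

lemma at'_algebraMap (r : ℂ) (t : unitInterval) :
    at' (algebraMap ℂ (Blk ℂ p q) r) t = algebraMap ℂ _ r :=
  AlgHomClass.commutes (toC (Ix p q)).symm r

variable [NeZero p] [NeZero q]

/-- The left end. -/
def lft (g : Blk ℂ p q) : Matrix (Fin p) (Fin p) ℂ := fun i i' => at' g 0 (i, 0) (i', 0)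

/-- The right end. -/
def rgt (g : Blk ℂ p q) : Matrix (Fin q) (Fin q) ℂ := fun j j' => at' g 1 (0, j) (0, j')

lemma at'_zero (g : Blk ℂ p q) (x y : Ix p q) :
    at' g 0 x y = if x.2 = y.2 then lft g x.1 y.1 else 0 := by
  obtain ⟨a, ha⟩ := g.2.1
  simp only [lft, at'_apply, ha]
  simp

lemma at'_one (g : Blk ℂ p q) (x y : Ix p q) :
    at' g 1 x y = if x.1 = y.1 then rgt g x.2 y.2 else 0 := by
  obtain ⟨b, hb⟩ := g.2.2
  simp only [rgt, at'_apply, hb]
  simp

lemma lft_mul (g h : Blk ℂ p q) : lft (g * h) = lft g * lft h := by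
  ext i i'
  simp only [Matrix.mul_apply, lft, at'_mul]
  rw [Fintype.sum_prod_type]
  refine Finset.sum_congr rfl fun s _ => ?_
  rw [Finset.sum_eq_single 0]
  · intro r _ hr
    rw [at'_zero g]; simp [Ne.symm hr]
  · simp

lemma lft_add (g h : Blk ℂ p q) : lft (g + h) = lft g + lft h := by
  ext i i'; simp [lft, at'_add]

lemma lft_star (g : Blk ℂ p q) : lft (star g) = (lft g).conjTranspose := by
  ext i i'; simp [lft, at'_star]

lemma lft_algebraMap (r : ℂ) : lft (algebraMap ℂ (Blk ℂ p q) r) = algebraMap ℂ _ r := by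
  ext i i'
  simp [lft, at'_algebraMap, Matrix.algebraMap_matrix_apply]

/-- `c` copies of the left end and `d` copies of the evaluation at `t`. -/
def block (c d : ℕ) (t : unitInterval) (g : Blk ℂ p q) :
    Matrix ((Fin p × Fin c) ⊕ (Ix p q × Fin d)) ((Fin p × Fin c) ⊕ (Ix p q × Fin d)) ℂ :=
  Matrix.fromBlocks (Matrix.blockDiagonal fun _ => lft g) 0 0
    (Matrix.blockDiagonal fun _ => at' g t)

variable {c d : ℕ}

lemma block_mul (t : unitInterval) (g h : Blk ℂ p q) :
    block c d t (g * h) = block c d t g * block c d t h := by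
  simp [block, Matrix.fromBlocks_multiply, lft_mul, at'_mul, ← Matrix.blockDiagonal_mul]

lemma block_add (t : unitInterval) (g h : Blk ℂ p q) :
    block c d t (g + h) = block c d t g + block c d t h := by
  simp [block, Matrix.fromBlocks_add, lft_add, at'_add, ← Matrix.blockDiagonal_add, Pi.add_def]

lemma block_star (t : unitInterval) (g : Blk ℂ p q) :
    block c d t (star g) = star (block c d t g) := by
  simp [block, Matrix.star_eq_conjTranspose, Matrix.fromBlocks_conjTranspose, lft_star, at'_star,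
    Matrix.blockDiagonal_conjTranspose]

lemma block_algebraMap (t : unitInterval) (r : ℂ) :
    block c d t (algebraMap ℂ (Blk ℂ p q) r) = algebraMap ℂ _ r := by
  ext x y
  rcases x with ⟨i, k⟩ | ⟨z, k⟩ <;> rcases y with ⟨i', k'⟩ | ⟨z', k'⟩ <;>
    simp [block, lft_algebraMap, at'_algebraMap, Matrix.blockDiagonal_apply,
      Matrix.algebraMap_matrix_apply, Prod.ext_iff] <;> grind

/-- The unital *-homomorphism at the point `t`. -/
def point (c d : ℕ) (e : (Fin p × Fin c) ⊕ (Ix p q × Fin d) ≃ N) (V : unitInterval → Matrix N N ℂ)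
    (hV : ∀ t, star (V t) * V t = 1 ∧ V t * star (V t) = 1) (t : unitInterval) :
    Blk ℂ p q →⋆ₐ[ℂ] Matrix N N ℂ where
  toFun g := V t * Matrix.reindexAlgEquiv ℂ ℂ e (block c d t g) * star (V t)
  map_one' := by
    rw [← map_one (algebraMap ℂ (Blk ℂ p q)), block_algebraMap, map_one, map_one, mul_one,
      (hV t).2]
  map_mul' g h := by
    rw [block_mul, map_mul]
    simp only [mul_assoc]
    rw [← mul_assoc (star (V t)) (V t), (hV t).1, one_mul]
  map_zero' := by
    rw [← map_zero (algebraMap ℂ (Blk ℂ p q)), block_algebraMap, map_zero, map_zero, mul_zero,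
      zero_mul]
  map_add' g h := by rw [block_add, map_add, mul_add, add_mul]
  commutes' r := by
    rw [block_algebraMap, AlgEquiv.commutes, ← Algebra.commutes, mul_assoc, (hV t).2, mul_one]
  map_star' g := by
    rw [star_mul, star_mul, star_star, block_star, mul_assoc]
    rfl

lemma continuous_point (e : (Fin p × Fin c) ⊕ (Ix p q × Fin d) ≃ N)
    (V : unitInterval → Matrix N N ℂ)
    (hV : ∀ t, star (V t) * V t = 1 ∧ V t * star (V t) = 1) (hVc : Continuous V) (g : Blk ℂ p q) :
    Continuous fun t => point c d e V hV t g := by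
  refine (hVc.matrix_mul ?_).matrix_mul hVc.matrix_conjTranspose
  refine continuous_matrix fun i j => ?_
  simp only [Matrix.coe_reindexAlgEquiv, Matrix.reindex_apply, Matrix.submatrix_apply, block]
  rcases e.symm i with ⟨a, k⟩ | ⟨z, k⟩ <;> rcases e.symm j with ⟨a', k'⟩ | ⟨z', k'⟩ <;>
    simp only [Matrix.fromBlocks_apply₁₁, Matrix.fromBlocks_apply₁₂, Matrix.fromBlocks_apply₂₁,
      Matrix.fromBlocks_apply₂₂, Matrix.blockDiagonal_apply, Matrix.zero_apply]
  · exact continuous_const
  · exact continuous_const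
  · exact continuous_const
  · split_ifs
    · exact (continuous_entry z z').comp (g : MPath ℂ (Ix p q)).continuous
    · exact continuous_const

end DimDropHom

open DimDropHom in
theorem dimDropHom : DimDropHomStatement := by
  classical
  intro p q hp hq hpq
  haveI : NeZero p := ⟨by omega⟩
  haveI : NeZero q := ⟨by omega⟩
  obtain ⟨a, b, hab⟩ : ∃ a b : ℕ, a * p + b * q = p * q + 1 :=
    Nat.exists_add_mul_eq_of_gcd_dvd_of_mul_pred_le p q _ (by rw [hpq]; exact one_dvd _)
      (Nat.le_succ_of_le (Nat.mul_le_mul (Nat.pred_le p) (Nat.pred_le q)))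
  set n := p * q with hn
  refine ⟨n, le_trans hp (Nat.le_mul_of_pos_right p (by omega)), ?_⟩
  let c := a * n
  let d := b * q
  obtain ⟨h0⟩ : Nonempty (Fin c ⊕ Fin q × Fin d ≃ Fin q × Fin (n + 1)) :=
    ⟨Fintype.equivOfCardEq (by
      simp [c, d]; rw [hn] at hab ⊢; linear_combination q * hab)⟩
  obtain ⟨h1⟩ : Nonempty ((Fin p × Fin a) ⊕ (Fin q × Fin b) ≃ Fin (n + 1)) :=
    ⟨Fintype.equivOfCardEq (by simp [← hab]; ring)⟩
  obtain ⟨hc⟩ : Nonempty (Fin c ≃ Fin n × Fin a) :=
    ⟨Fintype.equivOfCardEq (by simp [c]; ring)⟩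
  obtain ⟨hd⟩ : Nonempty (Fin p × Fin d ≃ Fin n × Fin b) :=
    ⟨Fintype.equivOfCardEq (by simp [d, hn]; ring)⟩
  let e0 : (Fin p × Fin c) ⊕ (Ix p q × Fin d) ≃ Fin n × Fin (n + 1) :=
    (((Equiv.sumCongr (Equiv.refl _) (Equiv.prodAssoc (Fin p) (Fin q) (Fin d))).trans
      (Equiv.prodSumDistrib (Fin p) (Fin c) (Fin q × Fin d)).symm).trans
      (Equiv.prodCongr (Equiv.refl _) h0)).trans
      ((Equiv.prodAssoc (Fin p) (Fin q) (Fin (n + 1))).symm.trans
        (Equiv.prodCongr finProdFinEquiv (Equiv.refl _)))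
  let f1 : (Fin p × Fin c) ⊕ (Ix p q × Fin d) → Fin n × Fin (n + 1) := fun x =>
    match x with
    | .inl (i, k) => ((hc k).1, h1 (.inl (i, (hc k).2)))
    | .inr ((i, j), l) => ((hd (i, l)).1, h1 (.inr (j, (hd (i, l)).2)))
  have hf1 : Function.Bijective f1 := by
    refine (Fintype.bijective_iff_injective_and_card f1).mpr ⟨?_, Fintype.card_congr e0⟩
    rintro (⟨i, k⟩ | ⟨⟨i, j⟩, l⟩) (⟨i', k'⟩ | ⟨⟨i', j'⟩, l'⟩) h
    · simp only [f1, Prod.mk.injEq, EmbeddingLike.apply_eq_iff_eq, Sum.inl.injEq] at h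
      obtain rfl : k = k' := hc.injective (Prod.ext h.1 h.2.2)
      rw [h.2.1]
    · simp [f1] at h
    · simp [f1] at h
    · simp only [f1, Prod.mk.injEq, EmbeddingLike.apply_eq_iff_eq, Sum.inr.injEq] at h
      have h' := hd.injective (Prod.ext h.1 h.2.2)
      simp only [Prod.mk.injEq] at h'
      rw [h'.1, h'.2, h.2.1]
  let e1 := Equiv.ofBijective f1 hf1
  obtain ⟨V, hVc, hVu, hV0, hV1⟩ := reach (e0.symm.trans e1)
  let P := point c d e0 V hVu
  have hP : ∀ g, Continuous fun t => toC _ (P t g) := fun g =>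
    continuous_of_entries fun i j =>
      (continuous_point e0 V hVu hVc g).matrix_elem i j
  have hmem : ∀ g, (⟨_, hP g⟩ : DDSpace n) ∈ DimDrop n := by
    intro g
    refine ⟨⟨Matrix.reindex finProdFinEquiv finProdFinEquiv
      (Matrix.blockDiagonal fun _ : Fin q => lft g), ?_⟩,
      ⟨Matrix.reindex h1 h1 (Matrix.fromBlocks (Matrix.blockDiagonal fun _ : Fin a => lft g) 0 0
        (Matrix.blockDiagonal fun _ : Fin b => rgt g)), ?_⟩⟩
    · change toC _ (P 0 g) = _
      congr 1
      change V 0 * Matrix.reindexAlgEquiv ℂ ℂ e0 (block c d 0 g) * star (V 0) = _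
      rw [hV0, star_one, one_mul, mul_one, Matrix.coe_reindexAlgEquiv, Matrix.reindex_apply]
      ext x y
      obtain ⟨u, rfl⟩ := e0.surjective x
      obtain ⟨v, rfl⟩ := e0.surjective y
      simp only [Matrix.submatrix_apply, Equiv.symm_apply_apply, Matrix.reindex_apply,
        Matrix.kroneckerMap_apply]
      rcases u with ⟨i, k⟩ | ⟨⟨i, j⟩, l⟩ <;> rcases v with ⟨i', k'⟩ | ⟨⟨i', j'⟩, l'⟩ <;>
        simp [e0, block, at'_zero, Matrix.blockDiagonal_apply, Matrix.one_apply, ← ite_and,
          ← Prod.ext_iff, and_comm]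
    · change toC _ (P 1 g) = _
      congr 1
      change V 1 * Matrix.reindexAlgEquiv ℂ ℂ e0 (block c d 1 g) * star (V 1) = _
      rw [hV1, Matrix.coe_reindexAlgEquiv, Matrix.reindex_apply, Matrix.submatrix_submatrix]
      ext x y
      obtain ⟨u, rfl⟩ := e1.surjective x
      obtain ⟨v, rfl⟩ := e1.surjective y
      simp only [Matrix.submatrix_apply, Function.comp_apply, Equiv.symm_trans_apply,
        Equiv.symm_symm, Equiv.symm_apply_apply, Matrix.reindex_apply, Matrix.kroneckerMap_apply]
      rcases u with ⟨i, k⟩ | ⟨⟨i, j⟩, l⟩ <;> rcases v with ⟨i', k'⟩ | ⟨⟨i', j'⟩, l'⟩ <;>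
        simp [e1, f1, block, at'_one, Matrix.blockDiagonal_apply, Matrix.one_apply, ← ite_and,
          and_comm]
      · exact if_congr ⟨fun h => by simp [h], fun h => hc.injective (Prod.ext h.2 h.1)⟩ rfl rfl
      · exact if_congr ⟨fun h => by simp [h],
          fun h => Prod.mk.injEq .. ▸ hd.injective (Prod.ext h.2 h.1)⟩ rfl rfl
  exact ⟨{
    toFun := fun g => ⟨⟨_, hP g⟩, hmem g⟩
    map_one' := Subtype.ext (ContinuousMap.ext fun t => by
      change toC _ (P t 1) = 1; rw [map_one, map_one])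
    map_mul' := fun g h => Subtype.ext (ContinuousMap.ext fun t => by
      change toC _ (P t (g * h)) = toC _ (P t g) * toC _ (P t h); rw [map_mul, map_mul])
    map_zero' := Subtype.ext (ContinuousMap.ext fun t => by
      change toC _ (P t 0) = 0; rw [map_zero, map_zero])
    map_add' := fun g h => Subtype.ext (ContinuousMap.ext fun t => by
      change toC _ (P t (g + h)) = toC _ (P t g) + toC _ (P t h); rw [map_add, map_add])
    commutes' := fun r => Subtype.ext (ContinuousMap.ext fun t => by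
      change toC _ (P t (algebraMap ℂ (Blk ℂ p q) r)) = algebraMap ℂ _ r
      rw [AlgHomClass.commutes, AlgHomClass.commutes])
    map_star' := fun g => Subtype.ext (ContinuousMap.ext fun t => by
      change toC _ (P t (star g)) = star (toC _ (P t g)); rw [map_star, map_star]) }⟩

end

end Vale.Agent.P101.JS
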