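import Vale.Agent.P101.JS.Interfaces
import Vale.Agent.P101.JS.Hat
import Vale.Agent.P101.Ultra

/-!
# P101: unitaries over the ultrapower lift to unitaries over the algebra
-/

namespace Vale.Agent.P101.JS

open VAgent.P101 Filter BoundedContinuousFunction
open scoped ComplexOrder CStarAlgebra Topology BoundedContinuousFunction

noncomputable section

set_option linter.unusedSectionVars false

universe u

section matrices

variable {A : Type*} [CStarAlgebra A] [PartialOrder A] [StarOrderedRing A]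
variable {N : Type} [Fintype N] [DecidableEq N]

/-- The matrix unit. -/
def unitAt (x y : N) : CStarMatrix N N A :=
  CStarMatrix.ofMatrix (Matrix.single x y (1 : A))

/-- Insert at one entry. -/
def entryIns (x y : N) (a : A) : CStarMatrix N N A := unitAt x y * dg A N a

theorem entryIns_apply (x y i j : N) (a : A) :
    entryIns x y a i j = if x = i ∧ y = j then a else 0 := by
  simp only [entryIns, unitAt, CStarMatrix.mul_apply, CStarMatrix.ofMatrix_apply, dg_apply,
    Matrix.single, Matrix.of_apply]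
  rw [Finset.sum_eq_single y]
  · by_cases h1 : x = i <;> by_cases h2 : y = j <;> simp [h1, h2]
  · intro z _ hz; simp [Ne.symm hz]
  · simp

theorem cmat_sum_apply {ι : Type*} (s : Finset ι) (f : ι → CStarMatrix N N A) (i j : N) :
    (∑ k ∈ s, f k) i j = ∑ k ∈ s, f k i j := by
  classical
  induction s using Finset.induction_on with
  | empty => simp [CStarMatrix.zero_apply]
  | insert k s hk ih => rw [Finset.sum_insert hk, Finset.sum_insert hk, CStarMatrix.add_apply, ih]

theorem sum_entryIns (M : CStarMatrix N N A) : ∑ x, ∑ y, entryIns x y (M x y) = M := by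
  refine CStarMatrix.ext fun i j => ?_
  simp [cmat_sum_apply, entryIns_apply, ite_and]

theorem norm_le_sum_entries (M : CStarMatrix N N A) :
    ‖M‖ ≤ ∑ x, ∑ y, ‖(unitAt x y : CStarMatrix N N A)‖ * ‖M x y‖ := by
  conv_lhs => rw [← sum_entryIns M]
  refine (norm_sum_le _ _).trans (Finset.sum_le_sum fun x _ => ?_)
  exact (norm_sum_le _ _).trans (Finset.sum_le_sum fun y _ =>
    (norm_mul_le _ _).trans (mul_le_mul_of_nonneg_left
      (NonUnitalStarAlgHom.norm_apply_le (dg A N) _) (norm_nonneg _)))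

/-- One entry of a bounded sequence of matrices. -/
def seqEntry (f : ℕ →ᵇ CStarMatrix N N A) (x y : N) : ℕ →ᵇ A :=
  ofNormedAddCommGroupDiscrete (fun n => f n x y) ‖f‖ fun n =>
    CStarMatrix.norm_entry_le_norm.trans (f.norm_coe_le_norm n)

theorem seqEntry_apply (f : ℕ →ᵇ CStarMatrix N N A) (x y : N) (n : ℕ) :
    seqEntry f x y n = f n x y := rfl

/-- A matrix of bounded sequences as a bounded sequence of matrices. -/
def seqMat (f : N → N → ℕ →ᵇ A) : ℕ →ᵇ CStarMatrix N N A :=
  ofNormedAddCommGroupDiscrete (fun n => CStarMatrix.ofMatrix (Matrix.of fun x y => f x y n))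
    (∑ x, ∑ y, ‖(unitAt x y : CStarMatrix N N A)‖ * ‖f x y‖) fun n =>
    (norm_le_sum_entries _).trans (Finset.sum_le_sum fun x _ => Finset.sum_le_sum fun y _ =>
      mul_le_mul_of_nonneg_left ((f x y).norm_coe_le_norm n) (norm_nonneg _))

theorem seqMat_apply (f : N → N → ℕ →ᵇ A) (n : ℕ) (x y : N) : seqMat f n x y = f x y n := rfl

variable (A N) in
/-- A bounded sequence of matrices as a matrix over the ultrapower. -/
def matUltra (ω : Ultrafilter ℕ) :
    (ℕ →ᵇ CStarMatrix N N A) →⋆ₐ[ℂ] CStarMatrix N N (UPow A ω) where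
  toFun f := CStarMatrix.ofMatrix (Matrix.of fun x y => UPow.mk (seqEntry f x y))
  map_one' := by
    refine CStarMatrix.ext fun x y => ?_
    rw [CStarMatrix.one_apply]
    show UPow.mk (seqEntry 1 x y) = _
    rw [show seqEntry (1 : ℕ →ᵇ CStarMatrix N N A) x y = if x = y then 1 else 0 by
      ext n; by_cases h : x = y <;> simp [seqEntry_apply, h, CStarMatrix.one_apply]]
    split_ifs
    · exact map_one _
    · exact map_zero _
  map_mul' f g := by
    refine CStarMatrix.ext fun x y => ?_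
    rw [CStarMatrix.mul_apply]
    show UPow.mk (seqEntry (f * g) x y) = ∑ z, UPow.mk (seqEntry f x z) * UPow.mk (seqEntry g z y)
    simp only [← map_mul, ← map_sum]
    congr 1
    ext n
    simp [seqEntry_apply, CStarMatrix.mul_apply, BoundedContinuousFunction.coe_sum]
  map_zero' := by
    refine CStarMatrix.ext fun x y => ?_
    show UPow.mk (seqEntry 0 x y) = _
    rw [show seqEntry (0 : ℕ →ᵇ CStarMatrix N N A) x y = 0 by ext n; simp [seqEntry_apply], map_zero]
    rfl
  map_add' f g := by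
    refine CStarMatrix.ext fun x y => ?_
    show UPow.mk (seqEntry (f + g) x y) = UPow.mk (seqEntry f x y) + UPow.mk (seqEntry g x y)
    rw [← map_add]
    congr 1
  commutes' r := by
    refine CStarMatrix.ext fun x y => ?_
    rw [CStarMatrix.algebraMap_apply]
    show UPow.mk (seqEntry (algebraMap ℂ _ r) x y) = _
    rw [show seqEntry (algebraMap ℂ (ℕ →ᵇ CStarMatrix N N A) r) x y
        = if x = y then algebraMap ℂ (ℕ →ᵇ A) r else 0 by
      ext n
      by_cases h : x = y <;>
        simp [seqEntry_apply, h, CStarMatrix.algebraMap_apply, BoundedContinuousFunction.algebraMap_apply,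
          Algebra.algebraMap_eq_smul_one]]
    split_ifs
    · exact AlgHom.commutes _ _
    · exact map_zero _
  map_star' f := by
    refine CStarMatrix.ext fun x y => ?_
    rw [CStarMatrix.star_apply]
    show UPow.mk (seqEntry (star f) x y) = star (UPow.mk (seqEntry f y x))
    rw [← UPow.mk_star]
    congr 1

theorem matUltra_apply (ω : Ultrafilter ℕ) (f : ℕ →ᵇ CStarMatrix N N A) (x y : N) :
    matUltra A N ω f x y = UPow.mk (seqEntry f x y) := rfl

theorem matUltra_seqMat (ω : Ultrafilter ℕ) (f : N → N → ℕ →ᵇ A) (x y : N) :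
    matUltra A N ω (seqMat f) x y = UPow.mk (f x y) := rfl

theorem matUltra_eq_zero {ω : Ultrafilter ℕ} {f : ℕ →ᵇ CStarMatrix N N A}
    (h : matUltra A N ω f = 0) : f ∈ nullIdeal (CStarMatrix N N A) ω := by
  rw [mem_nullIdeal]
  refine squeeze_zero (fun n => norm_nonneg _) (fun n => norm_le_sum_entries (f n)) ?_
  rw [show (0 : ℝ) = ∑ _x : N, ∑ _y : N, (0 : ℝ) by simp]
  refine tendsto_finsetSum _ fun x _ => tendsto_finsetSum _ fun y _ => ?_
  have h0 : seqEntry f x y ∈ nullIdeal A ω := by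
    have := congrArg (fun M : CStarMatrix N N (UPow A ω) => M x y) h
    simp only [matUltra_apply, CStarMatrix.zero_apply] at this
    simpa using UPow.mk_eq_mk.mp (this.trans (map_zero _).symm)
  have h1 := (mem_nullIdeal _ _).mp h0
  simpa [seqEntry_apply] using h1.const_mul ‖(unitAt x y : CStarMatrix N N A)‖

/-- A strict norm bound over the ultrapower holds eventually along the sequence. -/
theorem eventually_of_matUltra_lt {ω : Ultrafilter ℕ}
    [PartialOrder (UPow A ω)] [StarOrderedRing (UPow A ω)]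
    {f : ℕ →ᵇ CStarMatrix N N A} {r : ℝ}
    (h : ‖matUltra A N ω f‖ < r) : ∀ᶠ n in (ω : Filter ℕ), ‖f n‖ < r := by
  have hker : ∀ g ∈ nullIdeal (CStarMatrix N N A) ω, matUltra A N ω g = 0 := by
    intro g hg
    refine CStarMatrix.ext fun x y => ?_
    rw [matUltra_apply, CStarMatrix.zero_apply, ← map_zero (UPow.mk (A := A) (ω := ω)),
      UPow.mk_eq_mk, sub_zero, mem_nullIdeal]
    refine squeeze_zero (g := fun n => ‖g n‖) (fun n => norm_nonneg _) (fun n => ?_)
      ((mem_nullIdeal _ _).mp hg)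
    exact CStarMatrix.norm_entry_le_norm (M := g n) (i := x) (j := y)
  let φ : UPow (CStarMatrix N N A) ω →⋆ₐ[ℂ] CStarMatrix N N (UPow A ω) :=
    { Ideal.Quotient.liftₐ (nullIdeal (CStarMatrix N N A) ω) (matUltra A N ω).toAlgHom hker with
      map_star' := fun x => by
        obtain ⟨g, rfl⟩ := UPow.mk_surjective x
        rw [← UPow.mk_star]
        exact map_star (matUltra A N ω) g }
  have hφ : Function.Injective φ := by
    refine (injective_iff_map_eq_zero φ).mpr fun x hx => ?_
    obtain ⟨g, rfl⟩ := UPow.mk_surjective x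
    have hg : matUltra A N ω g = 0 := hx
    rw [← map_zero (UPow.mk (A := CStarMatrix N N A) (ω := ω)), UPow.mk_eq_mk, sub_zero]
    exact matUltra_eq_zero hg
  refine UPow.eventually_of_norm_lt ?_
  have h1 := NonUnitalStarAlgHom.norm_map φ hφ (UPow.mk f)
  rw [← h1]
  exact h

theorem eventually_le_of_matUltra {ω : Ultrafilter ℕ}
    [PartialOrder (UPow A ω)] [StarOrderedRing (UPow A ω)]
    {f : ℕ →ᵇ CStarMatrix N N A} {r δ : ℝ} (hδ : 0 < δ)
    (h : ‖matUltra A N ω f‖ ≤ r) : ∀ᶠ n in (ω : Filter ℕ), ‖f n‖ ≤ r + δ :=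
  (eventually_of_matUltra_lt (lt_of_le_of_lt h (lt_add_of_pos_right r hδ))).mono fun _ hn => hn.le

end matrices

/-- Close to unitary on both sides: the polar part is a unitary nearby. -/
theorem exists_unitary_near {B : Type*} [CStarAlgebra B] (w : B) {e : ℝ} (he : e ≤ 1 / 2)
    (h1 : ‖star w * w - 1‖ ≤ e) (h2 : ‖w * star w - 1‖ ≤ e) :
    ∃ v : B, star v * v = 1 ∧ v * star v = 1 ∧ ‖v - w‖ ≤ ‖w‖ * e := by
  rcases subsingleton_or_nontrivial B with hB | hB
  · exact ⟨1, Subsingleton.elim _ _, Subsingleton.elim _ _, by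
      rw [Subsingleton.elim (1 : B) w, sub_self, norm_zero]
      exact mul_nonneg (norm_nonneg _) ((norm_nonneg _).trans h1)⟩
  have he0 : 0 ≤ e := (norm_nonneg _).trans h1
  set z := star w * w with hz
  have hzsa : IsSelfAdjoint z := IsSelfAdjoint.star_mul_self w
  have hspec : ∀ t ∈ spectrum ℝ z, |t - 1| ≤ e := by
    intro t ht
    have : t - 1 ∈ spectrum ℝ (z - 1) := by
      rw [← map_one (algebraMap ℝ B), ← spectrum.sub_singleton_eq]
      exact Set.sub_mem_sub ht rfl
    exact (spectrum.norm_le_norm_of_mem this).trans h1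
  have hpos : ∀ t ∈ spectrum ℝ z, 0 < t := fun t ht => by
    have := (abs_le.mp (hspec t ht)).1; linarith
  set f : ℝ → ℝ := fun t => 1 / Real.sqrt t with hf
  have hfc : ContinuousOn f (spectrum ℝ z) :=
    continuousOn_const.div Real.continuous_sqrt.continuousOn
      fun t ht => (Real.sqrt_pos.2 (hpos t ht)).ne'
  set g := cfc f z
  have hg : star g = g := (cfc_predicate f z).star_eq
  have hgzg : g * z * g = 1 := by
    calc g * z * g = cfc f z * cfc (fun t : ℝ => t) z * cfc f z := by rw [cfc_id' ℝ z]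
      _ = cfc (fun t => f t * t * f t) z := by
          rw [cfc_mul (fun t => f t * t) f z (hfc.mul continuousOn_id) hfc,
            cfc_mul f (fun t => t) z hfc continuousOn_id]
      _ = cfc (fun _ : ℝ => (1 : ℝ)) z := cfc_congr fun t ht => by
          have h1 := Real.sqrt_pos.2 (hpos t ht)
          have h2 := Real.mul_self_sqrt (hpos t ht).le
          simp only [hf]; field_simp; linarith
      _ = 1 := cfc_const_one ℝ z
  refine ⟨w * g, ?_, ?_, ?_⟩
  · rw [star_mul, hg, mul_assoc, ← mul_assoc (star w), ← mul_assoc, ← hz]; exact hgzg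
  · have hu1 : IsUnit z := by
      have : ‖1 - z‖ < 1 := by rw [norm_sub_rev]; linarith
      simpa using isUnit_one_sub_of_norm_lt_one this
    have hu2 : IsUnit (w * star w) := by
      have : ‖1 - w * star w‖ < 1 := by rw [norm_sub_rev]; linarith
      simpa using isUnit_one_sub_of_norm_lt_one this
    have hleft : star (w * g) * (w * g) = 1 := by
      rw [star_mul, hg, mul_assoc, ← mul_assoc (star w), ← mul_assoc, ← hz]; exact hgzg
    have hwu : IsUnit w := by
      obtain ⟨a, ha⟩ := hu1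
      obtain ⟨b, hb⟩ := hu2
      refine isUnit_iff_exists.mpr ⟨(↑a⁻¹ : B) * star w, ?_, ?_⟩
      · have hr : w * (star w * ↑b⁻¹) = 1 := by rw [← mul_assoc, ← hb, Units.mul_inv]
        have hl : ((↑a⁻¹ : B) * star w) * w = 1 := by rw [mul_assoc, ← hz, ← ha, Units.inv_mul]
        rw [show (↑a⁻¹ : B) * star w = star w * ↑b⁻¹ by
          calc (↑a⁻¹ : B) * star w = (↑a⁻¹ * star w) * (w * (star w * ↑b⁻¹)) := by rw [hr, mul_one]
            _ = _ := by rw [← mul_assoc, hl, one_mul]]
        exact hr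
      · rw [mul_assoc, ← hz, ← ha, Units.inv_mul]
    have hgu : IsUnit g := by
      have hc : Commute g z := by
        rw [show z = cfc (fun t : ℝ => t) z from (cfc_id' ℝ z).symm]
        exact cfc_commute_cfc f _ z
      refine isUnit_iff_exists.mpr ⟨z * g, ?_, ?_⟩
      · rw [← mul_assoc]; exact hgzg
      · rw [← hc.eq]; exact hgzg
    obtain ⟨a, ha⟩ := hwu.mul hgu
    rw [← ha] at hleft ⊢
    rw [← Units.inv_eq_of_mul_eq_one_left hleft, Units.mul_inv]
  · rw [show w * g - w = w * (g - 1) by rw [mul_sub, mul_one]]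
    refine (norm_mul_le _ _).trans (mul_le_mul_of_nonneg_left ?_ (norm_nonneg _))
    rw [← cfc_const_one ℝ z, ← cfc_sub f (fun _ => 1) z hfc continuousOn_const]
    refine norm_cfc_le he0 fun t ht => ?_
    have h0 := hpos t ht
    have hs := Real.sqrt_pos.2 h0
    have hb := hspec t ht
    have hlow : 1 / 2 ≤ t := by linarith [(abs_le.mp hb).1]
    have hsl : 7 / 10 ≤ Real.sqrt t := Real.le_sqrt_of_sq_le (by linarith)
    rw [Real.norm_eq_abs, show f t - 1 = (1 - t) / (Real.sqrt t * (1 + Real.sqrt t)) by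
      simp only [hf]
      have h2 := Real.mul_self_sqrt h0.le
      field_simp
      nlinarith [h2]]
    rw [abs_div, abs_sub_comm, abs_of_pos (mul_pos hs (by linarith)),
      div_le_iff₀ (mul_pos hs (by linarith))]
    have hden : 1 ≤ Real.sqrt t * (1 + Real.sqrt t) := by nlinarith
    nlinarith

/-- Good node values give a good unitary path. -/
theorem exists_unitary_path {A : Type u} [CStarAlgebra A] [PartialOrder A] [StarOrderedRing A]
    {p q m : ℕ} (hm : 0 < m) (Lv : Fin (m + 1) → CStarMatrix (Ix p q) (Ix p q) A)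
    (F : Finset A) (G : Finset (Blk A p q)) (bv : Blk A p q → A) {η ε δ C CF : ℝ}
    (hδ : 0 < δ) (hδ1 : δ ≤ 1 / 100) (hε : 0 < ε) (hδε : δ * (100 * (C + CF + 1)) ≤ ε)
    (hC0 : 0 ≤ C) (hCF0 : 0 ≤ CF) (hη0 : ∀ X ∈ G, 0 ≤ η)
    (hC : ∀ X ∈ G, ‖(X : MPath A (Ix p q))‖ ≤ C) (hCF : ∀ a ∈ F, ‖dg A (Ix p q) a‖ ≤ CF)
    (hl : IsLeft (Lv 0)) (hr : IsRight (Lv (Fin.last m)))
    (hXc : ∀ X ∈ G, ∀ s t : unitInterval, dist s t < 2 / m →
        ‖(X : MPath A (Ix p q)) s - (X : MPath A (Ix p q)) t‖ ≤ δ)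
    (hn1 : ∀ k, ‖Lv k‖ ≤ 1 + δ ∧ ‖star (Lv k) * Lv k - 1‖ ≤ δ ∧ ‖Lv k * star (Lv k) - 1‖ ≤ δ)
    (hn2 : ∀ k j, dist (node m k) (node m j) < 2 / m → ‖Lv k - Lv j‖ ≤ 2 * δ)
    (hn3 : ∀ k, ∀ a ∈ F, ‖Lv k * dg A (Ix p q) a - dg A (Ix p q) a * Lv k‖ ≤ δ)
    (hn4 : ∀ k, ∀ X ∈ G, ‖star (Lv k) * (X : MPath A (Ix p q)) (node m k) * Lv k
        - dg A (Ix p q) (bv X)‖ ≤ η + δ) :
    ∃ u : Blk A p q, star u * u = 1 ∧ u * star u = 1 ∧
      (∀ a ∈ F, ‖u * const A p q a - const A p q a * u‖ ≤ ε) ∧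
      ∀ X ∈ G, ∃ b : A, ‖star u * X * u - const A p q b‖ ≤ η + ε := by
  -- the interpolated path
  let W : Blk A p q := ⟨interp m Lv, by
    constructor
    · rw [interp_zero]; exact hl
    · rw [interp_one]; exact hr⟩
  have hWt : ∀ t, ∃ j, dist t (node m j) < 1 / m ∧
      ‖(W : MPath A (Ix p q)) t - Lv j‖ ≤ 2 * δ := by
    intro t
    obtain ⟨j, hj⟩ := exists_active m t
    refine ⟨j, dist_node hm hj, norm_hat_sum_sub_le m t (Lv) _ fun k hk => hn2 k j ?_⟩
    have h1 := dist_node hm hk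
    have h2 := dist_node hm hj
    calc dist (node m k) (node m j) ≤ dist t (node m k) + dist t (node m j) :=
          dist_triangle_left _ _ _
      _ < 1 / m + 1 / m := add_lt_add h1 h2
      _ = 2 / m := by ring
  have near : ∀ {P Q : CStarMatrix (Ix p q) (Ix p q) A}, ‖P - Q‖ ≤ 2 * δ → ‖Q‖ ≤ 1 + δ →
      ‖P‖ ≤ 2 := fun {P Q} h1 h2 => by
    linarith [norm_le_norm_add_norm_sub' P Q]
  have hWn : ‖W‖ ≤ 2 := by
    refine (ContinuousMap.norm_le _ (by norm_num)).2 fun t => ?_
    obtain ⟨j, _, hj⟩ := hWt t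
    exact near hj (hn1 j).1
  have hprod : ∀ {P Q P' Q' : CStarMatrix (Ix p q) (Ix p q) A} {r s : ℝ}, ‖P - Q‖ ≤ r →
      ‖P' - Q'‖ ≤ s → ‖P * P' - Q * Q'‖ ≤ r * ‖P'‖ + ‖Q‖ * s := by
    intro P Q P' Q' r s h1 h2
    rw [show P * P' - Q * Q' = (P - Q) * P' + Q * (P' - Q') by rw [sub_mul, mul_sub]; abel]
    exact (norm_add_le _ _).trans (add_le_add
      ((norm_mul_le _ _).trans (mul_le_mul_of_nonneg_right h1 (norm_nonneg _)))
      ((norm_mul_le _ _).trans (mul_le_mul_of_nonneg_left h2 (norm_nonneg _))))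
  have hstar : ∀ {P Q : CStarMatrix (Ix p q) (Ix p q) A} {r : ℝ}, ‖P - Q‖ ≤ r →
      ‖star P - star Q‖ ≤ r := fun {P Q r} h => by rwa [← star_sub, norm_star]
  have hW1 : ‖star W * W - 1‖ ≤ 10 * δ ∧ ‖W * star W - 1‖ ≤ 10 * δ := by
    refine ⟨(ContinuousMap.norm_le _ (by linarith)).2 fun t => ?_,
      (ContinuousMap.norm_le _ (by linarith)).2 fun t => ?_⟩
    · obtain ⟨j, _, hj⟩ := hWt t
      have h := hprod (hstar hj) hj
      have h1 := near hj (hn1 j).1
      have h2 : ‖star (Lv j)‖ ≤ 1 + δ := by rw [norm_star]; exact (hn1 j).1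
      show ‖star ((W : MPath A (Ix p q)) t) * (W : MPath A (Ix p q)) t - 1‖ ≤ _
      have := norm_sub_le_norm_sub_add_norm_sub (star ((W : MPath A (Ix p q)) t) *
        (W : MPath A (Ix p q)) t) (star (Lv j) * Lv j) 1
      nlinarith [(hn1 j).2.1, norm_nonneg (Lv j)]
    · obtain ⟨j, _, hj⟩ := hWt t
      have h := hprod hj (hstar hj)
      have h1 : ‖star ((W : MPath A (Ix p q)) t)‖ ≤ 2 := by
        rw [norm_star]; exact near hj (hn1 j).1
      show ‖(W : MPath A (Ix p q)) t * star ((W : MPath A (Ix p q)) t) - 1‖ ≤ _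
      have := norm_sub_le_norm_sub_add_norm_sub ((W : MPath A (Ix p q)) t *
        star ((W : MPath A (Ix p q)) t)) (Lv j * star (Lv j)) 1
      nlinarith [(hn1 j).2.2, (hn1 j).1]
  obtain ⟨u, hu1, hu2, hu⟩ := exists_unitary_near W (e := 10 * δ) (by linarith) hW1.1 hW1.2
  have huW : ‖u - W‖ ≤ 20 * δ := hu.trans (by nlinarith)
  have hut : ∀ t, ∃ j, dist t (node m j) < 1 / m ∧
      ‖(u : MPath A (Ix p q)) t - Lv j‖ ≤ 22 * δ ∧ ‖(u : MPath A (Ix p q)) t‖ ≤ 2 := by
    intro t
    obtain ⟨j, hd, hj⟩ := hWt t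
    have h1 : ‖(u : MPath A (Ix p q)) t - (W : MPath A (Ix p q)) t‖ ≤ 20 * δ :=
      (ContinuousMap.norm_coe_le_norm ((u - W : Blk A p q) : MPath A (Ix p q)) t).trans huW
    have h2 : ‖(u : MPath A (Ix p q)) t - Lv j‖ ≤ 22 * δ := by
      linarith [norm_sub_le_norm_sub_add_norm_sub ((u : MPath A (Ix p q)) t)
        ((W : MPath A (Ix p q)) t) (Lv j)]
    refine ⟨j, hd, h2, ?_⟩
    linarith [norm_le_norm_add_norm_sub' ((u : MPath A (Ix p q)) t) (Lv j), (hn1 j).1]
  refine ⟨u, hu1, hu2, fun a ha => ?_, fun X hX => ⟨bv X, ?_⟩⟩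
  · refine (ContinuousMap.norm_le _ hε.le).2 fun t => ?_
    obtain ⟨j, _, hj, _⟩ := hut t
    show ‖(u : MPath A (Ix p q)) t * dg A (Ix p q) a - dg A (Ix p q) a * (u : MPath A (Ix p q)) t‖
      ≤ ε
    have hd : ‖dg A (Ix p q) a‖ ≤ CF := hCF a ha
    set P := (u : MPath A (Ix p q)) t
    set D := dg A (Ix p q) a
    have hk := hn3 j a ha
    rw [show P * D - D * P = (P - Lv j) * D + (Lv j * D - D * Lv j) + D * (Lv j - P) by
      rw [sub_mul, mul_sub]; abel]
    refine (norm_add₃_le).trans ?_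
    have h1 : ‖(P - Lv j) * D‖ ≤ 22 * δ * CF := (norm_mul_le _ _).trans
      (mul_le_mul hj hd (norm_nonneg _) (by positivity))
    have h2 : ‖D * (Lv j - P)‖ ≤ CF * (22 * δ) := (norm_mul_le _ _).trans
      (mul_le_mul hd (by rwa [norm_sub_rev]) (norm_nonneg _) hCF0)
    nlinarith
  · have hη : 0 ≤ η := hη0 X hX
    refine (ContinuousMap.norm_le _ (by linarith)).2 fun t => ?_
    obtain ⟨j, hd, hj, hP⟩ := hut t
    show ‖star ((u : MPath A (Ix p q)) t) * (X : MPath A (Ix p q)) t * (u : MPath A (Ix p q)) t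
      - dg A (Ix p q) (bv X)‖ ≤ η + ε
    set P := (u : MPath A (Ix p q)) t
    set Q := Lv j
    set Y := (X : MPath A (Ix p q)) t
    set Z := (X : MPath A (Ix p q)) (node m j)
    have hXn : ‖(X : MPath A (Ix p q))‖ ≤ C := hC X hX
    have hY : ‖Y‖ ≤ C := (ContinuousMap.norm_coe_le_norm _ t).trans hXn
    have hYZ : ‖Y - Z‖ ≤ δ := hXc X hX t (node m j) (lt_of_lt_of_le hd (by gcongr; norm_num))
    have hQ : ‖Q‖ ≤ 1 + δ := (hn1 j).1
    have h1 : ‖star P * Y - star Q * Z‖ ≤ 22 * δ * C + (1 + δ) * δ := by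
      refine (hprod (hstar hj) hYZ).trans (add_le_add
        (mul_le_mul_of_nonneg_left hY (by positivity)) ?_)
      rw [norm_star]
      exact mul_le_mul_of_nonneg_right hQ hδ.le
    have hQZ : ‖star Q * Z‖ ≤ (1 + δ) * C := (norm_mul_le _ _).trans (by
      rw [norm_star]
      exact mul_le_mul hQ ((ContinuousMap.norm_coe_le_norm _ _).trans hXn) (norm_nonneg _)
        (by linarith))
    have h2 := hprod h1 hj
    have h3 := hn4 j X hX
    have h4 := norm_sub_le_norm_sub_add_norm_sub (star P * Y * P) (star Q * Z * Q)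
      (dg A (Ix p q) (bv X))
    have hA : (22 * δ * C + (1 + δ) * δ) * ‖P‖ ≤ (22 * δ * C + (1 + δ) * δ) * 2 :=
      mul_le_mul_of_nonneg_left hP (by positivity)
    have hB : ‖star Q * Z‖ * (22 * δ) ≤ (1 + δ) * C * (22 * δ) :=
      mul_le_mul_of_nonneg_right hQZ (by positivity)
    have k1 : δ * δ ≤ δ * (1 / 100) := mul_le_mul_of_nonneg_left hδ1 hδ.le
    have k2 : δ * δ * C ≤ δ * (1 / 100) * C := mul_le_mul_of_nonneg_right k1 hC0
    have k3 : 0 ≤ δ * C := mul_nonneg hδ.le hC0
    have k4 : 0 ≤ δ * CF := mul_nonneg hδ.le hCF0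
    linarith

open VAgent.P101 in
theorem lift : LiftStatement.{u} := by
  intro A _ _ _ _ ω p q ic hic V hV1 hV2 F hF G η ε hε hG
  classical
  let : PartialOrder (UPow A ω) := CStarAlgebra.spectralOrder (UPow A ω)
  let : StarOrderedRing (UPow A ω) := CStarAlgebra.spectralOrderedRing (UPow A ω)
  -- constants
  set C : ℝ := ∑ X ∈ G, ‖(X : MPath A (Ix p q))‖ with hC
  have hC0 : 0 ≤ C := Finset.sum_nonneg fun _ _ => norm_nonneg _
  set CF : ℝ := ∑ a ∈ F, ‖dg A (Ix p q) a‖ with hCF
  have hCF0 : 0 ≤ CF := Finset.sum_nonneg fun _ _ => norm_nonneg _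
  set δ : ℝ := min (1 / 100) (ε / (100 * (C + CF + 1))) with hδdef
  have hδ : 0 < δ := lt_min (by norm_num) (by positivity)
  have hδ1 : δ ≤ 1 / 100 := min_le_left _ _
  have hδε : δ * (100 * (C + CF + 1)) ≤ ε := (le_div_iff₀ (by positivity)).mp (min_le_right _ _)
  -- nodes
  let Vp : MPath (UPow A ω) (Ix p q) := (V : MPath (UPow A ω) (Ix p q))
  obtain ⟨m, hm, hVc, hXc⟩ : ∃ m : ℕ, 0 < m ∧
      (∀ s t : unitInterval, dist s t < 2 / m → ‖Vp s - Vp t‖ ≤ δ) ∧
      ∀ X ∈ G, ∀ s t : unitInterval, dist s t < 2 / m →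
        ‖(X : MPath A (Ix p q)) s - (X : MPath A (Ix p q)) t‖ ≤ δ := by
    have h1 : ∀ᶠ m : ℕ in atTop, ∀ s t : unitInterval, dist s t < 2 / m → ‖Vp s - Vp t‖ ≤ δ := by
      obtain ⟨d, hd, h⟩ := Metric.uniformContinuous_iff.mp
        (CompactSpace.uniformContinuous_of_continuous Vp.continuous) δ hδ
      filter_upwards [(tendsto_const_div_atTop_nhds_zero_nat (2 : ℝ)).eventually_lt_const hd]
        with m hm s t hst
      exact le_of_lt (by rw [← dist_eq_norm]; exact h (hst.trans hm))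
    have h2 : ∀ᶠ m : ℕ in atTop, ∀ X ∈ G, ∀ s t : unitInterval, dist s t < 2 / m →
        ‖(X : MPath A (Ix p q)) s - (X : MPath A (Ix p q)) t‖ ≤ δ := by
      refine (eventually_all_finset G).2 fun X _ => ?_
      obtain ⟨d, hd, h⟩ := Metric.uniformContinuous_iff.mp
        (CompactSpace.uniformContinuous_of_continuous (X : MPath A (Ix p q)).continuous) δ hδ
      filter_upwards [(tendsto_const_div_atTop_nhds_zero_nat (2 : ℝ)).eventually_lt_const hd]
        with m hm s t hst
      exact le_of_lt (by rw [← dist_eq_norm]; exact h (hst.trans hm))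
    obtain ⟨m, ⟨hm1, hm2⟩, hm0⟩ := ((h1.and h2).and (eventually_gt_atTop 0)).exists
    exact ⟨m, hm0, hm1, hm2⟩
  -- lifts of the node values, respecting the ends
  have hL : ∀ k, ∃ L : ℕ →ᵇ CStarMatrix (Ix p q) (Ix p q) A,
      matUltra A (Ix p q) ω L = Vp (node m k) ∧
      (k = 0 → ∀ n, IsLeft (L n)) ∧ (k = Fin.last m → ∀ n, IsRight (L n)) := by
    intro k
    choose sec hsec using fun x : UPow A ω => UPow.mk_surjective (ω := ω) x
    by_cases h0 : k = 0
    · obtain ⟨a, ha⟩ := V.2.1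
      refine ⟨seqMat fun x y => if x.2 = y.2 then sec (a x.1 y.1) else 0, ?_, ?_, ?_⟩
      · refine CStarMatrix.ext fun x y => ?_
        rw [matUltra_seqMat, h0, node_zero]
        refine Eq.trans ?_ (ha x y).symm
        split_ifs
        · exact hsec _
        · exact map_zero _
      · intro _ n
        exact ⟨fun i i' => sec (a i i') n, fun x y => by
          rw [seqMat_apply]; split_ifs <;> simp⟩
      · intro hl
        exact absurd (congrArg Fin.val (h0.symm.trans hl)) (by simpa using hm.ne)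
    · by_cases hl : k = Fin.last m
      · obtain ⟨b, hb⟩ := V.2.2
        refine ⟨seqMat fun x y => if x.1 = y.1 then sec (b x.2 y.2) else 0, ?_, ?_, ?_⟩
        · refine CStarMatrix.ext fun x y => ?_
          rw [matUltra_seqMat, hl, node_last hm]
          refine Eq.trans ?_ (hb x y).symm
          split_ifs
          · exact hsec _
          · exact map_zero _
        · exact fun h => absurd h h0
        · intro _ n
          exact ⟨fun i i' => sec (b i i') n, fun x y => by
            rw [seqMat_apply]; split_ifs <;> simp⟩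
      · exact ⟨seqMat fun x y => sec (Vp (node m k) x y),
          CStarMatrix.ext fun x y => by rw [matUltra_seqMat, hsec],
          fun h => absurd h h0, fun h => absurd h hl⟩
  choose L hLV hLl hLr using hL
  choose! c hc using hG
  choose sec hsec using fun x : UPow A ω => UPow.mk_surjective (ω := ω) x
  -- constants as sequences
  let cm : CStarMatrix (Ix p q) (Ix p q) A → (ℕ →ᵇ CStarMatrix (Ix p q) (Ix p q) A) :=
    fun M => BoundedContinuousFunction.const ℕ M
  have hcm : ∀ M, matUltra A (Ix p q) ω (cm M) = mapM (Ix p q) ic M := fun M =>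
    CStarMatrix.ext fun x y => by
      rw [matUltra_apply, mapM_apply, hic]; rfl
  let dseq : (ℕ →ᵇ A) → (ℕ →ᵇ CStarMatrix (Ix p q) (Ix p q) A) :=
    fun f => seqMat fun x y => if x = y then f else 0
  have hdseq : ∀ f, matUltra A (Ix p q) ω (dseq f) = dg (UPow A ω) (Ix p q) (UPow.mk f) :=
    fun f => CStarMatrix.ext fun x y => by
      rw [matUltra_seqMat, dg_apply]; split_ifs <;> simp
  have hdseq' : ∀ f n, dseq f n = dg A (Ix p q) (f n) := fun f n =>
    CStarMatrix.ext fun x y => by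
      rw [seqMat_apply, dg_apply]; split_ifs <;> simp
  -- facts along the nodes
  have hunit1 : ∀ t, star (Vp t) * Vp t = 1 := fun t =>
    congrArg (fun W : Blk (UPow A ω) p q => (W : MPath (UPow A ω) (Ix p q)) t) hV1
  have hunit2 : ∀ t, Vp t * star (Vp t) = 1 := fun t =>
    congrArg (fun W : Blk (UPow A ω) p q => (W : MPath (UPow A ω) (Ix p q)) t) hV2
  have hVnorm : ∀ t, ‖Vp t‖ ≤ 1 := by
    intro t
    have h := CStarRing.norm_star_mul_self (x := Vp t)
    rw [hunit1] at h
    have h1 : ‖(1 : CStarMatrix (Ix p q) (Ix p q) (UPow A ω))‖ ≤ 1 := by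
      rcases subsingleton_or_nontrivial (CStarMatrix (Ix p q) (Ix p q) (UPow A ω)) with hs | hs
      · simp [Subsingleton.elim (1 : CStarMatrix (Ix p q) (Ix p q) (UPow A ω)) 0]
      · rw [CStarRing.norm_one]
    nlinarith [norm_nonneg (Vp t)]
  have e1 : ∀ k, ∀ᶠ n in (ω : Filter ℕ), ‖L k n‖ ≤ 1 + δ ∧
      ‖star (L k n) * L k n - 1‖ ≤ δ ∧ ‖L k n * star (L k n) - 1‖ ≤ δ := by
    intro k
    refine ((eventually_le_of_matUltra hδ (by rw [hLV]; exact hVnorm _)).and
      ((eventually_le_of_matUltra (f := star (L k) * L k - 1) (r := 0) hδ ?_).and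
      (eventually_le_of_matUltra (f := L k * star (L k) - 1) (r := 0) hδ ?_))).mono
      fun n hn => ⟨hn.1, by simpa using hn.2.1, by simpa using hn.2.2⟩
    · rw [map_sub, map_mul, map_star, map_one, hLV, hunit1, sub_self, norm_zero]
    · rw [map_sub, map_mul, map_star, map_one, hLV, hunit2, sub_self, norm_zero]
  have e2 : ∀ k j, ∀ᶠ n in (ω : Filter ℕ),
      dist (node m k) (node m j) < 2 / m → ‖L k n - L j n‖ ≤ 2 * δ := by
    intro k j
    by_cases hd : dist (node m k) (node m j) < 2 / m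
    · refine (eventually_le_of_matUltra (f := L k - L j) (r := δ) hδ ?_).mono fun n hn _ => by
        simp only [BoundedContinuousFunction.sub_apply] at hn; linarith
      rw [map_sub, hLV, hLV]
      exact hVc _ _ hd
    · exact Eventually.of_forall fun n h => absurd h hd
  have e3 : ∀ k, ∀ a ∈ F, ∀ᶠ n in (ω : Filter ℕ),
      ‖L k n * dg A (Ix p q) a - dg A (Ix p q) a * L k n‖ ≤ δ := by
    intro k a ha
    refine (eventually_le_of_matUltra (f := L k * cm (dg A (Ix p q) a) - cm (dg A (Ix p q) a) * L k)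
      (r := 0) hδ ?_).mono fun n hn => by simpa [cm] using hn
    have h := congrArg (fun W : Blk (UPow A ω) p q => (W : MPath (UPow A ω) (Ix p q)) (node m k))
      (hF a ha)
    have hd : mapM (Ix p q) ic (dg A (Ix p q) a) = dg (UPow A ω) (Ix p q) (ic a) :=
      CStarMatrix.ext fun x y => by
        rw [mapM_apply, dg_apply, dg_apply]; split_ifs <;> simp
    rw [map_sub, map_mul, map_mul, hLV, hcm, hd]
    simp only [MulMemClass.coe_mul, ContinuousMap.mul_apply, const_apply] at h
    rw [h, sub_self, norm_zero]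
  have e4 : ∀ k, ∀ X ∈ G, ∀ᶠ n in (ω : Filter ℕ),
      ‖star (L k n) * (X : MPath A (Ix p q)) (node m k) * L k n
        - dg A (Ix p q) (sec (c X) n)‖ ≤ η + δ := by
    intro k X hX
    refine (eventually_le_of_matUltra
      (f := star (L k) * cm ((X : MPath A (Ix p q)) (node m k)) * L k - dseq (sec (c X)))
      (r := η) hδ ?_).mono fun n hn => by simpa [cm, hdseq'] using hn
    rw [map_sub, map_mul, map_mul, map_star, hLV, hcm, hdseq, hsec]
    exact ((ContinuousMap.norm_coe_le_norm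
      (((star V * mapBlk p q ic X * V - const (UPow A ω) p q (c X) : Blk (UPow A ω) p q) :
        MPath (UPow A ω) (Ix p q))) (node m k))).trans (hc X hX)
  obtain ⟨n, hn1, hn2, hn3, hn4⟩ :=
    ((eventually_all.2 e1).and ((eventually_all.2 fun k => eventually_all.2 (e2 k)).and
      ((eventually_all.2 fun k => (eventually_all_finset F).2 (e3 k)).and
        (eventually_all.2 fun k => (eventually_all_finset G).2 (e4 k))))).exists
  exact exists_unitary_path hm (fun k => L k n) F G (fun X => sec (c X) n) hδ hδ1 hε hδε hC0 hCF0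
    (fun X hX => (norm_nonneg _).trans (hc X hX))
    (fun X hX => Finset.single_le_sum (f := fun X : Blk A p q => ‖(X : MPath A (Ix p q))‖)
      (fun b _ => norm_nonneg _) hX)
    (fun a ha => Finset.single_le_sum (f := fun b : A => ‖dg A (Ix p q) b‖)
      (fun b _ => norm_nonneg _) ha)
    (hLl 0 rfl n) (hLr _ rfl n) hXc hn1 hn2 hn3 hn4

end

end Vale.Agent.P101.JS
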