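import Mathlib

/-!
# P101: the C⋆-inductive limit of a sequence

For C⋆-algebras `B n` and unital *-homomorphisms `f n : B n → B (n+1)`, the limit is the closure
of the images of the `B n` in `∏ B m` (bounded sequences) modulo the sequences tending to zero:
`x : B n` goes to the class of the sequence `(0, …, 0, x, f n x, f (n+1) (f n x), …)`.
-/

namespace Vale.Agent.P101.JS

open Filter Topology
open scoped ENNReal CStarAlgebra

set_option linter.unusedSectionVars false

noncomputable section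

variable (B : ℕ → Type*) [∀ n, CStarAlgebra (B n)] [∀ n, Nontrivial (B n)]

/-- Bounded sequences tending to zero. -/
def nullSeq : Ideal (lp B ∞) where
  carrier := {x | Tendsto (fun n => ‖x n‖) atTop (𝓝 0)}
  add_mem' {x y} hx hy := squeeze_zero (fun n => norm_nonneg _)
    (fun n => norm_add_le (x n) (y n)) (by simpa using hx.add hy)
  zero_mem' := by simp
  smul_mem' x y hy := squeeze_zero (fun n => norm_nonneg _)
    (fun n => (norm_mul_le (x n) (y n)).trans
      (mul_le_mul_of_nonneg_right (lp.norm_apply_le_norm ENNReal.top_ne_zero x n) (norm_nonneg _)))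
    (by simpa using hy.const_mul ‖x‖)

instance : (nullSeq B).IsTwoSided where
  mul_mem_of_left {x} y hx := squeeze_zero (fun n => norm_nonneg _)
    (fun n => (norm_mul_le (x n) (y n)).trans
      (mul_le_mul_of_nonneg_left (lp.norm_apply_le_norm ENNReal.top_ne_zero y n) (norm_nonneg _)))
    (by simpa using Tendsto.mul_const ‖y‖ hx)

theorem mem_nullSeq {x : lp B ∞} :
    x ∈ nullSeq B ↔ Tendsto (fun n => ‖x n‖) atTop (𝓝 0) := Iff.rfl

instance nullSeq_closed : IsClosed (nullSeq B : Set (lp B ∞)) := by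
  rw [← closure_subset_iff_isClosed]
  intro x hx
  rw [SetLike.mem_coe, mem_nullSeq, Metric.tendsto_nhds]
  intro ε hε
  obtain ⟨y, hy, hxy⟩ := Metric.mem_closure_iff.1 hx (ε / 2) (by positivity)
  filter_upwards [Metric.tendsto_nhds.1 hy (ε / 2) (by positivity)] with n hn
  simp only [Real.dist_eq, sub_zero, abs_norm] at hn ⊢
  rw [dist_eq_norm] at hxy
  have h1 := lp.norm_apply_le_norm ENNReal.top_ne_zero (x - y) n
  rw [lp.coeFn_sub, Pi.sub_apply] at h1
  linarith [norm_le_norm_add_norm_sub' (x n) (y n)]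

/-- Bounded sequences modulo null sequences. -/
abbrev SeqQuot : Type _ := lp B ∞ ⧸ nullSeq B

instance SeqQuot.instNormedAddCommGroup : NormedAddCommGroup (SeqQuot B) :=
  Submodule.Quotient.normedAddCommGroup (nullSeq B)

variable {B}

/-- The quotient map. -/
def SeqQuot.mk : lp B ∞ →ₐ[ℂ] SeqQuot B := Ideal.Quotient.mkₐ ℂ (nullSeq B)

theorem SeqQuot.mk_surjective : Function.Surjective (SeqQuot.mk : lp B ∞ → SeqQuot B) :=
  Ideal.Quotient.mk_surjective

theorem SeqQuot.mk_eq_mk {x y : lp B ∞} :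
    (SeqQuot.mk x : SeqQuot B) = SeqQuot.mk y ↔ x - y ∈ nullSeq B := Ideal.Quotient.eq

theorem SeqQuot.mk_eq_of_eventually {x y : lp B ∞} (h : ∀ᶠ n in atTop, x n = y n) :
    (SeqQuot.mk x : SeqQuot B) = SeqQuot.mk y := by
  rw [SeqQuot.mk_eq_mk, mem_nullSeq]
  refine tendsto_const_nhds.congr' ?_
  filter_upwards [h] with n hn
  rw [lp.coeFn_sub, Pi.sub_apply, hn, sub_self, norm_zero]

theorem SeqQuot.norm_le_of_eventually {x : lp B ∞} {r : ℝ} (hr : 0 ≤ r)
    (h : ∀ᶠ n in atTop, ‖x n‖ ≤ r) : ‖(SeqQuot.mk x : SeqQuot B)‖ ≤ r := by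
  classical
  let y : lp B ∞ := ⟨fun n => if ‖x n‖ ≤ r then x n else 0, memℓp_infty ⟨r, by
    rintro _ ⟨n, rfl⟩
    dsimp only
    split_ifs with hn <;> simp [hn, hr]⟩⟩
  have e : (SeqQuot.mk x : SeqQuot B) = SeqQuot.mk y := SeqQuot.mk_eq_of_eventually <| by
    filter_upwards [h] with n hn
    exact (if_pos hn).symm
  rw [e]
  refine (Submodule.Quotient.norm_mk_le (nullSeq B) y).trans (lp.norm_le_of_forall_le hr fun n => ?_)
  change ‖if ‖x n‖ ≤ r then x n else 0‖ ≤ r
  split_ifs with hn <;> simp [hn, hr]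

theorem SeqQuot.eventually_of_norm_lt {x : lp B ∞} {r : ℝ}
    (h : ‖(SeqQuot.mk x : SeqQuot B)‖ < r) : ∀ᶠ n in atTop, ‖x n‖ < r := by
  obtain ⟨y, hy, hyn⟩ : ∃ y, (SeqQuot.mk y : SeqQuot B) = SeqQuot.mk x ∧ ‖y‖ < r := by
    have h' : ‖(Submodule.Quotient.mk x : lp B ∞ ⧸ nullSeq B)‖ < r := h
    obtain ⟨y, hy, hyn⟩ := QuotientAddGroup.norm_lt_iff.1 h'
    exact ⟨y, hy, hyn⟩
  rw [SeqQuot.mk_eq_mk, mem_nullSeq] at hy
  filter_upwards [Metric.tendsto_nhds.1 hy (r - ‖y‖) (by linarith)] with n hn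
  simp only [lp.coeFn_sub, Pi.sub_apply, Real.dist_eq, sub_zero, abs_norm] at hn
  have := norm_le_norm_add_norm_sub (y n) (x n)
  linarith [lp.norm_apply_le_norm ENNReal.top_ne_zero y n]

theorem SeqQuot.norm_mul_le' (x y : SeqQuot B) : ‖x * y‖ ≤ ‖x‖ * ‖y‖ := by
  obtain ⟨f, rfl⟩ := SeqQuot.mk_surjective x
  obtain ⟨g, rfl⟩ := SeqQuot.mk_surjective y
  set a := ‖(SeqQuot.mk f : SeqQuot B)‖
  set b := ‖(SeqQuot.mk g : SeqQuot B)‖
  refine le_of_forall_pos_le_add fun ε hε => ?_
  have ha : 0 ≤ a := norm_nonneg _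
  have hb : 0 ≤ b := norm_nonneg _
  obtain ⟨δ, hδ, hδε⟩ : ∃ δ > 0, (a + δ) * (b + δ) ≤ a * b + ε := by
    refine ⟨min 1 (ε / (a + b + 1)), lt_min one_pos (by positivity), ?_⟩
    set δ := min 1 (ε / (a + b + 1))
    have h0 : 0 ≤ δ := le_min zero_le_one (by positivity)
    have h1 : δ ≤ 1 := min_le_left _ _
    have h2 : δ * (a + b + 1) ≤ ε := (le_div_iff₀ (by positivity)).1 (min_le_right _ _)
    nlinarith
  rw [← map_mul]
  refine le_trans ?_ hδε
  refine SeqQuot.norm_le_of_eventually (by positivity) ?_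
  filter_upwards [SeqQuot.eventually_of_norm_lt (lt_add_of_pos_right a hδ),
    SeqQuot.eventually_of_norm_lt (lt_add_of_pos_right b hδ)] with n h1 h2
  exact (norm_mul_le _ _).trans (mul_le_mul h1.le h2.le (norm_nonneg _) (by positivity))

theorem SeqQuot.dist_eq' (x y : SeqQuot B) : dist x y = ‖-x + y‖ := NormedAddGroup.dist_eq x y

instance SeqQuot.instNormedRing : NormedRing (SeqQuot B) where
  toNorm := (SeqQuot.instNormedAddCommGroup B).toNorm
  toRing := Ideal.Quotient.ring (nullSeq B)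
  toMetricSpace := (SeqQuot.instNormedAddCommGroup B).toMetricSpace
  dist_eq := SeqQuot.dist_eq'
  norm_mul_le := SeqQuot.norm_mul_le'

theorem nullSeq_star {x : lp B ∞} (h : x ∈ nullSeq B) : star x ∈ nullSeq B := by
  simpa [mem_nullSeq] using h

instance SeqQuot.instStar : Star (SeqQuot B) where
  star := Quotient.map' star fun x y h => by
    rw [Submodule.quotientRel_def] at h ⊢
    simpa using nullSeq_star h

theorem SeqQuot.mk_star (x : lp B ∞) :
    (SeqQuot.mk (star x) : SeqQuot B) = star (SeqQuot.mk x) := rfl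

instance SeqQuot.instStarRing : StarRing (SeqQuot B) where
  star_involutive x := by
    obtain ⟨f, rfl⟩ := SeqQuot.mk_surjective x
    rw [← SeqQuot.mk_star, ← SeqQuot.mk_star, star_star]
  star_mul x y := by
    obtain ⟨f, rfl⟩ := SeqQuot.mk_surjective x
    obtain ⟨g, rfl⟩ := SeqQuot.mk_surjective y
    rw [← map_mul, ← SeqQuot.mk_star, ← SeqQuot.mk_star, ← SeqQuot.mk_star, ← map_mul, star_mul]
  star_add x y := by
    obtain ⟨f, rfl⟩ := SeqQuot.mk_surjective x
    obtain ⟨g, rfl⟩ := SeqQuot.mk_surjective y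
    rw [← map_add, ← SeqQuot.mk_star, ← SeqQuot.mk_star, ← SeqQuot.mk_star, ← map_add, star_add]

instance SeqQuot.instNormedAlgebra : NormedAlgebra ℂ (SeqQuot B) where
  __ := (inferInstance : Algebra ℂ (SeqQuot B))
  norm_smul_le r x := by
    obtain ⟨f, rfl⟩ := SeqQuot.mk_surjective x
    refine le_of_forall_pos_le_add fun ε hε => ?_
    have h1 : 0 < ε / (‖r‖ + 1) := by positivity
    rw [← map_smul]
    refine le_trans (SeqQuot.norm_le_of_eventually (r := ‖r‖ * (‖(SeqQuot.mk f : SeqQuot B)‖ +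
      ε / (‖r‖ + 1))) (by positivity) ?_) ?_
    · filter_upwards [SeqQuot.eventually_of_norm_lt
        (lt_add_of_pos_right ‖(SeqQuot.mk f : SeqQuot B)‖ h1)] with n hn
      rw [lp.coeFn_smul, Pi.smul_apply, norm_smul]
      exact mul_le_mul_of_nonneg_left hn.le (norm_nonneg _)
    · have : ‖r‖ * (ε / (‖r‖ + 1)) ≤ ε := by
        rw [mul_div_assoc', div_le_iff₀ (by positivity)]; nlinarith [norm_nonneg r]
      linarith

instance SeqQuot.instStarModule : StarModule ℂ (SeqQuot B) where
  star_smul r x := by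
    obtain ⟨f, rfl⟩ := SeqQuot.mk_surjective x
    rw [← map_smul, ← SeqQuot.mk_star, ← SeqQuot.mk_star, ← map_smul, star_smul]

instance SeqQuot.instCStarRing : CStarRing (SeqQuot B) where
  norm_mul_self_le x := by
    obtain ⟨f, rfl⟩ := SeqQuot.mk_surjective x
    rw [← SeqQuot.mk_star, ← map_mul]
    set c := ‖(SeqQuot.mk (star f * f) : SeqQuot B)‖
    refine le_of_forall_pos_le_add fun ε hε => ?_
    have hc : 0 ≤ c := norm_nonneg _
    have h : ‖(SeqQuot.mk f : SeqQuot B)‖ ≤ Real.sqrt (c + ε) := by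
      refine SeqQuot.norm_le_of_eventually (Real.sqrt_nonneg _) ?_
      filter_upwards [SeqQuot.eventually_of_norm_lt (lt_add_of_pos_right c hε)] with n hn
      refine Real.le_sqrt_of_sq_le ?_
      rw [sq]
      rw [lp.infty_coeFn_mul, Pi.mul_apply, lp.star_apply, CStarRing.norm_star_mul_self] at hn
      exact hn.le
    calc _ ≤ Real.sqrt (c + ε) * Real.sqrt (c + ε) :=
          mul_le_mul h h (norm_nonneg _) (Real.sqrt_nonneg _)
      _ = _ := Real.mul_self_sqrt (by positivity)

instance SeqQuot.instCompleteSpace : CompleteSpace (SeqQuot B) :=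
  inferInstanceAs (CompleteSpace (lp B ∞ ⧸ nullSeq B))

instance SeqQuot.instCStarAlgebra : CStarAlgebra (SeqQuot B) where

variable (f : ∀ n, B n →⋆ₐ[ℂ] B (n + 1))

/-- The composition of the connecting maps. -/
def iter {n m : ℕ} (h : n ≤ m) : B n →⋆ₐ[ℂ] B m :=
  Nat.leRecOn (C := fun m => B n →⋆ₐ[ℂ] B m) h (fun {k} g => (f k).comp g)
    (StarAlgHom.id ℂ (B n))

theorem iter_self {n : ℕ} (h : n ≤ n) (x : B n) : iter f h x = x := by
  unfold iter
  rw [Nat.leRecOn_self]
  rfl

theorem iter_succ {n m : ℕ} (h : n ≤ m) (h' : n ≤ m + 1) (x : B n) :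
    iter f h' x = f m (iter f h x) := by
  unfold iter
  rw [Nat.leRecOn_succ h]
  rfl

theorem iter_succ_left {n m : ℕ} (h : n + 1 ≤ m) (x : B n) :
    iter f h (f n x) = iter f (n.le_succ.trans h) x := by
  induction m, h using Nat.le_induction with
  | base => rw [iter_self, iter_succ f le_rfl, iter_self]
  | succ k hk ih =>
    rw [iter_succ f hk, ih, iter_succ f (n.le_succ.trans hk)]

theorem iter_iter {n m k : ℕ} (h : n ≤ m) (h' : m ≤ k) (x : B n) :
    iter f h' (iter f h x) = iter f (h.trans h') x := by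
  induction k, h' using Nat.le_induction with
  | base => rw [iter_self]
  | succ l hl ih => rw [iter_succ f hl, ih, iter_succ f (h.trans hl)]

theorem norm_iter_le {n m : ℕ} (h : n ≤ m) (x : B n) : ‖iter f h x‖ ≤ ‖x‖ :=
  NonUnitalStarAlgHom.norm_apply_le (iter f h) x

theorem norm_iter_eq (hf : ∀ n, Function.Injective (f n)) {n m : ℕ} (h : n ≤ m) (x : B n) :
    ‖iter f h x‖ = ‖x‖ := by
  induction m, h using Nat.le_induction with
  | base => rw [iter_self]
  | succ k hk ih => rw [iter_succ f hk, NonUnitalStarAlgHom.norm_map (f k) (hf k), ih]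

/-- `(0, …, 0, x, f n x, …)`. -/
def tailSeq (n : ℕ) (x : B n) : lp B ∞ :=
  ⟨fun m => if h : n ≤ m then iter f h x else 0, memℓp_infty ⟨‖x‖, by
    rintro _ ⟨m, rfl⟩
    dsimp only
    split_ifs with h
    · exact norm_iter_le f h x
    · simp⟩⟩

theorem tailSeq_apply {n m : ℕ} (h : n ≤ m) (x : B n) : tailSeq f n x m = iter f h x := dif_pos h

/-- `B n → (bounded sequences) / c₀`. -/
def toSeq (n : ℕ) : B n →⋆ₐ[ℂ] SeqQuot B where
  toFun x := SeqQuot.mk (tailSeq f n x)
  map_one' := by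
    rw [← map_one (SeqQuot.mk (B := B))]
    refine SeqQuot.mk_eq_of_eventually ?_
    filter_upwards [eventually_ge_atTop n] with m hm
    rw [tailSeq_apply f hm, map_one, lp.infty_coeFn_one, Pi.one_apply]
  map_mul' x y := by
    rw [← map_mul]
    refine SeqQuot.mk_eq_of_eventually ?_
    filter_upwards [eventually_ge_atTop n] with m hm
    rw [lp.infty_coeFn_mul, Pi.mul_apply, tailSeq_apply f hm, tailSeq_apply f hm,
      tailSeq_apply f hm, map_mul]
  map_zero' := by
    rw [← map_zero (SeqQuot.mk (B := B))]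
    refine SeqQuot.mk_eq_of_eventually ?_
    filter_upwards [eventually_ge_atTop n] with m hm
    rw [tailSeq_apply f hm, map_zero, lp.coeFn_zero, Pi.zero_apply]
  map_add' x y := by
    rw [← map_add]
    refine SeqQuot.mk_eq_of_eventually ?_
    filter_upwards [eventually_ge_atTop n] with m hm
    rw [lp.coeFn_add, Pi.add_apply, tailSeq_apply f hm, tailSeq_apply f hm, tailSeq_apply f hm,
      map_add]
  commutes' r := by
    rw [← AlgHomClass.commutes (SeqQuot.mk (B := B)) r]
    refine SeqQuot.mk_eq_of_eventually ?_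
    filter_upwards [eventually_ge_atTop n] with m hm
    rw [tailSeq_apply f hm, AlgHomClass.commutes]
    rfl
  map_star' x := by
    rw [← SeqQuot.mk_star]
    refine SeqQuot.mk_eq_of_eventually ?_
    filter_upwards [eventually_ge_atTop n] with m hm
    rw [lp.star_apply, tailSeq_apply f hm, tailSeq_apply f hm, map_star]

theorem toSeq_apply (n : ℕ) (x : B n) : toSeq f n x = SeqQuot.mk (tailSeq f n x) := rfl

theorem toSeq_succ (n : ℕ) (x : B n) : toSeq f (n + 1) (f n x) = toSeq f n x := by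
  refine SeqQuot.mk_eq_of_eventually ?_
  filter_upwards [eventually_ge_atTop (n + 1)] with m hm
  rw [tailSeq_apply f hm, tailSeq_apply f (n.le_succ.trans hm), iter_succ_left]

theorem toSeq_iter {n m : ℕ} (h : n ≤ m) (x : B n) :
    toSeq f m (iter f h x) = toSeq f n x := by
  induction m, h using Nat.le_induction with
  | base => rw [iter_self]
  | succ k hk ih => rw [iter_succ f hk, toSeq_succ, ih]

/-- The union of the images. -/
def algUnion : StarSubalgebra ℂ (SeqQuot B) where
  carrier := {y | ∃ n x, toSeq f n x = y}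
  mul_mem' := by
    rintro _ _ ⟨n, x, rfl⟩ ⟨m, y, rfl⟩
    exact ⟨max n m, iter f (le_max_left n m) x * iter f (le_max_right n m) y, by
      rw [map_mul, toSeq_iter, toSeq_iter]⟩
  one_mem' := ⟨0, 1, map_one _⟩
  add_mem' := by
    rintro _ _ ⟨n, x, rfl⟩ ⟨m, y, rfl⟩
    exact ⟨max n m, iter f (le_max_left n m) x + iter f (le_max_right n m) y, by
      rw [map_add, toSeq_iter, toSeq_iter]⟩
  zero_mem' := ⟨0, 0, map_zero _⟩
  algebraMap_mem' r := ⟨0, algebraMap ℂ (B 0) r, AlgHomClass.commutes (toSeq f 0) r⟩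
  star_mem' := by
    rintro _ ⟨n, x, rfl⟩
    exact ⟨n, star x, map_star (toSeq f n) x⟩

/-- The inductive limit of `(B n, f n)`. -/
def seqLim : StarSubalgebra ℂ (SeqQuot B) := (algUnion f).topologicalClosure

theorem toSeq_mem (n : ℕ) (x : B n) : toSeq f n x ∈ seqLim f :=
  StarSubalgebra.le_topologicalClosure _ ⟨n, x, rfl⟩

instance seqLim_closed : IsClosed (seqLim f : Set (SeqQuot B)) :=
  StarSubalgebra.isClosed_topologicalClosure _

instance seqLimCStar : CStarAlgebra (seqLim f) := StarSubalgebra.cstarAlgebra (seqLim f)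

/-- The inductive limit of `(B n, f n)` as a C⋆-algebra. -/
def SeqLim : Type _ := seqLim f

instance SeqLim.instCStarAlgebra : CStarAlgebra (SeqLim f) :=
  inferInstanceAs (CStarAlgebra (seqLim f))

/-- The element of `SeqQuot B` represented by an element of the limit. -/
def SeqLim.val (y : SeqLim f) : SeqQuot B := (y : seqLim f).1

/-- The canonical maps into the limit. -/
def incl (n : ℕ) : B n →⋆ₐ[ℂ] SeqLim f where
  toFun x := ⟨toSeq f n x, toSeq_mem f n x⟩
  map_one' := Subtype.ext (map_one (toSeq f n))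
  map_mul' x y := Subtype.ext (map_mul (toSeq f n) x y)
  map_zero' := Subtype.ext (map_zero (toSeq f n))
  map_add' x y := Subtype.ext (map_add (toSeq f n) x y)
  commutes' r := Subtype.ext (AlgHomClass.commutes (toSeq f n) r)
  map_star' x := Subtype.ext (map_star (toSeq f n) x)

theorem coe_incl (n : ℕ) (x : B n) : SeqLim.val f (incl f n x) = toSeq f n x := rfl

theorem incl_succ (n : ℕ) (x : B n) : incl f (n + 1) (f n x) = incl f n x :=
  Subtype.ext (toSeq_succ f n x)

theorem incl_iter {n m : ℕ} (h : n ≤ m) (x : B n) : incl f m (iter f h x) = incl f n x :=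
  Subtype.ext (toSeq_iter f h x)

theorem norm_incl_le (n : ℕ) (x : B n) : ‖incl f n x‖ ≤ ‖x‖ :=
  NonUnitalStarAlgHom.norm_apply_le (incl f n) x

/-- With injective connecting maps the canonical maps are isometric. -/
theorem norm_incl (hf : ∀ n, Function.Injective (f n)) (n : ℕ) (x : B n) :
    ‖incl f n x‖ = ‖x‖ := by
  refine le_antisymm (norm_incl_le f n x) (le_of_not_gt fun h => ?_)
  have h' : ‖(SeqQuot.mk (tailSeq f n x) : SeqQuot B)‖ < ‖x‖ := h
  obtain ⟨m, hm, hlt⟩ :=
    ((eventually_ge_atTop n).and (SeqQuot.eventually_of_norm_lt h')).exists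
  rw [tailSeq_apply f hm, norm_iter_eq f hf] at hlt
  exact lt_irrefl _ hlt

theorem incl_injective (hf : ∀ n, Function.Injective (f n)) (n : ℕ) :
    Function.Injective (incl f n) :=
  (injective_iff_map_eq_zero _).2 fun x hx => by
    rw [← norm_eq_zero, ← norm_incl f hf n x, hx, norm_zero]

/-- The images of the stages are dense. -/
theorem exists_incl_near (y : SeqLim f) {ε : ℝ} (hε : 0 < ε) :
    ∃ n, ∃ x : B n, ‖y - incl f n x‖ < ε := by
  obtain ⟨z, ⟨n, x, rfl⟩, hz⟩ : ∃ z ∈ (algUnion f : Set (SeqQuot B)), dist (SeqLim.val f y) z < ε :=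
    Metric.mem_closure_iff.1 (y : seqLim f).2 ε hε
  rw [dist_eq_norm] at hz
  exact ⟨n, x, hz⟩

instance seqLim_separable [∀ n, TopologicalSpace.SeparableSpace (B n)] :
    TopologicalSpace.SeparableSpace (SeqLim f) := by
  rw [← TopologicalSpace.isSeparable_univ_iff]
  have h : TopologicalSpace.IsSeparable (⋃ n, Set.range (incl f n)) :=
    TopologicalSpace.IsSeparable.iUnion fun n =>
      TopologicalSpace.isSeparable_range (map_continuous (incl f n))
  refine h.closure.mono fun y _ => Metric.mem_closure_iff.2 fun ε hε => ?_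
  obtain ⟨n, x, hx⟩ := exists_incl_near f y hε
  exact ⟨incl f n x, Set.mem_iUnion.2 ⟨n, x, rfl⟩, by rwa [dist_eq_norm]⟩

end

end Vale.Agent.P101.JS
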