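import Vale.Agent.P101.JS.Conn
import Vale.Agent.P101.JS.SeqLimit
import Vale.Agent.P101.JS.Intertwine
import Vale.Agent.P101.JS.Lift
import Vale.Agent.P101.JS.Density
import Vale.Agent.P101.JS.DimDropHom
import Vale.Agent.P101.Coord
import Vale.Agent.P101.Ultra

/-!
# P101: `A ⊗ Z` and the absorption theorem

`ZTensor A` is `A ⊗ Z`: the inductive limit of `Z_{p_m,q_m} ⊗ A = Blk A (P m) (Q m)` along the
Jiang–Su connecting maps of `Conn.lean`.
-/

namespace Vale.Agent.P101.JS

open VAgent.P101 Filter TopologicalSpace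
open scoped ComplexOrder CStarAlgebra Topology BoundedContinuousFunction

set_option linter.unusedSectionVars false
set_option linter.style.haveILetI false

noncomputable section

universe u

section generic

variable {B : ℕ → Type*} [∀ n, CStarAlgebra (B n)] [∀ n, Nontrivial (B n)]
  (f : ∀ n, B n →⋆ₐ[ℂ] B (n + 1))

theorem exists_iter_small {n : ℕ} {x : B n} (hx : incl f n x = 0) {ε : ℝ} (hε : 0 < ε) :
    ∃ (m : ℕ) (h : n ≤ m), ‖iter f h x‖ < ε := by
  have h0 : toSeq f n x = 0 := congrArg Subtype.val hx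
  have hlt : ‖(SeqQuot.mk (tailSeq f n x) : SeqQuot B)‖ < ε := by
    rw [← toSeq_apply, h0, norm_zero]; exact hε
  obtain ⟨m, hm, hlt'⟩ :=
    ((eventually_ge_atTop n).and (SeqQuot.eventually_of_norm_lt hlt)).exists
  exact ⟨m, hm, by rwa [tailSeq_apply f hm] at hlt'⟩

theorem exists_common (G : Finset (SeqLim f)) {ε : ℝ} (hε : 0 < ε) :
    ∃ n, ∀ b ∈ G, ∃ x : B n, ‖b - incl f n x‖ < ε := by
  classical
  choose lev x hx using fun b : SeqLim f => exists_incl_near f b hε
  refine ⟨G.sup lev, fun b hb => ⟨iter f (Finset.le_sup hb) (x b), ?_⟩⟩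
  rw [incl_iter]
  exact hx b

theorem near_incl {n : ℕ} {b : SeqLim f} {x y : B n} {r s : ℝ} (h : ‖b - incl f n x‖ ≤ r)
    (h' : ‖x - y‖ ≤ s) : ‖b - incl f n y‖ ≤ r + s := by
  have h1 := (norm_incl_le f n _).trans h'
  rw [map_sub] at h1
  exact (norm_sub_le_norm_sub_add_norm_sub b (incl f n x) (incl f n y)).trans (add_le_add h h1)

theorem incl_unitary {m : ℕ} {u : B m} (h1 : star u * u = 1) (h2 : u * star u = 1) :
    star (incl f m u) * incl f m u = 1 ∧ incl f m u * star (incl f m u) = 1 :=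
  ⟨by rw [← map_star, ← map_mul, h1, map_one], by rw [← map_star, ← map_mul, h2, map_one]⟩

theorem norm_comm_incl {m : ℕ} {u x : B m} {r : ℝ} (h : ‖u * x - x * u‖ ≤ r) :
    ‖incl f m u * incl f m x - incl f m x * incl f m u‖ ≤ r := by
  rw [← map_mul, ← map_mul, ← map_sub]
  exact (norm_incl_le f m _).trans h

theorem near_conj {m : ℕ} {b : SeqLim f} {u y z : B m} {δ r : ℝ}
    (h1 : star u * u = 1) (h2 : u * star u = 1) (hb : ‖b - incl f m y‖ ≤ δ)
    (hy : ‖star u * y * u - z‖ ≤ r) :
    ‖star (incl f m u) * b * incl f m u - incl f m z‖ ≤ δ + r := by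
  obtain ⟨w1, w2⟩ := incl_unitary f h1 h2
  set w := incl f m u with hw
  have h3 : ‖star w * (b - incl f m y) * w‖ = ‖b - incl f m y‖ := by
    rw [CStarRing.norm_mul_mem_unitary _ (Unitary.mem_iff.2 ⟨w1, w2⟩),
      CStarRing.norm_mem_unitary_mul _ (Unitary.star_mem (Unitary.mem_iff.2 ⟨w1, w2⟩))]
  have h4 : star w * b * w - incl f m z =
      star w * (b - incl f m y) * w + incl f m (star u * y * u - z) := by
    rw [map_sub, map_mul, map_mul, map_star, mul_sub, sub_mul, hw]; abel
  rw [h4]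
  refine (norm_add_le _ _).trans (add_le_add (h3.le.trans hb) ?_)
  exact (norm_incl_le f m _).trans hy

end generic

section instances

variable {A : Type u} [CStarAlgebra A] [PartialOrder A] [StarOrderedRing A]

instance blk_nontrivial [Nontrivial A] (m : ℕ) : Nontrivial (Blk A (P m) (Q m)) := by
  refine ⟨⟨1, 0, fun h => one_ne_zero (α := A) ?_⟩⟩
  have hp : 0 < P m := by have := (size_spec m).1; omega
  have hq : 0 < Q m := by have := (size_spec m).2.1; omega
  have h' := congrArg (fun f : Blk A (P m) (Q m) =>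
    (f : MPath A (Ix (P m) (Q m))) 0 (⟨0, hp⟩, ⟨0, hq⟩) (⟨0, hp⟩, ⟨0, hq⟩)) h
  simp [CStarMatrix.zero_apply] at h'

instance cmatrix_secondCountable [SeparableSpace A] {N : Type} [Fintype N] [DecidableEq N] :
    SecondCountableTopology (CStarMatrix N N A) := by
  haveI : SecondCountableTopology A := UniformSpace.secondCountable_of_separable A
  haveI : SeparableSpace (Matrix N N A) := inferInstanceAs (SeparableSpace (N → N → A))
  haveI : SeparableSpace (CStarMatrix N N A) :=
    (CStarMatrix.ofMatrixL (m := N) (n := N) (A := A)).surjective.denseRange.separableSpace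
      CStarMatrix.ofMatrixL.continuous
  exact UniformSpace.secondCountable_of_separable _

instance blk_separable [SeparableSpace A] {p q : ℕ} : SeparableSpace (Blk A p q) := by
  haveI : SecondCountableTopology (MPath A (Ix p q)) := inferInstance
  haveI : SecondCountableTopology (Blk A p q) :=
    TopologicalSpace.Subtype.secondCountableTopology _
  infer_instance

variable (A) in
/-- `A ⊗ Z` for a given compatible order. -/
abbrev ZLim [Nontrivial A] : Type u := SeqLim (fun m => conn A m)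

/-- The composite map agrees with the limit. -/
theorem incl_connTo [Nontrivial A] (n : ℕ) (x : Blk A (P n) (Q n)) : ∀ d : ℕ,
    incl (fun m => conn A m) (n + d) (connTo A n d x) = incl (fun m => conn A m) n x
  | 0 => rfl
  | d + 1 => by
    rw [connTo_succ]
    exact (incl_succ (fun m => conn A m) (n + d) _).trans (incl_connTo n x d)

theorem iter_const [Nontrivial A] (a : A) {n m : ℕ} (h : n ≤ m) :
    iter (fun m => conn A m) h (const A (P n) (Q n) a) = const A (P m) (Q m) a := by
  induction m, h using Nat.le_induction with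
  | base => rw [iter_self]
  | succ k hk ih => rw [iter_succ (fun m => conn A m) hk, ih, conn_const]

theorem const_injective {p q : ℕ} (hp : 0 < p) (hq : 0 < q) :
    Function.Injective (const A p q) := fun a b h => by
  have h' := congrArg (fun f : Blk A p q =>
    (f : MPath A (Ix p q)) 0 (⟨0, hp⟩, ⟨0, hq⟩) (⟨0, hp⟩, ⟨0, hq⟩)) h
  simpa [const_apply, dg_apply] using h'

variable (A) in
/-- `a ↦ a ⊗ 1`. -/
def toZLim [Nontrivial A] : A →⋆ₐ[ℂ] ZLim A :=
  (incl (fun m => conn A m) 0).comp (const A (P 0) (Q 0))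

theorem toZLim_apply [Nontrivial A] (a : A) (m : ℕ) :
    toZLim A a = incl (fun m => conn A m) m (const A (P m) (Q m) a) := by
  rw [← iter_const a (Nat.zero_le m), incl_iter]
  rfl

theorem toZLim_injective [Nontrivial A] : Function.Injective (toZLim A) := by
  refine (injective_iff_map_eq_zero _).2 fun a ha => ?_
  rw [← norm_eq_zero]
  refine le_antisymm (le_of_forall_pos_lt_add fun ε hε => ?_) (norm_nonneg _)
  rw [zero_add]
  obtain ⟨m, h, hm⟩ := exists_iter_small (fun m => conn A m) (n := 0)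
    (x := const A (P 0) (Q 0) a) ha hε
  rw [iter_const] at hm
  rwa [NonUnitalStarAlgHom.norm_map (const A (P m) (Q m))
    (const_injective (by have := (size_spec m).1; omega) (by have := (size_spec m).2.1; omega))]
      at hm

/-- Commutation with a diagonal is entrywise. -/
theorem commute_const {p q : ℕ} {V : Blk A p q} {a : A}
    (h : ∀ t x y, Commute ((V : MPath A (Ix p q)) t x y) a) :
    V * const A p q a = const A p q a * V := by
  refine Subtype.ext (ContinuousMap.ext fun t => CStarMatrix.ext fun x y => ?_)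
  simp only [MulMemClass.coe_mul, ContinuousMap.mul_apply, const_apply, CStarMatrix.mul_apply,
    dg_apply, mul_ite, ite_mul, mul_zero, zero_mul, Finset.sum_ite_eq, Finset.sum_ite_eq',
    Finset.mem_univ, if_true]
  exact (h t x y).eq

theorem mapBlk_const {B : Type*} [CStarAlgebra B] [PartialOrder B] [StarOrderedRing B]
    {p q : ℕ} (ψ : A →⋆ₐ[ℂ] B) (a : A) :
    mapBlk p q ψ (const A p q a) = const B p q (ψ a) :=
  Subtype.ext (ContinuousMap.ext fun _ => mapM_dg ψ a)

theorem mapBlk_scBlk {B : Type*} [CStarAlgebra B] [PartialOrder B] [StarOrderedRing B]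
    {p q : ℕ} (ψ : A →⋆ₐ[ℂ] B) (g : Blk ℂ p q) :
    mapBlk p q ψ (scBlk A p q g) = scBlk B p q g :=
  Subtype.ext (ContinuousMap.ext fun _ => CStarMatrix.ext fun _ _ =>
    AlgHomClass.commutes ψ _)

/-- Pushing a unitary forward along `φ`. -/
theorem exists_push {B C : Type*} [CStarAlgebra B] [PartialOrder B] [StarOrderedRing B]
    [CStarAlgebra C] [PartialOrder C] [StarOrderedRing C] {p q : ℕ} (φ : B →⋆ₐ[ℂ] C)
    (H : Blk B p q) (h1 : star H * H = 1) (h2 : H * star H = 1) :
    ∃ V : Blk C p q, star V * V = 1 ∧ V * star V = 1 ∧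
      (∀ c : C, (∀ x, Commute (φ x) c) → V * const C p q c = const C p q c * V) ∧
      ∀ (g : Blk ℂ p q) (b : B) (r : ℝ), ‖star H * scBlk B p q g * H - const B p q b‖ ≤ r →
        ‖star V * scBlk C p q g * V - const C p q (φ b)‖ ≤ r := by
  refine ⟨mapBlk p q φ H, by rw [← map_star, ← map_mul, h1, map_one],
    by rw [← map_star, ← map_mul, h2, map_one], fun c hc => ?_, fun g b r hr => ?_⟩
  · refine commute_const fun t x y => ?_
    rw [mapBlk_apply, mapM_apply]
    exact hc _
  · have e : mapBlk p q φ (star H * scBlk B p q g * H - const B p q b) =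
        star (mapBlk p q φ H) * scBlk C p q g * mapBlk p q φ H - const C p q (φ b) := by
      rw [map_sub, map_mul, map_mul, map_star, mapBlk_scBlk, mapBlk_const]
    rw [← e]
    exact (NonUnitalStarAlgHom.norm_apply_le (mapBlk p q φ) _).trans hr

/-- Sums of products are moved, by `V`, close to constants. -/
theorem sum_near {C : Type*} [CStarAlgebra C] [PartialOrder C] [StarOrderedRing C] {p q L : ℕ}
    (ψ : A →⋆ₐ[ℂ] C) (V : Blk C p q) (hV1 : star V * V = 1) (hV2 : V * star V = 1)
    (hVa : ∀ a, V * const C p q (ψ a) = const C p q (ψ a) * V)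
    (a : Fin L → A) (g : Fin L → Blk ℂ p q) (c : Fin L → C) (r : ℝ)
    (hc : ∀ i, ‖star V * scBlk C p q (g i) * V - const C p q (c i)‖ ≤ r) :
    ‖star V * mapBlk p q ψ (∑ i, const A p q (a i) * scBlk A p q (g i)) * V
        - const C p q (∑ i, ψ (a i) * c i)‖ ≤ ∑ i, ‖a i‖ * r := by
  have hVs : ∀ x : A, star V * const C p q (ψ x) = const C p q (ψ x) * star V := fun x => by
    calc star V * const C p q (ψ x) = star V * (const C p q (ψ x) * V) * star V := by
          simp only [mul_assoc, hV2, mul_one]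
      _ = _ := by rw [← hVa x, ← mul_assoc, hV1, one_mul]
  rw [map_sum (mapBlk p q ψ), Finset.mul_sum, Finset.sum_mul, map_sum, ← Finset.sum_sub_distrib]
  refine (norm_sum_le _ _).trans (Finset.sum_le_sum fun i _ => ?_)
  rw [map_mul, mapBlk_const, mapBlk_scBlk, map_mul, ← mul_assoc, hVs]
  rw [mul_assoc (const C p q (ψ (a i))) (star V), mul_assoc (const C p q (ψ (a i))), ← mul_sub]
  refine (norm_mul_le _ _).trans (mul_le_mul ?_ (hc i) (norm_nonneg _) (norm_nonneg _))
  exact (NonUnitalStarAlgHom.norm_apply_le (const C p q) _).trans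
    (NonUnitalStarAlgHom.norm_apply_le ψ _)

/-- The composite map on a sum of products. -/
theorem connTo_sum {n d L : ℕ} (a : Fin L → A) (g : Fin L → Blk ℂ (P n) (Q n)) :
    connTo A n d (∑ i, const A (P n) (Q n) (a i) * scBlk A (P n) (Q n) (g i)) =
      ∑ i, const A (P (n + d)) (Q (n + d)) (a i) *
        scBlk A (P (n + d)) (Q (n + d)) (connTo ℂ n d (g i)) := by
  rw [map_sum (connTo A n d)]
  refine Finset.sum_congr rfl fun i _ => ?_
  rw [map_mul, connTo_const, connTo_scBlk]

variable (A) in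
/-- Constants, as a *-homomorphism. -/
def icHom (ω : Ultrafilter ℕ) : A →⋆ₐ[ℂ] UPow A ω :=
  UPow.mkHom.comp
    { toFun := BoundedContinuousFunction.const ℕ
      map_one' := rfl
      map_mul' := fun _ _ => rfl
      map_zero' := rfl
      map_add' := fun _ _ => rfl
      commutes' := fun _ => rfl
      map_star' := fun _ => rfl }

theorem icHom_apply (ω : Ultrafilter ℕ) (a : A) : icHom A ω a = UPow.const a := rfl

end instances

section criterion

variable {A : Type u} [CStarAlgebra A] [PartialOrder A] [StarOrderedRing A] [Nontrivial A]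
  [SeparableSpace A] {ω : Ultrafilter ℕ}

/-- The unitary over the ultrapower. -/
theorem exists_V (hω : (ω : Filter ℕ) ≤ cofinite) (hchar : NoCharacters (CentralSeq A ω))
    (hHF : HalfFlipStatement) (m : ℕ) (G : Set (Blk ℂ (P m) (Q m))) (η : ℝ)
    (U : MPath ℂ (Ix (P m) (Q m))) (h1 : star U * U = 1) (h2 : U * star U = 1)
    (hU : ∀ g ∈ G, ∀ t s : unitInterval,
      ‖star (U t) * (g : MPath ℂ (Ix (P m) (Q m))) t * U t
        - star (U s) * (g : MPath ℂ (Ix (P m) (Q m))) s * U s‖ ≤ η) :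
    letI : PartialOrder (UPow A ω) := CStarAlgebra.spectralOrder (UPow A ω)
    letI : StarOrderedRing (UPow A ω) := CStarAlgebra.spectralOrderedRing (UPow A ω)
    ∃ V : Blk (UPow A ω) (P m) (Q m), star V * V = 1 ∧ V * star V = 1 ∧
      (∀ a : A, V * const (UPow A ω) (P m) (Q m) (icHom A ω a) =
        const (UPow A ω) (P m) (Q m) (icHom A ω a) * V) ∧
      ∀ g ∈ G, ∃ c : UPow A ω,
        ‖star V * scBlk (UPow A ω) (P m) (Q m) g * V - const (UPow A ω) (P m) (Q m) c‖
          ≤ 10 * η := by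
  letI : PartialOrder (UPow A ω) := CStarAlgebra.spectralOrder (UPow A ω)
  letI : StarOrderedRing (UPow A ω) := CStarAlgebra.spectralOrderedRing (UPow A ω)
  letI : PartialOrder (CentralSeq A ω) := CStarAlgebra.spectralOrder (CentralSeq A ω)
  haveI : StarOrderedRing (CentralSeq A ω) := CStarAlgebra.spectralOrderedRing (CentralSeq A ω)
  letI : PartialOrder (Blk ℂ (P m) (Q m)) := CStarAlgebra.spectralOrder (Blk ℂ (P m) (Q m))
  letI : StarOrderedRing (Blk ℂ (P m) (Q m)) :=
    CStarAlgebra.spectralOrderedRing (Blk ℂ (P m) (Q m))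
  obtain ⟨hp, hq, hpq⟩ := size_spec m
  obtain ⟨H, hH1, hH2, hH3⟩ := hHF (P m) (Q m) (by omega) (by omega) G η U h1 h2 hU
  obtain ⟨n, hn, ⟨θ⟩⟩ := dimDropHom (P m) (Q m) hp hq hpq
  haveI : NeZero n := ⟨by omega⟩
  obtain ⟨Φ⟩ := exists_dimDrop (hasCopies hω) hchar n
  obtain ⟨φ, hφ⟩ : ∃ φ : Blk ℂ (P m) (Q m) →⋆ₐ[ℂ] UPow A ω,
      ∀ x, φ x ∈ CentralSeq A ω :=
    ⟨(CentralSeq A ω).subtype.comp (Φ.comp θ), fun x => (Φ (θ x)).2⟩
  obtain ⟨V, hV1, hV2, hV3, hV4⟩ := exists_push φ H hH1 hH2
  exact ⟨V, hV1, hV2, fun a => hV3 _ fun x => (mem_centralSeq.1 (hφ x) a).symm,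
    fun g hg => ⟨φ g, hV4 g g _ (hH3 g hg)⟩⟩

/-- One stage: a unitary almost commuting with `F` and moving the `X k` close to constants. -/
theorem exists_stage (hω : (ω : Filter ℕ) ≤ cofinite) (hchar : NoCharacters (CentralSeq A ω))
    (hHF : HalfFlipStatement) (F : Finset A) {n : ℕ} {ι : Type*} [Fintype ι] (L : ι → ℕ)
    (a : ∀ k, Fin (L k) → A) (g : ∀ k, Fin (L k) → Blk ℂ (P n) (Q n)) {ε : ℝ} (hε : 0 < ε) :
    ∃ (d : ℕ) (u : Blk A (P (n + d)) (Q (n + d))), star u * u = 1 ∧ u * star u = 1 ∧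
      (∀ x ∈ F, ‖u * const A (P (n + d)) (Q (n + d)) x
        - const A (P (n + d)) (Q (n + d)) x * u‖ ≤ ε) ∧
      ∀ k, ∃ b : A,
        ‖star u * connTo A n d (∑ i, const A (P n) (Q n) (a k i) * scBlk A (P n) (Q n) (g k i)) * u
          - const A (P (n + d)) (Q (n + d)) b‖ ≤ ε := by
  classical
  set C : ℝ := 1 + ∑ k, ∑ i, ‖a k i‖ with hC
  have hC0 : 0 < C := by positivity
  let G0 : Finset (Blk ℂ (P n) (Q n)) := Finset.univ.biUnion fun k : ι => Finset.univ.image (g k)
  obtain ⟨d, U, hU1, hU2, hU3⟩ := collapse n G0 (η := ε / (20 * C)) (by positivity)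
  letI : PartialOrder (UPow A ω) := CStarAlgebra.spectralOrder (UPow A ω)
  letI : StarOrderedRing (UPow A ω) := CStarAlgebra.spectralOrderedRing (UPow A ω)
  obtain ⟨V, hV1, hV2, hVa, hVg⟩ := exists_V hω hchar hHF (n + d)
    (connTo ℂ n d '' (G0 : Set _)) (ε / (20 * C)) U hU1 hU2 (by
      rintro _ ⟨g', hg', rfl⟩
      exact hU3 g' hg')
  obtain ⟨u, hu1, hu2, huF, huG⟩ := lift A ω (P (n + d)) (Q (n + d)) (icHom A ω) (icHom_apply ω)
    V hV1 hV2 F (fun x _ => hVa x) (Finset.univ.image fun k => ∑ i,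
      const A (P (n + d)) (Q (n + d)) (a k i) *
        scBlk A (P (n + d)) (Q (n + d)) (connTo ℂ n d (g k i))) (ε / 2) (ε / 2) (by positivity) (by
      intro Y hY
      obtain ⟨k, -, rfl⟩ := Finset.mem_image.1 hY
      choose c hc using fun i => hVg _ ⟨g k i, by simpa [G0] using ⟨k, i, rfl⟩, rfl⟩
      refine ⟨∑ i, icHom A ω (a k i) * c i,
        (sum_near (icHom A ω) V hV1 hV2 hVa (a k) (fun i => connTo ℂ n d (g k i)) c _ hc).trans ?_⟩
      rw [← Finset.sum_mul]
      have h1 : ∑ i, ‖a k i‖ ≤ C := by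
        have := Finset.single_le_sum (f := fun k : ι => ∑ i, ‖a k i‖)
          (fun k _ => by positivity) (Finset.mem_univ k)
        rw [hC]; linarith
      calc (∑ i, ‖a k i‖) * (10 * (ε / (20 * C))) ≤ C * (10 * (ε / (20 * C))) := by gcongr
        _ = ε / 2 := by field_simp; ring)
  refine ⟨d, u, hu1, hu2, fun x hx => (huF x hx).trans (by linarith), fun k => ?_⟩
  obtain ⟨b, hb⟩ := huG _ (Finset.mem_image_of_mem _ (Finset.mem_univ k))
  exact ⟨b, by rw [connTo_sum]; linarith⟩

/-- The approximate hypothesis of the intertwining. -/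
theorem exists_unitary (hω : (ω : Filter ℕ) ≤ cofinite)
    (hchar : NoCharacters (CentralSeq A ω)) (hHF : HalfFlipStatement)
    (F : Finset A) (G : Finset (ZLim A)) (ε : ℝ) (hε : 0 < ε) :
    ∃ u : ZLim A, star u * u = 1 ∧ u * star u = 1 ∧
      (∀ a ∈ F, ‖u * toZLim A a - toZLim A a * u‖ ≤ ε) ∧
      ∀ b ∈ G, ∃ a : A, ‖star u * b * u - toZLim A a‖ ≤ ε := by
  obtain ⟨n, hn⟩ := exists_common (fun m => conn A m) G (ε := ε / 8) (by positivity)
  choose x hx using hn
  choose L a g hg using fun b : G => density A (P n) (Q n) (x b b.2) (ε / 8) (by positivity)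
  obtain ⟨d, u, hu1, hu2, huF, huG⟩ :=
    exists_stage hω hchar hHF F L a g (ε := ε / 4) (by positivity)
  refine ⟨incl (fun m => conn A m) (n + d) u, (incl_unitary _ hu1 hu2).1,
    (incl_unitary _ hu1 hu2).2, fun y hy => ?_, fun b hb => ?_⟩
  · rw [toZLim_apply y (n + d)]
    exact norm_comm_incl (fun m => conn A m) ((huF y hy).trans (by linarith))
  · obtain ⟨b', hb'⟩ := huG ⟨b, hb⟩
    refine ⟨b', ?_⟩
    rw [toZLim_apply b' (n + d)]
    have h1 := near_incl (fun m => conn A m) (hx b hb).le (hg ⟨b, hb⟩)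
    rw [← incl_connTo n _ d] at h1
    exact (near_conj (fun m => conn A m) hu1 hu2 h1 hb').trans (by linarith)

end criterion

end

end Vale.Agent.P101.JS
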