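import Mathlib

/-!
# P101: dimension drop algebras with coefficients in a C⋆-algebra

`Blk A p q` is the algebra of continuous paths `f : [0,1] → M_p ⊗ M_q ⊗ A` with
`f 0 ∈ M_p ⊗ 1_q ⊗ A` and `f 1 ∈ 1_p ⊗ M_q ⊗ A`; for `A = ℂ` it is `Z_{p,q}`.
-/

namespace Vale.Agent.P101.JS

open scoped CStarAlgebra Topology

set_option linter.unusedSectionVars false

noncomputable section

/-- Row and column indices of `M_p ⊗ M_q`. -/
abbrev Ix (p q : ℕ) : Type := Fin p × Fin q

variable (A : Type*) [CStarAlgebra A] [PartialOrder A] [StarOrderedRing A]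

/-- Continuous paths of matrices over `A`. -/
abbrev MPath (N : Type) [Fintype N] [DecidableEq N] : Type _ :=
  C(unitInterval, CStarMatrix N N A)

variable {A}

/-- `M ∈ M_p(A) ⊗ 1_q`. -/
def IsLeft {p q : ℕ} (M : CStarMatrix (Ix p q) (Ix p q) A) : Prop :=
  ∃ a : Fin p → Fin p → A, ∀ x y : Ix p q, M x y = if x.2 = y.2 then a x.1 y.1 else 0

/-- `M ∈ 1_p ⊗ M_q(A)`. -/
def IsRight {p q : ℕ} (M : CStarMatrix (Ix p q) (Ix p q) A) : Prop :=
  ∃ b : Fin q → Fin q → A, ∀ x y : Ix p q, M x y = if x.1 = y.1 then b x.2 y.2 else 0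

/-- The two boundary conditions. -/
def IsBlk {p q : ℕ} (f : MPath A (Ix p q)) : Prop :=
  IsLeft (f 0) ∧ IsRight (f 1)

section algebraic

variable {p q : ℕ} {M M' : CStarMatrix (Ix p q) (Ix p q) A}

theorem IsLeft.add (h : IsLeft M) (h' : IsLeft M') : IsLeft (M + M') := by
  obtain ⟨a, ha⟩ := h
  obtain ⟨a', ha'⟩ := h'
  refine ⟨a + a', fun x y => ?_⟩
  rw [CStarMatrix.add_apply, ha, ha']
  split_ifs <;> simp

theorem IsLeft.mul (h : IsLeft M) (h' : IsLeft M') : IsLeft (M * M') := by
  obtain ⟨a, ha⟩ := h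
  obtain ⟨a', ha'⟩ := h'
  refine ⟨fun i i' => ∑ s, a i s * a' s i', fun x y => ?_⟩
  simp only [CStarMatrix.mul_apply, ha, ha', Fintype.sum_prod_type]
  rw [Finset.sum_comm, Finset.sum_eq_single x.2]
  · by_cases hxy : x.2 = y.2 <;> simp [hxy]
  · intro r _ hr; simp [Ne.symm hr]
  · simp

theorem IsLeft.conj (h : IsLeft M) : IsLeft (star M) := by
  obtain ⟨a, ha⟩ := h
  refine ⟨fun i i' => star (a i' i), fun x y => ?_⟩
  rw [CStarMatrix.star_apply, ha]
  by_cases hxy : x.2 = y.2
  · simp [hxy]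
  · simp [hxy, Ne.symm hxy]

theorem isLeft_scalar (r : ℂ) :
    IsLeft (algebraMap ℂ (CStarMatrix (Ix p q) (Ix p q) A) r) := by
  refine ⟨fun i i' => if i = i' then algebraMap ℂ A r else 0, fun x y => ?_⟩
  rw [CStarMatrix.algebraMap_apply]
  by_cases h1 : x.1 = y.1 <;> by_cases h2 : x.2 = y.2 <;> simp [h1, h2, Prod.ext_iff]

theorem IsRight.add (h : IsRight M) (h' : IsRight M') : IsRight (M + M') := by
  obtain ⟨a, ha⟩ := h
  obtain ⟨a', ha'⟩ := h'
  refine ⟨a + a', fun x y => ?_⟩
  rw [CStarMatrix.add_apply, ha, ha']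
  split_ifs <;> simp

theorem IsRight.mul (h : IsRight M) (h' : IsRight M') : IsRight (M * M') := by
  obtain ⟨a, ha⟩ := h
  obtain ⟨a', ha'⟩ := h'
  refine ⟨fun i i' => ∑ s, a i s * a' s i', fun x y => ?_⟩
  simp only [CStarMatrix.mul_apply, ha, ha', Fintype.sum_prod_type]
  rw [Finset.sum_eq_single x.1]
  · by_cases hxy : x.1 = y.1 <;> simp [hxy]
  · intro r _ hr; simp [Ne.symm hr]
  · simp

theorem IsRight.conj (h : IsRight M) : IsRight (star M) := by
  obtain ⟨a, ha⟩ := h
  refine ⟨fun i i' => star (a i' i), fun x y => ?_⟩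
  rw [CStarMatrix.star_apply, ha]
  by_cases hxy : x.1 = y.1
  · simp [hxy]
  · simp [hxy, Ne.symm hxy]

theorem isRight_scalar (r : ℂ) :
    IsRight (algebraMap ℂ (CStarMatrix (Ix p q) (Ix p q) A) r) := by
  refine ⟨fun i i' => if i = i' then algebraMap ℂ A r else 0, fun x y => ?_⟩
  rw [CStarMatrix.algebraMap_apply]
  by_cases h1 : x.1 = y.1 <;> by_cases h2 : x.2 = y.2 <;> simp [h1, h2, Prod.ext_iff]

end algebraic

variable (A) in
/-- `Z_{p,q} ⊗ A`: paths in `M_p ⊗ M_q ⊗ A` with left end in `M_p ⊗ 1 ⊗ A` and right end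
in `1 ⊗ M_q ⊗ A`. -/
def Blk (p q : ℕ) : StarSubalgebra ℂ (MPath A (Ix p q)) where
  carrier := {f | IsBlk f}
  mul_mem' hf hg := ⟨hf.1.mul hg.1, hf.2.mul hg.2⟩
  one_mem' := ⟨by simpa using isLeft_scalar (A := A) (p := p) (q := q) 1,
    by simpa using isRight_scalar (A := A) (p := p) (q := q) 1⟩
  add_mem' hf hg := ⟨hf.1.add hg.1, hf.2.add hg.2⟩
  zero_mem' := ⟨by simpa using isLeft_scalar (A := A) (p := p) (q := q) 0,
    by simpa using isRight_scalar (A := A) (p := p) (q := q) 0⟩
  algebraMap_mem' r := ⟨isLeft_scalar r, isRight_scalar r⟩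
  star_mem' hf := ⟨hf.1.conj, hf.2.conj⟩

theorem mem_blk {p q : ℕ} {f : MPath A (Ix p q)} : f ∈ Blk A p q ↔ IsBlk f := Iff.rfl

theorem continuous_entry {N : Type} [Fintype N] [DecidableEq N] (x y : N) :
    Continuous (fun M : CStarMatrix N N A => M x y) :=
  (continuous_id.matrix_elem x y).comp CStarMatrix.ofMatrixL.symm.continuous

theorem isClosed_isLeft {p q : ℕ} :
    IsClosed {M : CStarMatrix (Ix p q) (Ix p q) A | IsLeft M} := by
  classical
  rcases isEmpty_or_nonempty (Fin q) with hq | ⟨⟨j₀⟩⟩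
  · have : {M : CStarMatrix (Ix p q) (Ix p q) A | IsLeft M} = Set.univ :=
      Set.eq_univ_of_forall fun M => ⟨0, fun x => hq.elim x.2⟩
    simp [this]
  · have : {M : CStarMatrix (Ix p q) (Ix p q) A | IsLeft M} =
        ⋂ (x : Ix p q) (y : Ix p q),
          {M | M x y = if x.2 = y.2 then M (x.1, j₀) (y.1, j₀) else 0} := by
      ext M
      simp only [Set.mem_iInter, Set.mem_ofPred_eq]
      constructor
      · rintro ⟨a, ha⟩ x y
        rw [ha, ha (x.1, j₀)]; simp
      · exact fun h => ⟨fun i i' => M (i, j₀) (i', j₀), h⟩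
    rw [this]
    refine isClosed_iInter fun x => isClosed_iInter fun y => ?_
    split_ifs
    · exact isClosed_eq (continuous_entry x y) (continuous_entry _ _)
    · exact isClosed_eq (continuous_entry x y) continuous_const

theorem isClosed_isRight {p q : ℕ} :
    IsClosed {M : CStarMatrix (Ix p q) (Ix p q) A | IsRight M} := by
  classical
  rcases isEmpty_or_nonempty (Fin p) with hp | ⟨⟨i₀⟩⟩
  · have : {M : CStarMatrix (Ix p q) (Ix p q) A | IsRight M} = Set.univ :=
      Set.eq_univ_of_forall fun M => ⟨0, fun x => hp.elim x.1⟩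
    simp [this]
  · have : {M : CStarMatrix (Ix p q) (Ix p q) A | IsRight M} =
        ⋂ (x : Ix p q) (y : Ix p q),
          {M | M x y = if x.1 = y.1 then M (i₀, x.2) (i₀, y.2) else 0} := by
      ext M
      simp only [Set.mem_iInter, Set.mem_ofPred_eq]
      constructor
      · rintro ⟨a, ha⟩ x y
        rw [ha, ha (i₀, x.2)]; simp
      · exact fun h => ⟨fun j j' => M (i₀, j) (i₀, j'), h⟩
    rw [this]
    refine isClosed_iInter fun x => isClosed_iInter fun y => ?_
    split_ifs
    · exact isClosed_eq (continuous_entry x y) (continuous_entry _ _)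
    · exact isClosed_eq (continuous_entry x y) continuous_const

instance blk_closed {p q : ℕ} : IsClosed (Blk A p q : Set (MPath A (Ix p q))) := by
  have h : (Blk A p q : Set (MPath A (Ix p q))) =
      (fun f : MPath A (Ix p q) => f 0) ⁻¹' {M | IsLeft M} ∩
      (fun f : MPath A (Ix p q) => f 1) ⁻¹' {M | IsRight M} := rfl
  rw [h]
  exact (isClosed_isLeft.preimage (continuous_eval_const 0)).inter
    (isClosed_isRight.preimage (continuous_eval_const 1))

instance blkCStar {p q : ℕ} : CStarAlgebra (Blk A p q) :=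
  StarSubalgebra.cstarAlgebra (Blk A p q)

variable (A) in
/-- A scalar matrix as a matrix over `A`. -/
def sc (N : Type) [Fintype N] [DecidableEq N] :
    CStarMatrix N N ℂ →⋆ₐ[ℂ] CStarMatrix N N A where
  toFun M := M.map (algebraMap ℂ A)
  map_one' := by
    refine CStarMatrix.ext fun i j => ?_
    rw [CStarMatrix.map_apply, CStarMatrix.one_apply, CStarMatrix.one_apply]
    split_ifs <;> simp
  map_mul' M M' := by
    refine CStarMatrix.ext fun i j => ?_
    simp [CStarMatrix.map_apply, CStarMatrix.mul_apply, map_sum]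
  map_zero' := by refine CStarMatrix.ext fun i j => ?_; simp [CStarMatrix.map_apply]
  map_add' M M' := by refine CStarMatrix.ext fun i j => ?_; simp [CStarMatrix.map_apply]
  commutes' r := by
    refine CStarMatrix.ext fun i j => ?_
    rw [CStarMatrix.map_apply, CStarMatrix.algebraMap_apply, CStarMatrix.algebraMap_apply]
    split_ifs <;> simp
  map_star' M := by
    refine CStarMatrix.ext fun i j => ?_
    rw [CStarMatrix.map_apply, CStarMatrix.star_apply, CStarMatrix.star_apply, CStarMatrix.map_apply]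
    exact algebraMap_star_comm (A := A) (M j i)

variable (A) in
/-- `a` on the diagonal. -/
def dg (N : Type) [Fintype N] [DecidableEq N] : A →⋆ₐ[ℂ] CStarMatrix N N A where
  toFun a := CStarMatrix.ofMatrix (Matrix.of fun i j => if i = j then a else 0)
  map_one' := by refine CStarMatrix.ext fun i j => ?_; simp [CStarMatrix.one_apply]
  map_mul' a b := by
    refine CStarMatrix.ext fun i j => ?_
    simp [CStarMatrix.mul_apply, ite_mul]
  map_zero' := by refine CStarMatrix.ext fun i j => ?_; simp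
  map_add' a b := by
    refine CStarMatrix.ext fun i j => ?_
    simp only [CStarMatrix.ofMatrix_apply, CStarMatrix.add_apply, Matrix.of_apply]
    split_ifs <;> simp
  commutes' r := by
    refine CStarMatrix.ext fun i j => ?_
    rw [CStarMatrix.algebraMap_apply]; simp
  map_star' a := by
    refine CStarMatrix.ext fun i j => ?_
    simp only [CStarMatrix.ofMatrix_apply, CStarMatrix.star_apply, Matrix.of_apply]
    by_cases h : i = j
    · simp [h]
    · simp [h, Ne.symm h]

variable {B : Type*} [CStarAlgebra B] [PartialOrder B] [StarOrderedRing B]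

/-- A *-homomorphism applied entrywise. -/
def mapM (N : Type) [Fintype N] [DecidableEq N] (ψ : A →⋆ₐ[ℂ] B) :
    CStarMatrix N N A →⋆ₐ[ℂ] CStarMatrix N N B where
  toFun M := M.map ψ
  map_one' := by
    refine CStarMatrix.ext fun i j => ?_
    rw [CStarMatrix.map_apply, CStarMatrix.one_apply, CStarMatrix.one_apply]
    split_ifs <;> simp
  map_mul' M M' := by
    refine CStarMatrix.ext fun i j => ?_
    simp [CStarMatrix.map_apply, CStarMatrix.mul_apply, map_sum]
  map_zero' := by refine CStarMatrix.ext fun i j => ?_; simp [CStarMatrix.map_apply]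
  map_add' M M' := by refine CStarMatrix.ext fun i j => ?_; simp [CStarMatrix.map_apply]
  commutes' r := by
    refine CStarMatrix.ext fun i j => ?_
    rw [CStarMatrix.map_apply, CStarMatrix.algebraMap_apply, CStarMatrix.algebraMap_apply]
    split_ifs
    · exact AlgHomClass.commutes ψ r
    · exact map_zero ψ
  map_star' M := by
    refine CStarMatrix.ext fun i j => ?_
    simp [CStarMatrix.map_apply, CStarMatrix.star_apply, map_star]

theorem sc_apply {N : Type} [Fintype N] [DecidableEq N] (M : CStarMatrix N N ℂ) (i j : N) :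
    sc A N M i j = algebraMap ℂ A (M i j) := rfl

theorem dg_apply {N : Type} [Fintype N] [DecidableEq N] (a : A) (i j : N) :
    dg A N a i j = if i = j then a else 0 := rfl

theorem mapM_apply {N : Type} [Fintype N] [DecidableEq N] (ψ : A →⋆ₐ[ℂ] B)
    (M : CStarMatrix N N A) (i j : N) : mapM N ψ M i j = ψ (M i j) := rfl

theorem continuous_of_entries {X : Type*} [TopologicalSpace X] {N : Type} [Fintype N]
    [DecidableEq N] {f : X → CStarMatrix N N A} (h : ∀ i j, Continuous fun x => f x i j) :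
    Continuous f :=
  CStarMatrix.ofMatrixL.continuous.comp (continuous_matrix h)

variable (A) in
/-- `1 ⊗ a` in `Z_{p,q} ⊗ A`. -/
def const (p q : ℕ) : A →⋆ₐ[ℂ] Blk A p q where
  toFun a := ⟨ContinuousMap.const unitInterval (dg A (Ix p q) a),
    ⟨⟨fun i i' => if i = i' then a else 0, fun x y => by
      simp only [ContinuousMap.const_apply, dg_apply]
      by_cases h1 : x.1 = y.1 <;> by_cases h2 : x.2 = y.2 <;> simp [h1, h2, Prod.ext_iff]⟩,
    ⟨fun j j' => if j = j' then a else 0, fun x y => by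
      simp only [ContinuousMap.const_apply, dg_apply]
      by_cases h1 : x.1 = y.1 <;> by_cases h2 : x.2 = y.2 <;> simp [h1, h2, Prod.ext_iff]⟩⟩⟩
  map_one' := Subtype.ext (ContinuousMap.ext fun _ => map_one (dg A (Ix p q)))
  map_mul' a b := Subtype.ext (ContinuousMap.ext fun _ => map_mul (dg A (Ix p q)) a b)
  map_zero' := Subtype.ext (ContinuousMap.ext fun _ => map_zero (dg A (Ix p q)))
  map_add' a b := Subtype.ext (ContinuousMap.ext fun _ => map_add (dg A (Ix p q)) a b)
  commutes' r := Subtype.ext (ContinuousMap.ext fun _ =>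
    AlgHomClass.commutes (dg A (Ix p q)) r)
  map_star' a := Subtype.ext (ContinuousMap.ext fun _ => map_star (dg A (Ix p q)) a)

theorem const_apply {p q : ℕ} (a : A) (t : unitInterval) :
    (const A p q a : MPath A (Ix p q)) t = dg A (Ix p q) a := rfl

theorem continuous_mapM {N : Type} [Fintype N] [DecidableEq N] (ψ : A →⋆ₐ[ℂ] B) :
    Continuous (mapM N ψ) :=
  continuous_of_entries fun i j => (map_continuous ψ).comp (continuous_entry i j)

/-- A unital *-homomorphism applied to the coefficients. -/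
def mapBlk (p q : ℕ) (ψ : A →⋆ₐ[ℂ] B) : Blk A p q →⋆ₐ[ℂ] Blk B p q where
  toFun f := ⟨⟨fun t => mapM (Ix p q) ψ ((f : MPath A (Ix p q)) t),
      (continuous_mapM ψ).comp (f : MPath A (Ix p q)).continuous⟩, by
    obtain ⟨⟨a, ha⟩, b, hb⟩ := f.2
    refine ⟨⟨fun i i' => ψ (a i i'), fun x y => ?_⟩, ⟨fun j j' => ψ (b j j'), fun x y => ?_⟩⟩
    · rw [ContinuousMap.coe_mk, mapM_apply, ha]
      split_ifs <;> simp
    · rw [ContinuousMap.coe_mk, mapM_apply, hb]
      split_ifs <;> simp⟩
  map_one' := Subtype.ext (ContinuousMap.ext fun _ => map_one (mapM (Ix p q) ψ))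
  map_mul' _ _ := Subtype.ext (ContinuousMap.ext fun _ => map_mul (mapM (Ix p q) ψ) _ _)
  map_zero' := Subtype.ext (ContinuousMap.ext fun _ => map_zero (mapM (Ix p q) ψ))
  map_add' _ _ := Subtype.ext (ContinuousMap.ext fun _ => map_add (mapM (Ix p q) ψ) _ _)
  commutes' r := Subtype.ext (ContinuousMap.ext fun _ =>
    AlgHomClass.commutes (mapM (Ix p q) ψ) r)
  map_star' _ := Subtype.ext (ContinuousMap.ext fun _ => map_star (mapM (Ix p q) ψ) _)

theorem mapBlk_apply {p q : ℕ} (ψ : A →⋆ₐ[ℂ] B) (f : Blk A p q) (t : unitInterval) :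
    (mapBlk p q ψ f : MPath B (Ix p q)) t = mapM (Ix p q) ψ ((f : MPath A (Ix p q)) t) := rfl

open scoped ComplexOrder in
variable (A) in
/-- `z ⊗ 1` in `Z_{p,q} ⊗ A`. -/
def scBlk (p q : ℕ) : Blk ℂ p q →⋆ₐ[ℂ] Blk A p q :=
  mapBlk p q (StarAlgHom.ofId ℂ A)

end

end Vale.Agent.P101.JS
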