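import Vale.Agent.P101.JS.Base

/-!
# P101: block diagonals, permutation paths, changes of index
-/

namespace Vale.Agent.P101.JS

set_option linter.unusedSectionVars false

open scoped ComplexOrder CStarAlgebra Topology

noncomputable section

variable {A : Type*} [CStarAlgebra A] [PartialOrder A] [StarOrderedRing A]
variable {B : Type*} [CStarAlgebra B] [PartialOrder B] [StarOrderedRing B]
variable {N M : Type} [Fintype N] [DecidableEq N] [Fintype M] [DecidableEq M] {k : ℕ}

variable (A) in
/-- `diag(F 0, …, F (k-1))` written on the index set `N ≃ Fin k × M`. -/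
def bd (e : N ≃ Fin k × M) : (Fin k → CStarMatrix M M A) →⋆ₐ[ℂ] CStarMatrix N N A where
  toFun F := CStarMatrix.ofMatrix (Matrix.of fun x y =>
    if (e x).1 = (e y).1 then F (e x).1 (e x).2 (e y).2 else 0)
  map_one' := by
    refine CStarMatrix.ext fun x y => ?_
    simp only [CStarMatrix.ofMatrix_apply, Matrix.of_apply, Pi.one_apply, CStarMatrix.one_apply]
    rcases eq_or_ne x y with rfl | hxy
    · simp
    · rw [if_neg hxy]
      split_ifs with h1 h2
      · exact absurd (e.injective (Prod.ext h1 h2)) hxy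
      · rfl
      · rfl
  map_mul' F G := by
    refine CStarMatrix.ext fun x y => ?_
    simp only [CStarMatrix.ofMatrix_apply, Matrix.of_apply, CStarMatrix.mul_apply, Pi.mul_apply]
    rw [← e.symm.sum_comp, Fintype.sum_prod_type,
      Finset.sum_eq_single (e x).1]
    · simp only [Equiv.apply_symm_apply, if_true]
      split_ifs <;> simp
    · intro j _ hj
      simp [Ne.symm hj]
    · simp
  map_zero' := by
    refine CStarMatrix.ext fun x y => ?_
    simp
  map_add' F G := by
    refine CStarMatrix.ext fun x y => ?_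
    simp only [CStarMatrix.ofMatrix_apply, Matrix.of_apply, CStarMatrix.add_apply, Pi.add_apply]
    split_ifs <;> simp
  commutes' r := by
    refine CStarMatrix.ext fun x y => ?_
    simp only [CStarMatrix.ofMatrix_apply, Matrix.of_apply, Pi.algebraMap_apply,
      CStarMatrix.algebraMap_apply]
    rcases eq_or_ne x y with rfl | hxy
    · simp
    · rw [if_neg hxy]
      split_ifs with h1 h2
      · exact absurd (e.injective (Prod.ext h1 h2)) hxy
      · rfl
      · rfl
  map_star' F := by
    refine CStarMatrix.ext fun x y => ?_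
    simp only [CStarMatrix.ofMatrix_apply, Matrix.of_apply, CStarMatrix.star_apply, Pi.star_apply]
    by_cases h : (e x).1 = (e y).1
    · rw [if_pos h, if_pos h.symm, ← h]
    · rw [if_neg h, if_neg (fun h' => h h'.symm), star_zero]

theorem bd_apply (e : N ≃ Fin k × M) (F : Fin k → CStarMatrix M M A) (x y : N) :
    bd A e F x y = if (e x).1 = (e y).1 then F (e x).1 (e x).2 (e y).2 else 0 := rfl

theorem norm_bd_le (e : N ≃ Fin k × M) {F : Fin k → CStarMatrix M M A} {c : ℝ} (hc : 0 ≤ c)
    (h : ∀ j, ‖F j‖ ≤ c) : ‖bd A e F‖ ≤ c :=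
  (NonUnitalStarAlgHom.norm_apply_le (bd A e) F).trans ((pi_norm_le_iff_of_nonneg hc).2 h)

theorem bd_dg (e : N ≃ Fin k × M) (a : A) : bd A e (fun _ => dg A M a) = dg A N a := by
  refine CStarMatrix.ext fun x y => ?_
  rw [bd_apply, dg_apply, dg_apply]
  by_cases hxy : x = y
  · simp [hxy]
  · rw [if_neg hxy]
    split_ifs with h1 h2
    · exact absurd (e.injective (Prod.ext h1 h2)) hxy
    · rfl
    · rfl

theorem mapM_bd (e : N ≃ Fin k × M) (ψ : A →⋆ₐ[ℂ] B) (F : Fin k → CStarMatrix M M A) :
    mapM N ψ (bd A e F) = bd B e (fun j => mapM M ψ (F j)) := by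
  refine CStarMatrix.ext fun x y => ?_
  rw [mapM_apply, bd_apply, bd_apply]
  split_ifs
  · rfl
  · exact map_zero ψ

theorem mapM_sc (ψ : A →⋆ₐ[ℂ] B) (m : CStarMatrix N N ℂ) : mapM N ψ (sc A N m) = sc B N m := by
  refine CStarMatrix.ext fun x y => ?_
  rw [mapM_apply, sc_apply, sc_apply]
  exact AlgHomClass.commutes ψ _

theorem mapM_dg (ψ : A →⋆ₐ[ℂ] B) (a : A) : mapM N ψ (dg A N a) = dg B N (ψ a) := by
  refine CStarMatrix.ext fun x y => ?_
  rw [mapM_apply, dg_apply, dg_apply]
  split_ifs
  · rfl
  · exact map_zero ψ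

theorem commute_sc_dg (m : CStarMatrix N N ℂ) (a : A) : Commute (sc A N m) (dg A N a) := by
  refine CStarMatrix.ext fun x y => ?_
  simp only [CStarMatrix.mul_apply, sc_apply, dg_apply, mul_ite, ite_mul, mul_zero, zero_mul,
    Finset.sum_ite_eq, Finset.sum_ite_eq', Finset.mem_univ, if_true]
  exact Algebra.commutes _ _

/-- The matrix of a permutation: `(P m P*) x y = m (σ x) (σ y)`. -/
def permC (σ : Equiv.Perm N) : CStarMatrix N N ℂ :=
  CStarMatrix.ofMatrix (Matrix.of fun x z => if z = σ x then 1 else 0)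

theorem permC_apply (σ : Equiv.Perm N) (x z : N) : permC σ x z = if z = σ x then 1 else 0 := rfl

theorem permC_one : permC (1 : Equiv.Perm N) = 1 := by
  refine CStarMatrix.ext fun x z => ?_
  rw [permC_apply, CStarMatrix.one_apply]
  by_cases h : x = z
  · simp [h]
  · simp [h, Ne.symm h]

theorem permC_mul (σ τ : Equiv.Perm N) : permC σ * permC τ = permC (τ * σ) := by
  refine CStarMatrix.ext fun x z => ?_
  rw [CStarMatrix.mul_apply, Finset.sum_eq_single (σ x)]
  · simp only [permC_apply, Equiv.Perm.coe_mul, Function.comp_apply, if_true, one_mul]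
    exact if_congr Iff.rfl rfl rfl
  · intro b _ hb; simp [permC_apply, hb]
  · simp

theorem permC_swap_sq (i j : N) : permC (Equiv.swap i j) * permC (Equiv.swap i j) = 1 := by
  rw [permC_mul, Equiv.swap_mul_self, permC_one]

theorem permC_star (σ : Equiv.Perm N) : star (permC σ) = permC σ⁻¹ := by
  refine CStarMatrix.ext fun x z => ?_
  rw [CStarMatrix.star_apply, permC_apply, permC_apply]
  by_cases h : x = σ z
  · subst h
    simp
  · rw [if_neg h, if_neg, star_zero]
    rintro rfl
    exact h (σ.apply_symm_apply x).symm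

theorem sc_conj_perm (σ : Equiv.Perm N) (m : CStarMatrix N N A) (x y : N) :
    (sc A N (permC σ) * m * star (sc A N (permC σ))) x y = m (σ x) (σ y) := by
  rw [← map_star, CStarMatrix.mul_apply, Finset.sum_eq_single (σ y)]
  · rw [CStarMatrix.mul_apply, Finset.sum_eq_single (σ x)]
    · simp [sc_apply, permC_star, permC_apply]
    · intro b _ hb; simp [sc_apply, permC_apply, hb]
    · simp
  · intro b _ hb
    have : y ≠ σ⁻¹ b := by
      rintro rfl
      exact hb (σ.apply_symm_apply b).symm
    rw [sc_apply, permC_star, permC_apply, if_neg this, map_zero, mul_zero]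
  · simp

/-- A self-adjoint unitary is joined to `1` by a path of unitaries. -/
theorem exists_path_symmetry {S : CStarMatrix N N ℂ} (hs : star S = S) (h2 : S * S = 1) :
    ∃ V : MPath ℂ N, star V * V = 1 ∧ V * star V = 1 ∧ V 0 = 1 ∧ V 1 = S := by
  set c : unitInterval → ℂ := fun t => Complex.exp ((Real.pi * (t : ℝ) : ℝ) * Complex.I) with hc
  set P : CStarMatrix N N ℂ := (1 / 2 : ℂ) • (1 + S) with hP
  set Q : CStarMatrix N N ℂ := (1 / 2 : ℂ) • (1 - S) with hQ
  have hPP : P * P = P := by
    rw [hP, smul_mul_smul_comm]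
    simp only [mul_add, add_mul, mul_one, one_mul, h2]
    match_scalars <;> norm_num
  have hQQ : Q * Q = Q := by
    rw [hQ, smul_mul_smul_comm]
    simp only [mul_sub, sub_mul, mul_one, one_mul, h2]
    match_scalars <;> norm_num
  have hPQ : P * Q = 0 := by
    rw [hP, hQ, smul_mul_smul_comm]
    simp [mul_sub, add_mul, h2, add_comm]
  have hQP : Q * P = 0 := by
    rw [hP, hQ, smul_mul_smul_comm]
    simp [mul_add, sub_mul, h2]
  have hPs : star P = P := by
    rw [hP, star_smul, star_add, star_one, hs]; norm_num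
  have hQs : star Q = Q := by
    rw [hQ, star_smul, star_sub, star_one, hs]; norm_num
  have hsum : P + Q = 1 := by
    rw [hP, hQ]; match_scalars <;> norm_num
  have hcc : ∀ t, star (c t) * c t = 1 := by
    intro t
    rw [hc, Complex.star_def, ← Complex.exp_conj, ← Complex.exp_add]
    simp
  refine ⟨⟨fun t => P + c t • Q, by fun_prop⟩, ?_, ?_, ?_, ?_⟩
  · ext1 t
    simp only [ContinuousMap.mul_apply, ContinuousMap.star_apply, ContinuousMap.coe_mk,
      ContinuousMap.one_apply, star_add, star_smul, hPs, hQs, add_mul, mul_add, smul_mul_assoc,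
      mul_smul_comm, smul_smul, hPP, hQQ, hPQ, hQP, smul_zero, add_zero, zero_add]
    rw [mul_comm, hcc t, one_smul]
    exact hsum
  · ext1 t
    simp only [ContinuousMap.mul_apply, ContinuousMap.star_apply, ContinuousMap.coe_mk,
      ContinuousMap.one_apply, star_add, star_smul, hPs, hQs, add_mul, mul_add, smul_mul_assoc,
      mul_smul_comm, smul_smul, hPP, hQQ, hPQ, hQP, smul_zero, add_zero, zero_add]
    rw [hcc t, one_smul]
    exact hsum
  · simp [hc, hsum]
  · simp only [ContinuousMap.coe_mk, hc, Set.Icc.coe_one, mul_one, Complex.exp_pi_mul_I]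
    rw [hP, hQ]; match_scalars <;> norm_num

theorem exists_path_perm (σ : Equiv.Perm N) :
    ∃ V : MPath ℂ N, star V * V = 1 ∧ V * star V = 1 ∧ V 0 = 1 ∧ V 1 = permC σ := by
  induction σ using Equiv.Perm.swap_induction_on with
  | one => exact ⟨1, by ext1 t; simp, by ext1 t; simp, rfl, by simp [permC_one]⟩
  | swap_mul f i j hij ih =>
    obtain ⟨V, h1, h2, h3, h4⟩ := ih
    obtain ⟨W, g1, g2, g3, g4⟩ := exists_path_symmetry
      (S := permC (Equiv.swap i j)) (by rw [permC_star, Equiv.swap_inv]) (permC_swap_sq i j)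
    refine ⟨V * W, ?_, ?_, ?_, ?_⟩
    · ext1 t
      have e1 := DFunLike.congr_fun h1 t
      have e2 := DFunLike.congr_fun g1 t
      simp only [ContinuousMap.mul_apply, ContinuousMap.star_apply,
        ContinuousMap.one_apply] at e1 e2 ⊢
      rw [star_mul, mul_assoc, ← mul_assoc (star (V t)), e1, one_mul, e2]
    · ext1 t
      have e1 := DFunLike.congr_fun h2 t
      have e2 := DFunLike.congr_fun g2 t
      simp only [ContinuousMap.mul_apply, ContinuousMap.star_apply,
        ContinuousMap.one_apply] at e1 e2 ⊢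
      rw [star_mul, mul_assoc, ← mul_assoc (W t), e2, one_mul, e1]
    · rw [ContinuousMap.mul_apply, h3, g3, one_mul]
    · rw [ContinuousMap.mul_apply, h4, g4, permC_mul]

end

end Vale.Agent.P101.JS
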