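import Vale.Agent.P101.JS.Base
import Vale.Agent.P101.UltraDefs
import Vale.Agent.P101.DimDropDef

/-!
# P101: the statements of the parts of the Z-stability argument
-/

namespace Vale.Agent.P101.JS

open scoped ComplexOrder CStarAlgebra Topology

noncomputable section

universe u

/-- The half flip: if `g ∈ G` is, up to conjugation by a unitary path, almost constant, then a
unitary of `Z ⊗ Z` almost moves `1 ⊗ g` to `g ⊗ 1`. -/
def HalfFlipStatement : Prop :=
  ∀ (p q : ℕ), 0 < p → 0 < q →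
    letI : PartialOrder (Blk ℂ p q) := CStarAlgebra.spectralOrder (Blk ℂ p q)
    letI : StarOrderedRing (Blk ℂ p q) := CStarAlgebra.spectralOrderedRing (Blk ℂ p q)
    ∀ (G : Set (Blk ℂ p q)) (η : ℝ) (U : MPath ℂ (Ix p q)),
      star U * U = 1 → U * star U = 1 →
      (∀ g ∈ G, ∀ t s : unitInterval,
        ‖star (U t) * (g : MPath ℂ (Ix p q)) t * U t
          - star (U s) * (g : MPath ℂ (Ix p q)) s * U s‖ ≤ η) →
      ∃ H : Blk (Blk ℂ p q) p q, star H * H = 1 ∧ H * star H = 1 ∧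
        ∀ g ∈ G, ‖star H * scBlk (Blk ℂ p q) p q g * H - const (Blk ℂ p q) p q g‖ ≤ 10 * η

/-- Every prime dimension drop algebra maps unitally into some `Z_{n,n+1}`. -/
def DimDropHomStatement : Prop :=
  ∀ p q : ℕ, 2 ≤ p → 2 ≤ q → Nat.Coprime p q →
    ∃ n : ℕ, 2 ≤ n ∧ Nonempty (Blk ℂ p q →⋆ₐ[ℂ] DimDrop n)

open VAgent.P101 in
/-- Unitaries over the ultrapower lift to unitaries over the algebra. -/
def LiftStatement : Prop :=
  ∀ (A : Type u) [CStarAlgebra A] [PartialOrder A] [StarOrderedRing A] [Nontrivial A]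
    (ω : Ultrafilter ℕ) (p q : ℕ),
    letI : PartialOrder (UPow A ω) := CStarAlgebra.spectralOrder (UPow A ω)
    letI : StarOrderedRing (UPow A ω) := CStarAlgebra.spectralOrderedRing (UPow A ω)
    ∀ (ic : A →⋆ₐ[ℂ] UPow A ω), (∀ a, ic a = UPow.const a) →
    ∀ (V : Blk (UPow A ω) p q), star V * V = 1 → V * star V = 1 →
    ∀ (F : Finset A), (∀ a ∈ F, V * const (UPow A ω) p q (ic a) = const (UPow A ω) p q (ic a) * V) →
    ∀ (G : Finset (Blk A p q)) (η ε : ℝ), 0 < ε →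
      (∀ X ∈ G, ∃ c : UPow A ω,
        ‖star V * mapBlk p q ic X * V - const (UPow A ω) p q c‖ ≤ η) →
      ∃ u : Blk A p q, star u * u = 1 ∧ u * star u = 1 ∧
        (∀ a ∈ F, ‖u * const A p q a - const A p q a * u‖ ≤ ε) ∧
        ∀ X ∈ G, ∃ b : A, ‖star u * X * u - const A p q b‖ ≤ η + ε

/-- `Z_{p,q} ⊗ A` is spanned by the products `z ⊗ a`. -/
def DensityStatement : Prop :=
  ∀ (A : Type u) [CStarAlgebra A] [PartialOrder A] [StarOrderedRing A] (p q : ℕ) (f : Blk A p q)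
    (ε : ℝ), 0 < ε →
    ∃ (L : ℕ) (a : Fin L → A) (g : Fin L → Blk ℂ p q),
      ‖f - ∑ i, const A p q (a i) * scBlk A p q (g i)‖ ≤ ε

/-- Elliott intertwining: a unital inclusion is unitarily close to being onto. -/
def IntertwineStatement : Prop :=
  ∀ (A B : Type u) [CStarAlgebra A] [CStarAlgebra B] [TopologicalSpace.SeparableSpace A]
    [TopologicalSpace.SeparableSpace B] (c : A →⋆ₐ[ℂ] B), Function.Injective c →
    (∀ (F : Finset A) (G : Finset B) (ε : ℝ), 0 < ε → ∃ u : B, star u * u = 1 ∧ u * star u = 1 ∧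
      (∀ a ∈ F, ‖u * c a - c a * u‖ ≤ ε) ∧ ∀ b ∈ G, ∃ a : A, ‖star u * b * u - c a‖ ≤ ε) →
    Nonempty (A ≃⋆ₐ[ℂ] B)

end

end Vale.Agent.P101.JS
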